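import Mathlib

/-!
The Prekopa-Leindler inequality for the standard Gaussian measure on `Fin n → ℝ`.
-/

open MeasureTheory ProbabilityTheory Set
open scoped ENNReal NNReal Pointwise

namespace Vale.Agent.P262

/-- The standard Gaussian measure on `Fin n → ℝ`. -/
noncomputable def gauss (n : ℕ) : Measure (Fin n → ℝ) :=
  Measure.pi fun _ : Fin n => gaussianReal 0 1

instance gauss_isProb (n : ℕ) : IsProbabilityMeasure (gauss n) := by
  unfold gauss; infer_instance

/-- One-dimensional Brunn-Minkowski inequality for compact sets. -/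
lemma volume_add_ge {K L : Set ℝ} (hK : IsCompact K) (hL : IsCompact L)
    (hK0 : K.Nonempty) (hL0 : L.Nonempty) :
    volume K + volume L ≤ volume (K + L) := by
  obtain ⟨k, hk, hkmax⟩ := hK.exists_isMaxOn hK0 continuous_id.continuousOn
  obtain ⟨l, hl, hlmin⟩ := hL.exists_isMinOn hL0 continuous_id.continuousOn
  have hkmax' : ∀ x ∈ K, x ≤ k := fun x hx => hkmax hx
  have hlmin' : ∀ x ∈ L, l ≤ x := fun x hx => hlmin hx
  have h1 : (· + l) '' K ∪ (k + ·) '' L ⊆ K + L := by
    rintro x (⟨y, hy, rfl⟩ | ⟨y, hy, rfl⟩)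
    · exact Set.add_mem_add hy hl
    · exact Set.add_mem_add hk hy
  have h2 : (· + l) '' K ∩ (k + ·) '' L ⊆ {k + l} := by
    rintro x ⟨⟨y, hy, rfl⟩, z, hz, hzy⟩
    have := hkmax' y hy
    have := hlmin' z hz
    simp only [mem_singleton_iff]
    linarith
  have hm : MeasurableSet ((k + ·) '' L) := (hL.image (continuous_const.add continuous_id)).measurableSet
  have h3 : volume ((· + l) '' K ∪ (k + ·) '' L) = volume K + volume L := by
    have h4 := measure_union_add_inter (μ := volume) ((· + l) '' K) hm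
    have h5 : volume ((· + l) '' K ∩ (k + ·) '' L) = 0 :=
      measure_mono_null h2 (measure_singleton _)
    rw [h5, add_zero] at h4
    rw [h4]
    congr 1
    · simp
    · simp
  calc volume K + volume L = _ := h3.symm
    _ ≤ _ := measure_mono h1

lemma volume_smul_add_ge {A B C : Set ℝ} (hA : MeasurableSet A) (hB : MeasurableSet B)
    (hA0 : A.Nonempty) (hB0 : B.Nonempty) {a b : ℝ} (ha : 0 < a) (hb : 0 < b)
    (h : ∀ x ∈ A, ∀ y ∈ B, a * x + b * y ∈ C) :
    ENNReal.ofReal a * volume A + ENNReal.ofReal b * volume B ≤ volume C := by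
  obtain ⟨x0, hx0⟩ := hA0
  obtain ⟨y0, hy0⟩ := hB0
  rw [hA.measure_eq_iSup_isCompact, hB.measure_eq_iSup_isCompact]
  simp only [ENNReal.mul_iSup]
  have hne1 : ∃ K, K ⊆ A ∧ IsCompact K := ⟨{x0}, by simpa using hx0, isCompact_singleton⟩
  refine ENNReal.biSup_add_biSup_le' (p := fun K => K ⊆ A) (q := fun K => K ⊆ B)
    ⟨∅, empty_subset _⟩ ⟨∅, empty_subset _⟩ ?_
  intro K hKA L hLB
  by_cases hK : IsCompact K
  swap
  · simp only [hK, iSup_false, bot_eq_zero, zero_add]
    by_cases hL : IsCompact L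
    swap
    · simp [hL]
    simp only [hL, iSup_pos]
    have := volume_add_ge (K := a • ({x0} : Set ℝ)) (L := b • L) (isCompact_singleton.smul a)
      (hL.smul b) (by simp)
    rcases L.eq_empty_or_nonempty with rfl | hL0
    · simp
    have := this (hL0.smul_set)
    rw [Measure.addHaar_smul_of_nonneg _ hb.le] at this
    simp only [Module.finrank_self, pow_one] at this
    refine le_trans (le_trans ?_ this) (measure_mono ?_)
    · exact le_add_self
    · rintro z ⟨u, hu, w, ⟨y, hy, rfl⟩, rfl⟩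
      obtain ⟨x, hx, rfl⟩ := hu
      rw [mem_singleton_iff] at hx
      subst hx
      exact h _ hx0 _ (hLB hy)
  simp only [hK, iSup_pos]
  have key : ∀ K' L' : Set ℝ, K' ⊆ A → L' ⊆ B → IsCompact K' → IsCompact L' → K'.Nonempty →
      L'.Nonempty → ENNReal.ofReal a * volume K' + ENNReal.ofReal b * volume L' ≤ volume C := by
    intro K' L' hK' hL' cK cL nK nL
    have := volume_add_ge (cK.smul a) (cL.smul b) nK.smul_set nL.smul_set
    rw [Measure.addHaar_smul_of_nonneg _ ha.le, Measure.addHaar_smul_of_nonneg _ hb.le] at this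
    simp only [Module.finrank_self, pow_one] at this
    refine le_trans this (measure_mono ?_)
    rintro z ⟨u, ⟨x, hx, rfl⟩, w, ⟨y, hy, rfl⟩, rfl⟩
    exact h _ (hK' hx) _ (hL' hy)
  by_cases hL : IsCompact L
  · simp only [hL, iSup_pos]
    refine le_trans ?_ (key (K ∪ {x0}) (L ∪ {y0}) (union_subset hKA (by simpa using hx0))
      (union_subset hLB (by simpa using hy0)) (hK.union isCompact_singleton)
      (hL.union isCompact_singleton) (by simp) (by simp))
    exact add_le_add (mul_le_mul_right (measure_mono subset_union_left) _)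
      (mul_le_mul_right (measure_mono subset_union_left) _)
  · simp only [hL, iSup_false, bot_eq_zero, add_zero]
    refine le_trans ?_ (key (K ∪ {x0}) {y0} (union_subset hKA (by simpa using hx0))
      (by simpa using hy0) (hK.union isCompact_singleton)
      isCompact_singleton (by simp) (by simp))
    exact le_trans (mul_le_mul_right (measure_mono subset_union_left) _) le_self_add

/-- Prekopa-Leindler on the line for functions with values in `[0, ∞)` and bounded. -/
lemma pl_real_bounded {a b : ℝ} (ha : 0 < a) (hb : 0 < b) (hab : a + b = 1)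
    {f g : ℝ → ℝ} {h : ℝ → ℝ≥0∞} (hf : Measurable f) (hg : Measurable g) (hh : Measurable h)
    (hf0 : ∀ x, 0 ≤ f x) (hg0 : ∀ x, 0 ≤ g x) (hfb : BddAbove (range f)) (hgb : BddAbove (range g))
    (hle : ∀ x y, ENNReal.ofReal (f x ^ a * g y ^ b) ≤ h (a * x + b * y)) :
    (∫⁻ x, ENNReal.ofReal (f x)) ^ a * (∫⁻ x, ENNReal.ofReal (g x)) ^ b ≤ ∫⁻ x, h x := by
  set M := ⨆ x, f x with hM
  set M' := ⨆ x, g x with hM'
  have hfM : ∀ x, f x ≤ M := fun x => le_ciSup hfb x
  have hgM : ∀ x, g x ≤ M' := fun x => le_ciSup hgb x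
  rcases eq_or_lt_of_le ((hf0 0).trans (hfM 0)) with hM0 | hM0
  · have : ∀ x, f x = 0 := fun x => le_antisymm (hM0 ▸ hfM x) (hf0 x)
    simp [this, ENNReal.zero_rpow_of_pos ha]
  rcases eq_or_lt_of_le ((hg0 0).trans (hgM 0)) with hM0' | hM0'
  · have : ∀ x, g x = 0 := fun x => le_antisymm (hM0' ▸ hgM x) (hg0 x)
    simp [this, ENNReal.zero_rpow_of_pos hb]
  set c := M ^ a * M' ^ b with hc
  have hc0 : 0 < c := by positivity
  set h' : ℝ → ℝ := fun x => (min (h x) (ENNReal.ofReal c)).toReal / c with hh'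
  have hh'm : Measurable h' := ((hh.min measurable_const).ennreal_toReal).div_const _
  have hh'0 : ∀ x, 0 ≤ h' x := fun x => div_nonneg ENNReal.toReal_nonneg hc0.le
  have hh'le : ∀ x, ENNReal.ofReal (c * h' x) ≤ h x := by
    intro x
    simp only [hh']
    rw [mul_div_cancel₀ _ hc0.ne', ENNReal.ofReal_toReal]
    · exact min_le_left _ _
    · exact ne_top_of_le_ne_top ENNReal.ofReal_ne_top (min_le_right _ _)
  have hkey : ∀ x y, (f x / M) ^ a * (g y / M') ^ b ≤ h' (a * x + b * y) := by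
    intro x y
    rw [Real.div_rpow (hf0 x) hM0.le, Real.div_rpow (hg0 y) hM0'.le, div_mul_div_comm]
    refine (div_le_div_iff_of_pos_right hc0).2 ?_
    have h1 : f x ^ a * g y ^ b ≤ c :=
      mul_le_mul (Real.rpow_le_rpow (hf0 x) (hfM x) ha.le)
        (Real.rpow_le_rpow (hg0 y) (hgM y) hb.le) (Real.rpow_nonneg (hg0 y) _)
        (Real.rpow_nonneg hM0.le _)
    calc f x ^ a * g y ^ b = (ENNReal.ofReal (f x ^ a * g y ^ b)).toReal :=
          (ENNReal.toReal_ofReal (mul_nonneg (Real.rpow_nonneg (hf0 x) _)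
            (Real.rpow_nonneg (hg0 y) _))).symm
      _ ≤ _ := by
        refine ENNReal.toReal_mono ?_ (le_min (hle x y) (ENNReal.ofReal_le_ofReal h1))
        exact ne_top_of_le_ne_top ENNReal.ofReal_ne_top (min_le_right _ _)
  have hlevel : ∀ t : ℝ, 0 < t → ENNReal.ofReal a * volume {x | t < f x / M}
      + ENNReal.ofReal b * volume {x | t < g x / M'} ≤ volume {x | t < h' x} := by
    intro t ht
    by_cases ht1 : t < 1
    · refine volume_smul_add_ge (measurableSet_lt measurable_const (hf.div_const _))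
        (measurableSet_lt measurable_const (hg.div_const _)) ?_ ?_ ha hb ?_
      · obtain ⟨x, hx⟩ := exists_lt_of_lt_ciSup (show t * M < ⨆ x, f x by
          rw [← hM]; exact mul_lt_of_lt_one_left hM0 ht1)
        exact ⟨x, (lt_div_iff₀ hM0).2 hx⟩
      · obtain ⟨x, hx⟩ := exists_lt_of_lt_ciSup (show t * M' < ⨆ x, g x by
          rw [← hM']; exact mul_lt_of_lt_one_left hM0' ht1)
        exact ⟨x, (lt_div_iff₀ hM0').2 hx⟩
      · intro x hx y hy
        refine lt_of_lt_of_le ?_ (hkey x y)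
        calc t = t ^ a * t ^ b := by rw [← Real.rpow_add ht, hab, Real.rpow_one]
          _ < _ := mul_lt_mul'' (Real.rpow_lt_rpow ht.le hx ha)
            (Real.rpow_lt_rpow ht.le hy hb) (by positivity) (by positivity)
    · have e1 : {x | t < f x / M} = ∅ := by
        ext x; simp only [mem_ofPred_eq, mem_empty_iff_false, iff_false, not_lt]
        exact le_trans ((div_le_one hM0).2 (hfM x)) (not_lt.1 ht1)
      have e2 : {x | t < g x / M'} = ∅ := by
        ext x; simp only [mem_ofPred_eq, mem_empty_iff_false, iff_false, not_lt]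
        exact le_trans ((div_le_one hM0').2 (hgM x)) (not_lt.1 ht1)
      simp [e1, e2]
  have hlc : ∀ u : ℝ → ℝ, Measurable u → (∀ x, 0 ≤ u x) →
      ∫⁻ x, ENNReal.ofReal (u x) = ∫⁻ t in Ioi (0 : ℝ), volume {x | t < u x} := fun u hu hu0 =>
    lintegral_eq_lintegral_meas_lt volume (Filter.Eventually.of_forall hu0) hu.aemeasurable
  have hmeas : ∀ u : ℝ → ℝ, Measurable fun t : ℝ => volume {x | t < u x} := fun u =>
    Antitone.measurable fun s t hst => measure_mono fun x hx => lt_of_le_of_lt hst hx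
  set F := ∫⁻ x, ENNReal.ofReal (f x / M) with hF
  set G := ∫⁻ x, ENNReal.ofReal (g x / M') with hG
  have hsum : ENNReal.ofReal a * F + ENNReal.ofReal b * G ≤ ∫⁻ x, ENNReal.ofReal (h' x) := by
    rw [hF, hG, hlc _ (hf.div_const _) fun x => div_nonneg (hf0 x) hM0.le,
      hlc _ (hg.div_const _) fun x => div_nonneg (hg0 x) hM0'.le, hlc _ hh'm hh'0,
      ← lintegral_const_mul _ (hmeas _), ← lintegral_const_mul _ (hmeas _),
      ← lintegral_add_left ((hmeas _).const_mul _)]
    exact setLIntegral_mono (hmeas _) fun t ht => hlevel t ht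
  have hfe : ∫⁻ x, ENNReal.ofReal (f x) = ENNReal.ofReal M * F := by
    rw [hF, ← lintegral_const_mul _ (hf.div_const _).ennreal_ofReal]
    congr 1; ext x
    rw [← ENNReal.ofReal_mul hM0.le, mul_div_cancel₀ _ hM0.ne']
  have hge : ∫⁻ x, ENNReal.ofReal (g x) = ENNReal.ofReal M' * G := by
    rw [hG, ← lintegral_const_mul _ (hg.div_const _).ennreal_ofReal]
    congr 1; ext x
    rw [← ENNReal.ofReal_mul hM0'.le, mul_div_cancel₀ _ hM0'.ne']
  have hamgm : F ^ a * G ^ b ≤ ENNReal.ofReal a * F + ENNReal.ofReal b * G := by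
    rcases eq_or_ne F ∞ with hFt | hFt
    · simp [hFt, ENNReal.mul_top (ENNReal.ofReal_pos.2 ha).ne']
    rcases eq_or_ne G ∞ with hGt | hGt
    · simp [hGt, ENNReal.mul_top (ENNReal.ofReal_pos.2 hb).ne']
    have := Real.geom_mean_le_arith_mean2_weighted ha.le hb.le (ENNReal.toReal_nonneg (a := F))
      (ENNReal.toReal_nonneg (a := G)) hab
    have := ENNReal.ofReal_le_ofReal this
    rwa [ENNReal.ofReal_mul (by positivity), ← ENNReal.ofReal_rpow_of_nonneg ENNReal.toReal_nonneg ha.le,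
      ← ENNReal.ofReal_rpow_of_nonneg ENNReal.toReal_nonneg hb.le, ENNReal.ofReal_toReal hFt,
      ENNReal.ofReal_toReal hGt, ENNReal.ofReal_add (by positivity) (by positivity),
      ENNReal.ofReal_mul ha.le, ENNReal.ofReal_mul hb.le, ENNReal.ofReal_toReal hFt,
      ENNReal.ofReal_toReal hGt] at this
  calc (∫⁻ x, ENNReal.ofReal (f x)) ^ a * (∫⁻ x, ENNReal.ofReal (g x)) ^ b
      = ENNReal.ofReal c * (F ^ a * G ^ b) := by
        rw [hfe, hge, ENNReal.mul_rpow_of_nonneg _ _ ha.le, ENNReal.mul_rpow_of_nonneg _ _ hb.le,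
          hc, ENNReal.ofReal_mul (by positivity),
          ENNReal.ofReal_rpow_of_nonneg hM0.le ha.le, ENNReal.ofReal_rpow_of_nonneg hM0'.le hb.le]
        ring
    _ ≤ ENNReal.ofReal c * ∫⁻ x, ENNReal.ofReal (h' x) := mul_le_mul_right (hamgm.trans hsum) _
    _ = ∫⁻ x, ENNReal.ofReal (c * h' x) := by
        rw [← lintegral_const_mul _ hh'm.ennreal_ofReal]
        congr 1; ext x; rw [ENNReal.ofReal_mul hc0.le]
    _ ≤ _ := lintegral_mono hh'le

/-- Prekopa-Leindler on the line. -/
lemma pl_real {a b : ℝ} (ha : 0 < a) (hb : 0 < b) (hab : a + b = 1)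
    {f g h : ℝ → ℝ≥0∞} (hf : Measurable f) (hg : Measurable g) (hh : Measurable h)
    (hle : ∀ x y, f x ^ a * g y ^ b ≤ h (a * x + b * y)) :
    (∫⁻ x, f x) ^ a * (∫⁻ x, g x) ^ b ≤ ∫⁻ x, h x := by
  have hsup : ∀ u : ℝ → ℝ≥0∞, Measurable u →
      ∫⁻ x, u x = ⨆ k : ℕ, ∫⁻ x, min (u x) k := by
    intro u hu
    rw [← lintegral_iSup (fun k => hu.min measurable_const)
      (fun i j hij x => min_le_min le_rfl (by exact_mod_cast hij))]
    congr 1; ext x
    refine le_antisymm ?_ (iSup_le fun k => min_le_left _ _)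
    rcases eq_or_ne (u x) ∞ with hx | hx
    · simp [hx, ENNReal.iSup_natCast]
    · obtain ⟨k, hk⟩ := ENNReal.exists_nat_gt hx
      exact le_iSup_of_le k (le_min le_rfl hk.le)
  have key : ∀ k : ℕ, (∫⁻ x, min (f x) k) ^ a * (∫⁻ x, min (g x) k) ^ b ≤ ∫⁻ x, h x := by
    intro k
    have hfin : ∀ z : ℝ≥0∞, min z (k : ℝ≥0∞) ≠ ∞ := fun z =>
      ne_top_of_le_ne_top (ENNReal.natCast_ne_top k) (min_le_right _ _)
    have hb' : ∀ u : ℝ → ℝ≥0∞, BddAbove (range fun x => (min (u x) k).toReal) := fun u =>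
      ⟨k, by
        rintro _ ⟨x, rfl⟩
        simpa using ENNReal.toReal_mono (ENNReal.natCast_ne_top k) (min_le_right (u x) _)⟩
    have := pl_real_bounded ha hb hab (hf.min measurable_const).ennreal_toReal
      (hg.min measurable_const).ennreal_toReal hh (fun x => ENNReal.toReal_nonneg)
      (fun x => ENNReal.toReal_nonneg) (hb' f) (hb' g) (by
        intro x y
        refine le_trans (le_of_eq ?_) (le_trans (mul_le_mul' (ENNReal.rpow_le_rpow
          (min_le_left _ (k : ℝ≥0∞)) ha.le) (ENNReal.rpow_le_rpow (min_le_left _ (k : ℝ≥0∞)) hb.le))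
          (hle x y))
        rw [ENNReal.ofReal_mul (Real.rpow_nonneg ENNReal.toReal_nonneg _),
          ← ENNReal.ofReal_rpow_of_nonneg ENNReal.toReal_nonneg ha.le,
          ← ENNReal.ofReal_rpow_of_nonneg ENNReal.toReal_nonneg hb.le,
          ENNReal.ofReal_toReal (hfin _), ENNReal.ofReal_toReal (hfin _)])
    simpa only [ENNReal.ofReal_toReal (hfin _)] using this
  have mono : ∀ u : ℝ → ℝ≥0∞, Monotone fun k : ℕ => ∫⁻ x, min (u x) k :=
    fun u i j hij => lintegral_mono fun x => min_le_min le_rfl (by exact_mod_cast hij)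
  have e : ∀ u : ℝ → ℝ≥0∞, ∀ r : ℝ, 0 < r →
      (⨆ k : ℕ, ∫⁻ x, min (u x) k) ^ r = ⨆ k : ℕ, (∫⁻ x, min (u x) k) ^ r :=
    fun u r hr => (ENNReal.orderIsoRpow r hr).map_iSup _
  rw [hsup f hf, hsup g hg, e f a ha, e g b hb]
  simp only [ENNReal.iSup_mul, ENNReal.mul_iSup]
  refine iSup_le fun i => iSup_le fun j => le_trans ?_ (key (max i j))
  exact mul_le_mul' (ENNReal.rpow_le_rpow (mono f (le_max_right i j)) ha.le)
    (ENNReal.rpow_le_rpow (mono g (le_max_left i j)) hb.le)

/-- Prekopa-Leindler for the standard Gaussian measure on the line. -/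
lemma pl_gaussReal {a b : ℝ} (ha : 0 < a) (hb : 0 < b) (hab : a + b = 1)
    {f g h : ℝ → ℝ≥0∞} (hf : Measurable f) (hg : Measurable g) (hh : Measurable h)
    (hle : ∀ x y, f x ^ a * g y ^ b ≤ h (a * x + b * y)) :
    (∫⁻ x, f x ∂gaussianReal 0 1) ^ a * (∫⁻ x, g x ∂gaussianReal 0 1) ^ b
      ≤ ∫⁻ x, h x ∂gaussianReal 0 1 := by
  rw [gaussianReal_of_var_ne_zero 0 one_ne_zero]
  have hm : Measurable (gaussianPDF 0 1) := measurable_gaussianPDF 0 1
  rw [lintegral_withDensity_eq_lintegral_mul _ hm hf, lintegral_withDensity_eq_lintegral_mul _ hm hg,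
    lintegral_withDensity_eq_lintegral_mul _ hm hh]
  refine pl_real ha hb hab (hm.mul hf) (hm.mul hg) (hm.mul hh) fun x y => ?_
  simp only [Pi.mul_apply]
  rw [ENNReal.mul_rpow_of_nonneg _ _ ha.le, ENNReal.mul_rpow_of_nonneg _ _ hb.le,
    mul_mul_mul_comm]
  refine mul_le_mul' ?_ (hle x y)
  simp only [gaussianPDF]
  rw [ENNReal.ofReal_rpow_of_nonneg (gaussianPDFReal_nonneg _ _ _) ha.le,
    ENNReal.ofReal_rpow_of_nonneg (gaussianPDFReal_nonneg _ _ _) hb.le,
    ← ENNReal.ofReal_mul (Real.rpow_nonneg (gaussianPDFReal_nonneg _ _ _) _)]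
  refine ENNReal.ofReal_le_ofReal ?_
  simp only [gaussianPDFReal, NNReal.coe_one, mul_one, sub_zero]
  set C := (Real.sqrt (2 * Real.pi))⁻¹
  have hC : 0 < C := by positivity
  rw [Real.mul_rpow hC.le (Real.exp_nonneg _), Real.mul_rpow hC.le (Real.exp_nonneg _),
    mul_mul_mul_comm, ← Real.rpow_add hC, hab, Real.rpow_one, ← Real.exp_mul, ← Real.exp_mul,
    ← Real.exp_add]
  refine mul_le_mul_of_nonneg_left (Real.exp_le_exp.2 ?_) hC.le
  have hb' : b = 1 - a := by linarith
  subst hb'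
  nlinarith [mul_nonneg (mul_nonneg ha.le hb.le) (sq_nonneg (x - y))]

/-- Prekopa-Leindler for the standard Gaussian measure on `Fin n → ℝ`. -/
theorem pl_gauss {a b : ℝ} (ha : 0 < a) (hb : 0 < b) (hab : a + b = 1) :
    ∀ (n : ℕ) {f g h : (Fin n → ℝ) → ℝ≥0∞}, Measurable f → Measurable g → Measurable h →
    (∀ x y, f x ^ a * g y ^ b ≤ h (a • x + b • y)) →
    (∫⁻ x, f x ∂gauss n) ^ a * (∫⁻ x, g x ∂gauss n) ^ b ≤ ∫⁻ x, h x ∂gauss n := by
  intro n
  induction n with
  | zero =>
    intro f g h _ _ _ hle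
    have hd : ∀ u : (Fin 0 → ℝ) → ℝ≥0∞, ∫⁻ x, u x ∂gauss 0 = u default := by
      intro u
      rw [lintegral_unique, measure_univ, mul_one]
      exact congrArg u (Subsingleton.elim _ _)
    rw [hd, hd, hd]
    refine (hle _ _).trans (le_of_eq ?_)
    congr 1
    exact Subsingleton.elim _ _
  | succ n ih =>
    intro f g h hf hg hh hle
    have hsplit : ∀ u : (Fin (n + 1) → ℝ) → ℝ≥0∞, Measurable u →
        ∫⁻ x, u x ∂gauss (n + 1)
          = ∫⁻ t, ∫⁻ z, u (Fin.cons t z) ∂gauss n ∂gaussianReal 0 1 := by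
      intro u hu
      have hmp := (measurePreserving_piFinSuccAbove (fun _ : Fin (n + 1) => gaussianReal 0 1) 0).symm
      rw [gauss, ← hmp.lintegral_comp hu, lintegral_prod]
      · simp [gauss, MeasurableEquiv.piFinSuccAbove, Fin.consEquiv]
      · exact (hu.comp (MeasurableEquiv.measurable _)).aemeasurable
    rw [hsplit f hf, hsplit g hg, hsplit h hh]
    have hcons : Measurable fun p : ℝ × (Fin n → ℝ) => (Fin.cons p.1 p.2 : Fin (n + 1) → ℝ) := by
      refine measurable_pi_iff.2 fun i => ?_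
      refine Fin.cases ?_ (fun j => ?_) i
      · simpa using measurable_fst
      · simp only [Fin.cons_succ]
        exact (measurable_pi_apply j).comp measurable_snd
    refine pl_gaussReal ha hb hab ((hf.comp hcons).lintegral_prod_right')
      ((hg.comp hcons).lintegral_prod_right') ((hh.comp hcons).lintegral_prod_right') ?_
    intro s t
    refine ih (hf.comp (hcons.comp (measurable_const.prodMk measurable_id)))
      (hg.comp (hcons.comp (measurable_const.prodMk measurable_id)))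
      (hh.comp (hcons.comp (measurable_const.prodMk measurable_id))) fun x y => ?_
    refine (hle _ _).trans (le_of_eq ?_)
    change h _ = h _
    congr 1
    ext i
    refine Fin.cases ?_ (fun j => ?_) i <;> simp

end Vale.Agent.P262
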