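import Mathlib
import Vale.Agent.P262.Prekopa

/-!
Banaszczyk's lemma: for a compact convex set `K` of Gaussian measure at least `1/2` and a short
vector `u`, the set of points from which a step `± u` leads into `K` has at least the same measure.
This file proves it for `u` along the first axis of `ℝ × (Fin m → ℝ)`.
-/

open MeasureTheory ProbabilityTheory Set
open scoped ENNReal NNReal

namespace Vale.Agent.P262

/-- The standard normal density. -/
noncomputable def phi (t : ℝ) : ℝ := gaussianPDFReal 0 1 t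

lemma phi_eq (t : ℝ) : phi t = (Real.sqrt (2 * Real.pi))⁻¹ * Real.exp (-t ^ 2 / 2) := by
  simp [phi, gaussianPDFReal]

lemma phi_pos (t : ℝ) : 0 < phi t := gaussianPDFReal_pos 0 1 t one_ne_zero

lemma sqrt_two_pi_le : Real.sqrt (2 * Real.pi) ≤ 251 / 100 := by
  rw [Real.sqrt_le_left (by norm_num)]
  nlinarith [Real.pi_lt_d4]

lemma le_sqrt_two_pi : 250 / 100 ≤ Real.sqrt (2 * Real.pi) := by
  apply Real.le_sqrt_of_sq_le
  nlinarith [Real.pi_gt_d4]

lemma phi_le (t : ℝ) : phi t ≤ 2 / 5 := by
  rw [phi_eq]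
  have h2 : (Real.sqrt (2 * Real.pi))⁻¹ ≤ 2 / 5 := by
    rw [inv_le_comm₀ (by positivity) (by norm_num)]
    exact le_trans (by norm_num) le_sqrt_two_pi
  calc (Real.sqrt (2 * Real.pi))⁻¹ * Real.exp (-t ^ 2 / 2) ≤ 2 / 5 * 1 :=
        mul_le_mul h2 (Real.exp_le_one_iff.2 (by nlinarith)) (Real.exp_nonneg _) (by norm_num)
    _ = 2 / 5 := mul_one _

lemma phi_mono {s t : ℝ} (h : |s| ≤ |t|) : phi t ≤ phi s := by
  rw [phi_eq, phi_eq]
  refine mul_le_mul_of_nonneg_left (Real.exp_le_exp.2 ?_) (by positivity)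
  have := sq_le_sq.2 h
  linarith

/-- The point of `[p, q]` nearest to the origin. -/
noncomputable def near (p q : ℝ) : ℝ := max p (min q 0)

lemma abs_near_le {p q t : ℝ} (hp : p ≤ t) (hq : t ≤ q) : |near p q| ≤ |t| := by
  simp only [near, max_def, min_def]
  rcases abs_cases t with ⟨e, _⟩ | ⟨e, _⟩ <;> rw [e, abs_le] <;>
    constructor <;> split_ifs <;> linarith

lemma near_mul_nonneg {p q t : ℝ} (hp : p ≤ t) (hq : t ≤ q) :
    0 ≤ near p q * (t - near p q) := by
  simp only [near, max_def, min_def]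
  split_ifs with h1 h2 <;> nlinarith

lemma gauss_Icc (p q : ℝ) : (gaussianReal 0 1).real (Icc p q) = ∫ t in Icc p q, phi t := by
  rw [measureReal_def, gaussianReal_apply_eq_integral 0 one_ne_zero, ENNReal.toReal_ofReal]
  · rfl
  · exact setIntegral_nonneg measurableSet_Icc fun t _ => (gaussianPDFReal_nonneg _ _ _)

lemma gauss_Icc_le_len {p q : ℝ} (h : p ≤ q) :
    (gaussianReal 0 1).real (Icc p q) ≤ (q - p) * phi (near p q) := by
  rw [gauss_Icc]
  calc ∫ t in Icc p q, phi t ≤ ∫ _t in Icc p q, phi (near p q) := by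
        refine setIntegral_mono_on (integrable_gaussianPDFReal 0 1).integrableOn
          (by simp) measurableSet_Icc fun t ht => phi_mono (abs_near_le ht.1 ht.2)
    _ = _ := by simp [h]

lemma gauss_Icc_le {p q : ℝ} :
    (gaussianReal 0 1).real (Icc p q) ≤ 251 / 100 * phi (near p q) := by
  rw [gauss_Icc]
  set c := near p q
  have h1 : ∫ t in Icc p q, phi t
      ≤ ∫ t in Icc p q, Real.sqrt (2 * Real.pi) * phi c * gaussianPDFReal c 1 t := by
    refine setIntegral_mono_on (integrable_gaussianPDFReal 0 1).integrableOn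
      ((integrable_gaussianPDFReal c 1).const_mul _).integrableOn measurableSet_Icc fun t ht => ?_
    have h0 : Real.sqrt (2 * Real.pi) ≠ 0 := by positivity
    rw [phi_eq, phi_eq, gaussianPDFReal]
    simp only [NNReal.coe_one, mul_one]
    rw [← mul_assoc (Real.sqrt (2 * Real.pi)), mul_inv_cancel₀ h0, one_mul, mul_left_comm,
      ← Real.exp_add]
    refine mul_le_mul_of_nonneg_left (Real.exp_le_exp.2 ?_) (by positivity)
    nlinarith [near_mul_nonneg ht.1 ht.2]
  refine h1.trans ?_
  refine le_trans (setIntegral_le_integral ((integrable_gaussianPDFReal c 1).const_mul _)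
    (Filter.Eventually.of_forall fun t => mul_nonneg (mul_nonneg (Real.sqrt_nonneg _) (phi_pos c).le)
      (gaussianPDFReal_nonneg _ _ _))) ?_
  rw [integral_const_mul, integral_gaussianPDFReal_eq_one c one_ne_zero, mul_one]
  exact mul_le_mul_of_nonneg_right sqrt_two_pi_le (phi_pos c).le

lemma phi_ge {c t : ℝ} (h : t ^ 2 ≤ c ^ 2 + 28 / 100) : 85 / 100 * phi c ≤ phi t := by
  rw [phi_eq, phi_eq, mul_left_comm]
  refine mul_le_mul_of_nonneg_left ?_ (by positivity)
  calc 85 / 100 * Real.exp (-c ^ 2 / 2) ≤ Real.exp (-(14 / 100)) * Real.exp (-c ^ 2 / 2) := by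
        refine mul_le_mul_of_nonneg_right ?_ (Real.exp_nonneg _)
        have := Real.add_one_le_exp (-(14 / 100) : ℝ)
        linarith
    _ ≤ _ := by
        rw [← Real.exp_add]
        exact Real.exp_le_exp.2 (by linarith)

lemma gauss_gain {p q a : ℝ} (ha : 0 ≤ a) (ha' : a ≤ 1 / 50) (h : p ≤ q) (hl : q - p ≤ 1 / 2) :
    (gaussianReal 0 1).real (Icc p q) + 8 / 10 * a * phi (near p q)
      ≤ (gaussianReal 0 1).real (Icc (p - a) (q + a)) := by
  set μ := gaussianReal 0 1
  have hside : ∀ l r : ℝ, l ≤ r → (∀ t ∈ Icc l r, 85 / 100 * phi (near p q) ≤ phi t) →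
      (r - l) * (85 / 100 * phi (near p q)) ≤ μ.real (Icc l r) := by
    intro l r hlr hb
    rw [gauss_Icc]
    calc (r - l) * (85 / 100 * phi (near p q)) = ∫ _t in Icc l r, 85 / 100 * phi (near p q) := by
          simp [hlr]
      _ ≤ _ := setIntegral_mono_on (integrableOn_const (by simp))
          (integrable_gaussianPDFReal 0 1).integrableOn measurableSet_Icc hb
  have hsplit : ∀ u v w : ℝ, u ≤ v → v ≤ w → μ.real (Icc u v) + μ.real (Icc v w) = μ.real (Icc u w) := by
    intro u v w huv hvw
    rw [gauss_Icc, gauss_Icc, gauss_Icc, integral_Icc_eq_integral_Ioc, integral_Icc_eq_integral_Ioc,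
      integral_Icc_eq_integral_Ioc, ← intervalIntegral.integral_of_le huv,
      ← intervalIntegral.integral_of_le hvw, ← intervalIntegral.integral_of_le (huv.trans hvw)]
    exact intervalIntegral.integral_add_adjacent_intervals
      (integrable_gaussianPDFReal 0 1).intervalIntegrable
      (integrable_gaussianPDFReal 0 1).intervalIntegrable
  have hpos := phi_pos (near p q)
  have e1 := hsplit (p - a) p q (by linarith) h
  have e2 := hsplit (p - a) q (q + a) (by linarith) (by linarith)
  have n1 : 0 ≤ μ.real (Icc (p - a) p) := measureReal_nonneg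
  have n2 : 0 ≤ μ.real (Icc q (q + a)) := measureReal_nonneg
  rcases le_or_gt q 0 with hq | hq
  · have hn : near p q = q := by simp [near, hq, h]
    have := hside q (q + a) (by linarith) fun t ht => phi_ge (by
      rw [hn]; rcases le_or_gt t 0 with ht0 | ht0 <;> nlinarith [ht.1, ht.2])
    nlinarith
  · have := hside (p - a) p (by linarith) fun t ht => phi_ge (by
      rcases le_or_gt 0 p with hp | hp
      · have hn : near p q = p := by simp [near, hq.le, hp]
        rw [hn]; rcases le_or_gt t 0 with ht0 | ht0 <;> nlinarith [ht.1, ht.2]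
      · nlinarith [ht.1, ht.2, sq_nonneg (near p q)])
    nlinarith

variable {m : ℕ}

/-- The set of `y` on lines along the first axis from which a step `± a` can lead into `K`. -/
def lineStar (a : ℝ) (K : Set (ℝ × (Fin m → ℝ))) : Set (ℝ × (Fin m → ℝ)) :=
  {y | (∃ s : ℝ, s ∈ Icc (-1 : ℝ) 1 ∧ (y.1 + s * a, y.2) ∈ K) ∧
    ∃ r : ℝ, (y.1 + (r + 1) * a, y.2) ∈ K ∧ (y.1 + (r - 1) * a, y.2) ∈ K}

/-- Banaszczyk's lemma along the first axis. -/
theorem lineStar_measure {a : ℝ} (ha0 : 0 < a) (ha : a ≤ 1 / 50)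
    {K : Set (ℝ × (Fin m → ℝ))} (hK : IsCompact K) (hKc : Convex ℝ K)
    (hS : MeasurableSet (lineStar a K))
    (hhalf : 1 / 2 ≤ ((gaussianReal 0 1).prod (gauss m)).real K) :
    ((gaussianReal 0 1).prod (gauss m)).real K
      ≤ ((gaussianReal 0 1).prod (gauss m)).real (lineStar a K) := by
  classical
  set I : (Fin m → ℝ) → Set ℝ := fun x => {t | (t, x) ∈ K} with hI
  set P : Set (Fin m → ℝ) := {x | (I x).Nonempty} with hP
  have hIc : ∀ x, IsCompact (I x) := fun x => by
    have : I x = Prod.fst '' (K ∩ Prod.snd ⁻¹' {x}) := by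
      ext t; constructor
      · intro ht; exact ⟨(t, x), ⟨ht, rfl⟩, rfl⟩
      · rintro ⟨⟨t', x'⟩, ⟨hm, rfl⟩, rfl⟩; exact hm
    rw [this]
    exact (hK.inter_right (isClosed_singleton.preimage continuous_snd)).image continuous_fst
  set p : (Fin m → ℝ) → ℝ := fun x => sInf (I x) with hp
  set q : (Fin m → ℝ) → ℝ := fun x => sSup (I x) with hq
  have hIcc : ∀ x ∈ P, I x = Icc (p x) (q x) := by
    intro x hx
    refine le_antisymm (fun t ht => ⟨csInf_le (hIc x).bddBelow ht, le_csSup (hIc x).bddAbove ht⟩) ?_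
    refine (convex_iff_ordConnected.1 ?_).out ((hIc x).sInf_mem hx) ((hIc x).sSup_mem hx)
    intro s hs t ht α β hα hβ hαβ
    have := hKc hs ht hα hβ hαβ
    simpa [I, ← add_smul, hαβ] using this
  have hpq : ∀ x ∈ P, p x ≤ q x := fun x hx => csInf_le_csSup hx (hIc x).bddBelow (hIc x).bddAbove
  have hPm : MeasurableSet P := by
    have : P = Prod.snd '' K := by
      ext x; exact ⟨fun ⟨t, ht⟩ => ⟨(t, x), ht, rfl⟩, fun ⟨y, hy, hyx⟩ => ⟨y.1, by subst hyx; exact hy⟩⟩
    rw [this]; exact (hK.image continuous_snd).measurableSet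
  have hqm : Measurable q := by
    refine measurable_of_Ici fun c => ?_
    have : q ⁻¹' Ici c
        = Prod.snd '' (K ∩ Prod.fst ⁻¹' Ici c) ∪ (Pᶜ ∩ {_x | c ≤ sSup (∅ : Set ℝ)}) := by
      ext x; simp only [mem_preimage, mem_Ici, mem_union, mem_image, mem_inter_iff, mem_compl_iff]
      by_cases hx : x ∈ P
      · simp only [hx, not_true, false_and, or_false]
        exact ⟨fun h => ⟨(q x, x), ⟨(hIc x).sSup_mem hx, h⟩, rfl⟩,
          fun ⟨y, ⟨hy, hyc⟩, hyx⟩ => by subst hyx; exact le_trans hyc (le_csSup (hIc _).bddAbove hy)⟩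
      · have he : I x = ∅ := not_nonempty_iff_eq_empty.1 hx
        simp only [q, he, hx, not_false_eq_true, true_and, mem_ofPred_eq]
        exact ⟨Or.inr, fun h => h.elim (fun ⟨y, ⟨hy, _⟩, hyx⟩ => by
          subst hyx; exact absurd hy (by rw [eq_empty_iff_forall_notMem] at he; exact he y.1)) id⟩
    rw [this]
    exact ((hK.inter_right (isClosed_Ici.preimage continuous_fst)).image continuous_snd).measurableSet.union
      (hPm.compl.inter (MeasurableSet.const _))
  have hpm : Measurable p := by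
    refine measurable_of_Iic fun c => ?_
    have : p ⁻¹' Iic c
        = Prod.snd '' (K ∩ Prod.fst ⁻¹' Iic c) ∪ (Pᶜ ∩ {_x | sInf (∅ : Set ℝ) ≤ c}) := by
      ext x; simp only [mem_preimage, mem_Iic, mem_union, mem_image, mem_inter_iff, mem_compl_iff]
      by_cases hx : x ∈ P
      · simp only [hx, not_true, false_and, or_false]
        exact ⟨fun h => ⟨(p x, x), ⟨(hIc x).sInf_mem hx, h⟩, rfl⟩,
          fun ⟨y, ⟨hy, hyc⟩, hyx⟩ => by subst hyx; exact le_trans (csInf_le (hIc _).bddBelow hy) hyc⟩
      · have he : I x = ∅ := not_nonempty_iff_eq_empty.1 hx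
        simp only [p, he, hx, not_false_eq_true, true_and, mem_ofPred_eq]
        exact ⟨Or.inr, fun h => h.elim (fun ⟨y, ⟨hy, _⟩, hyx⟩ => by
          subst hyx; exact absurd hy (by rw [eq_empty_iff_forall_notMem] at he; exact he y.1)) id⟩
    rw [this]
    exact ((hK.inter_right (isClosed_Iic.preimage continuous_fst)).image continuous_snd).measurableSet.union
      (hPm.compl.inter (MeasurableSet.const _))
  set Ls : ℝ → Set (Fin m → ℝ) := fun s => P ∩ {x | s ≤ q x - p x} with hLs
  have hLsm : ∀ s, MeasurableSet (Ls s) := fun s =>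
    hPm.inter (measurableSet_le measurable_const (hqm.sub hpm))
  set w : (Fin m → ℝ) → ℝ := fun x => phi (near (p x) (q x)) with hw
  have hwm : Measurable w := (measurable_gaussianPDFReal 0 1).comp
    (hpm.max (hqm.min measurable_const))
  set W : ℝ → (Fin m → ℝ) → ℝ := fun s => (Ls s).indicator w with hW
  set E : ℝ → ℝ := fun s => ∫ x, W s x ∂gauss m with hE
  have hW0 : ∀ s x, 0 ≤ W s x := fun s x => indicator_nonneg (fun x _ => (phi_pos _).le) x
  have hW1 : ∀ s x, W s x ≤ 2 / 5 := fun s x => by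
    simp only [W, indicator]; split_ifs
    · exact phi_le _
    · norm_num
  have hWm : ∀ s, Measurable (W s) := fun s => hwm.indicator (hLsm s)
  have hWi : ∀ s, Integrable (W s) (gauss m) := fun s =>
    Integrable.of_bound (hWm s).aestronglyMeasurable (2 / 5)
      (Filter.Eventually.of_forall fun x => by rw [Real.norm_of_nonneg (hW0 s x)]; exact hW1 s x)
  have hlc : ∀ {α β s t : ℝ}, 0 < α → 0 < β → α + β = 1 →
      E s ^ α * E t ^ β ≤ E (α * s + β * t) := by
    intro α β s t hα hβ hαβ
    have hE' : ∀ r, ENNReal.ofReal (E r) = ∫⁻ x, ENNReal.ofReal (W r x) ∂gauss m := fun r =>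
      ofReal_integral_eq_lintegral_ofReal (hWi r) (Filter.Eventually.of_forall (hW0 r))
    have hEn : ∀ r, 0 ≤ E r := fun r => integral_nonneg (hW0 r)
    rw [← ENNReal.ofReal_le_ofReal_iff (hEn _), ENNReal.ofReal_mul (Real.rpow_nonneg (hEn _) _),
      ← ENNReal.ofReal_rpow_of_nonneg (hEn _) hα.le, ← ENNReal.ofReal_rpow_of_nonneg (hEn _) hβ.le,
      hE', hE', hE']
    refine pl_gauss hα hβ hαβ m (hWm s).ennreal_ofReal (hWm t).ennreal_ofReal
      (hWm _).ennreal_ofReal fun x y => ?_
    rw [ENNReal.ofReal_rpow_of_nonneg (hW0 _ _) hα.le, ENNReal.ofReal_rpow_of_nonneg (hW0 _ _) hβ.le,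
      ← ENNReal.ofReal_mul (Real.rpow_nonneg (hW0 _ _) _)]
    refine ENNReal.ofReal_le_ofReal ?_
    by_cases hx : x ∈ Ls s
    swap
    · simp [W, indicator_of_notMem hx, Real.zero_rpow hα.ne', hW0]
    by_cases hy : y ∈ Ls t
    swap
    · simp [W, indicator_of_notMem hy, Real.zero_rpow hβ.ne']
      exact hW0 _ _
    have hmem : ∀ u ∈ I x, ∀ v ∈ I y, α * u + β * v ∈ I (α • x + β • y) := by
      intro u hu v hv
      have := hKc hu hv hα.le hβ.le hαβ
      simpa [I] using this
    have hz : α • x + β • y ∈ P := ⟨_, hmem _ hx.1.some_mem _ hy.1.some_mem⟩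
    have h1 := hmem _ ((hIc x).sInf_mem hx.1) _ ((hIc y).sInf_mem hy.1)
    have h2 := hmem _ ((hIc x).sSup_mem hx.1) _ ((hIc y).sSup_mem hy.1)
    rw [hIcc _ hz] at h1 h2
    have hz' : α • x + β • y ∈ Ls (α * s + β * t) := by
      refine ⟨hz, ?_⟩
      have e1 : α * s ≤ α * (q x - p x) := mul_le_mul_of_nonneg_left hx.2 hα.le
      have e2 : β * t ≤ β * (q y - p y) := mul_le_mul_of_nonneg_left hy.2 hβ.le
      show α * s + β * t ≤ _
      have := h1.1; have := h2.2
      nlinarith
    simp only [W, indicator_of_mem hx, indicator_of_mem hy, indicator_of_mem hz', w]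
    have hn : near (p x) (q x) ∈ I x := by
      rw [hIcc _ hx.1]; simp only [near, mem_Icc]
      exact ⟨le_max_left _ _, max_le (hpq _ hx.1) (min_le_left _ _)⟩
    have hn' : near (p y) (q y) ∈ I y := by
      rw [hIcc _ hy.1]; simp only [near, mem_Icc]
      exact ⟨le_max_left _ _, max_le (hpq _ hy.1) (min_le_left _ _)⟩
    have h3 := hmem _ hn _ hn'
    rw [hIcc _ hz] at h3
    refine le_trans ?_ (phi_mono (abs_near_le h3.1 h3.2))
    generalize near (p x) (q x) = u
    generalize near (p y) (q y) = v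
    rw [phi_eq, phi_eq, phi_eq, Real.mul_rpow (by positivity) (Real.exp_nonneg _),
      Real.mul_rpow (by positivity) (Real.exp_nonneg _), mul_mul_mul_comm,
      ← Real.rpow_add (by positivity), hαβ, Real.rpow_one, ← Real.exp_mul, ← Real.exp_mul,
      ← Real.exp_add]
    refine mul_le_mul_of_nonneg_left (Real.exp_le_exp.2 ?_) (by positivity)
    have hb' : β = 1 - α := by linarith
    subst hb'
    nlinarith [mul_nonneg (mul_nonneg hα.le hβ.le) (sq_nonneg (u - v))]
  -- slices
  set g1 := gaussianReal 0 1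
  set A : (Fin m → ℝ) → ℝ := fun x => g1.real {t | (t, x) ∈ K} with hA
  set B : (Fin m → ℝ) → ℝ := fun x => g1.real {t | (t, x) ∈ lineStar a K} with hB
  have hslice : ∀ S : Set (ℝ × (Fin m → ℝ)), MeasurableSet S →
      Measurable (fun x => g1.real {t | (t, x) ∈ S}) ∧
      (g1.prod (gauss m)).real S = ∫ x, g1.real {t | (t, x) ∈ S} ∂gauss m ∧
      Integrable (fun x => g1.real {t | (t, x) ∈ S}) (gauss m) := by
    intro S hS
    have hm' : Measurable fun x => g1 {t | (t, x) ∈ S} := measurable_measure_prodMk_right hS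
    have hi : Integrable (fun x => g1.real {t | (t, x) ∈ S}) (gauss m) :=
      Integrable.of_bound hm'.ennreal_toReal.aestronglyMeasurable 1
        (Filter.Eventually.of_forall fun x => by
          rw [Real.norm_of_nonneg measureReal_nonneg]; exact measureReal_le_one)
    refine ⟨hm'.ennreal_toReal, ?_, hi⟩
    rw [measureReal_def, Measure.prod_apply_symm hS]
    simp only [measureReal_def]
    rw [integral_toReal hm'.aemeasurable (Filter.Eventually.of_forall fun x => measure_lt_top _ _)]
    rfl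
  obtain ⟨-, hKe, hAi⟩ := hslice K hK.measurableSet
  obtain ⟨-, hSe, hBi⟩ := hslice _ hS
  have hE1 : 119 / 1000 ≤ E (1 / 2) := by
    have hpt : ∀ x, A x ≤ 1 / 5 + 251 / 100 * W (1 / 2) x := by
      intro x
      by_cases hx : x ∈ P
      · have hAe : A x = g1.real (Icc (p x) (q x)) := by rw [← hIcc x hx]
        by_cases hl : x ∈ Ls (1 / 2)
        · simp only [W, indicator_of_mem hl, w, hAe]
          linarith [gauss_Icc_le (p := p x) (q := q x)]
        · simp only [W, indicator_of_notMem hl, hAe, mul_zero, add_zero]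
          refine (gauss_Icc_le_len (hpq x hx)).trans ?_
          have : q x - p x ≤ 1 / 2 := by
            by_contra h; exact hl ⟨hx, (not_le.1 h).le⟩
          nlinarith [phi_le (near (p x) (q x)), phi_pos (near (p x) (q x)), hpq x hx]
      · have : {t | (t, x) ∈ K} = ∅ := not_nonempty_iff_eq_empty.1 hx
        simp only [A, this, measureReal_empty]
        linarith [hW0 (1 / 2) x]
    have := integral_mono hAi ((integrable_const (1 / 5 : ℝ)).add ((hWi (1 / 2)).const_mul (251 / 100))) hpt
    simp only [Pi.add_apply] at this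
    rw [integral_add (integrable_const _) ((hWi _).const_mul _), integral_const_mul, integral_const] at this
    simp only [probReal_univ, one_smul] at this
    rw [hKe] at hhalf
    change 119 / 1000 ≤ ∫ x, W (1 / 2) x ∂gauss m
    linarith
  have hE0 : E 0 ≤ 2 / 5 := by
    calc E 0 ≤ ∫ _x, (2 / 5 : ℝ) ∂gauss m := integral_mono (hWi 0) (integrable_const _) (hW1 0)
      _ = 2 / 5 := by simp
  have hpt : ∀ x, A x - B x ≤
      2 * a * (W 0 x - W (2 * a) x) - 8 / 10 * a * (W (2 * a) x - W (1 / 2) x) := by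
    intro x
    by_cases hx : x ∈ P
    · have hAe : A x = g1.real (Icc (p x) (q x)) := by rw [← hIcc x hx]
      have h0 : x ∈ Ls 0 := ⟨hx, by simpa using hpq x hx⟩
      by_cases hl : x ∈ Ls (2 * a)
      · have hsub : Icc (p x - a) (q x + a) ⊆ {t | (t, x) ∈ lineStar a K} := by
          intro t ht
          have hmem : ∀ s, p x ≤ s → s ≤ q x → (s, x) ∈ K := fun s h1 h2 => by
            have : s ∈ I x := by rw [hIcc x hx]; exact ⟨h1, h2⟩
            exact this
          refine ⟨?_, (p x - t) / a + 1, ?_, ?_⟩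
          · obtain ⟨s', hs', hs'1, hs'2⟩ : ∃ s' : ℝ, |s' - t| ≤ a ∧ p x ≤ s' ∧ s' ≤ q x := by
              refine ⟨max (p x) (min (q x) t), ?_, le_max_left _ _, max_le (hpq x hx) (min_le_left _ _)⟩
              have := ht.1; have := ht.2; have := hpq x hx
              simp only [max_def, min_def]
              rw [abs_le]; constructor <;> split_ifs <;> linarith
            refine ⟨(s' - t) / a, ?_, ?_⟩
            · rw [mem_Icc, ← abs_le, abs_div, abs_of_pos ha0, div_le_one ha0]; exact hs'
            · rw [div_mul_cancel₀ _ ha0.ne']; simpa using hmem s' hs'1 hs'2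
          · have : t + ((p x - t) / a + 1 + 1) * a = p x + 2 * a := by field_simp; ring
            rw [this]; exact hmem _ (by linarith) (by have := hl.2; simp only [mem_ofPred_eq] at this; linarith)
          · have : t + ((p x - t) / a + 1 - 1) * a = p x := by field_simp; ring
            rw [this]; exact hmem _ le_rfl (hpq x hx)
        have hBge : g1.real (Icc (p x - a) (q x + a)) ≤ B x := measureReal_mono hsub
        by_cases hl' : x ∈ Ls (1 / 2)
        · simp only [W, indicator_of_mem h0, indicator_of_mem hl, indicator_of_mem hl', sub_self,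
            mul_zero, hAe]
          have : g1.real (Icc (p x) (q x)) ≤ g1.real (Icc (p x - a) (q x + a)) :=
            measureReal_mono (Icc_subset_Icc (by linarith) (by linarith))
          linarith
        · simp only [W, indicator_of_mem h0, indicator_of_mem hl, indicator_of_notMem hl', sub_self,
            mul_zero, sub_zero, hAe, w]
          have : q x - p x ≤ 1 / 2 := by
            by_contra h; exact hl' ⟨hx, (not_le.1 h).le⟩
          linarith [gauss_gain ha0.le ha (hpq x hx) this]
      · have hl' : x ∉ Ls (1 / 2) := fun h => hl ⟨hx, by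
          have := h.2; simp only [mem_ofPred_eq] at this ⊢; linarith⟩
        simp only [W, indicator_of_mem h0, indicator_of_notMem hl, indicator_of_notMem hl', sub_zero,
          sub_self, mul_zero, hAe, w]
        have hlt : q x - p x < 2 * a := by
          by_contra h; exact hl ⟨hx, not_lt.1 h⟩
        have := gauss_Icc_le_len (hpq x hx)
        nlinarith [phi_pos (near (p x) (q x)), measureReal_nonneg (μ := g1) (s := {t | (t, x) ∈ lineStar a K})]
    · have : {t | (t, x) ∈ K} = ∅ := not_nonempty_iff_eq_empty.1 hx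
      have hn : ∀ s, x ∉ Ls s := fun s h => hx h.1
      simp only [A, this, measureReal_empty, W, indicator_of_notMem (hn _), sub_self, mul_zero]
      linarith [measureReal_nonneg (μ := g1) (s := {t | (t, x) ∈ lineStar a K})]
  have hmain := integral_mono (hAi.sub hBi)
    ((((hWi 0).sub (hWi (2 * a))).const_mul _).sub (((hWi (2 * a)).sub (hWi (1 / 2))).const_mul _)) hpt
  simp only [Pi.sub_apply] at hmain
  have s1 : ∀ f g : (Fin m → ℝ) → ℝ, Integrable f (gauss m) → Integrable g (gauss m) →
      ∫ x, (f x - g x) ∂gauss m = (∫ x, f x ∂gauss m) - ∫ x, g x ∂gauss m :=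
    fun f g hf hg => integral_sub hf hg
  rw [integral_sub hAi hBi, integral_sub, integral_const_mul, integral_const_mul,
    s1 _ _ (hWi 0) (hWi _), s1 _ _ (hWi _) (hWi _)] at hmain
  rotate_left
  · exact ((hWi 0).sub (hWi (2 * a))).const_mul _
  · exact ((hWi (2 * a)).sub (hWi (1 / 2))).const_mul _
  rw [← hKe, ← hSe] at hmain
  change _ ≤ 2 * a * (E 0 - E (2 * a)) - 8 / 10 * a * (E (2 * a) - E (1 / 2)) at hmain
  -- the inequality between the layers
  have hlam : (0 : ℝ) < 4 * a ∧ 4 * a < 1 := ⟨by linarith, by linarith⟩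
  have hl := hlc (s := 0) (t := 1 / 2) (α := 1 - 4 * a) (β := 4 * a) (by linarith) hlam.1 (by ring)
  rw [show (1 - 4 * a) * 0 + 4 * a * (1 / 2) = 2 * a by ring] at hl
  have hmono : E (1 / 2) ≤ E 0 := integral_mono (hWi _) (hWi _) fun x =>
    indicator_le_indicator_of_subset (show Ls (1 / 2) ⊆ Ls 0 from fun y hy => ⟨hy.1, by simpa using hpq y hy.1⟩)
      (fun y => (phi_pos _).le) x
  have hmono2 : E (1 / 2) ≤ E (2 * a) := integral_mono (hWi _) (hWi _) fun x =>
    indicator_le_indicator_of_subset (show Ls (1 / 2) ⊆ Ls (2 * a) from fun y hy => ⟨hy.1, by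
      have := hy.2; simp only [mem_ofPred_eq] at this ⊢; linarith⟩) (fun y => (phi_pos _).le) x
  have hE1' : 0 < E (1 / 2) := by linarith
  have hE0' : 0 < E 0 := by linarith
  have hlow : E 0 * (1 + 4 * a * (1 - E 0 / E (1 / 2))) ≤ E (2 * a) := by
    refine le_trans ?_ hl
    have e : E 0 ^ (1 - 4 * a) * E (1 / 2) ^ (4 * a) = E 0 * (E (1 / 2) / E 0) ^ (4 * a) := by
      rw [Real.div_rpow hE1'.le hE0'.le, Real.rpow_sub hE0', Real.rpow_one]
      field_simp
    rw [e]
    refine mul_le_mul_of_nonneg_left ?_ hE0'.le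
    rw [Real.rpow_def_of_pos (div_pos hE1' hE0')]
    refine le_trans ?_ (Real.add_one_le_exp _)
    have := Real.one_sub_inv_le_log_of_pos (div_pos hE1' hE0')
    rw [inv_div] at this
    nlinarith
  have hR : E 0 / E (1 / 2) ≤ 34 / 10 := by
    rw [div_le_iff₀ hE1']; linarith
  have hD : E 0 - E (2 * a) ≤ 4 * a * (34 / 10) * (E 0 - E (1 / 2)) := by
    calc E 0 - E (2 * a) ≤ 4 * a * (E 0 / E (1 / 2)) * (E 0 - E (1 / 2)) := by
          have h : E 0 * (4 * a * (E 0 / E (1 / 2) - 1))
              = 4 * a * (E 0 / E (1 / 2)) * (E 0 - E (1 / 2)) := by field_simp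
          rw [← h]; linarith
      _ ≤ _ := mul_le_mul_of_nonneg_right (mul_le_mul_of_nonneg_left hR (by linarith)) (by linarith)
  nlinarith [mul_le_mul_of_nonneg_left hD (show (0 : ℝ) ≤ 2 * a by linarith),
    mul_nonneg ha0.le (show (0 : ℝ) ≤ E (2 * a) - E (1 / 2) by linarith),
    mul_nonneg (mul_nonneg ha0.le ha0.le) (show (0 : ℝ) ≤ E 0 - E (1 / 2) by linarith),
    mul_le_mul_of_nonneg_right ha (mul_nonneg ha0.le (show (0 : ℝ) ≤ E 0 - E (1 / 2) by linarith))]

end Vale.Agent.P262
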