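import Mathlib
import Vale.Agent.P262.BanLine

/-!
Banaszczyk's theorem on balancing prefix sums: signs exist that keep every prefix sum inside a
given symmetric closed convex body, provided the bodies have large Gaussian measure.
-/

open MeasureTheory ProbabilityTheory Set
open scoped ENNReal NNReal RealInnerProductSpace Pointwise

namespace Vale.Agent.P262

variable {E : Type*} [NormedAddCommGroup E] [InnerProductSpace ℝ E] [FiniteDimensional ℝ E]
  [MeasurableSpace E] [BorelSpace E]

/-- Points from which a step `± u` can lead into `K`. -/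
def starSet (u : E) (K : Set E) : Set E :=
  {y | (∃ s : ℝ, s ∈ Icc (-1 : ℝ) 1 ∧ y + s • u ∈ K) ∧
    ∃ r : ℝ, y + (r + 1) • u ∈ K ∧ y + (r - 1) • u ∈ K}

lemma starSet_convex {u : E} {K : Set E} (hK : Convex ℝ K) : Convex ℝ (starSet u K) := by
  rintro y ⟨⟨s, hs, hys⟩, r, hr1, hr2⟩ z ⟨⟨t, ht, hzt⟩, q, hq1, hq2⟩ α β hα hβ hαβ
  refine ⟨⟨α * s + β * t, convex_Icc _ _ hs ht hα hβ hαβ, ?_⟩, α * r + β * q, ?_, ?_⟩
  · convert hK hys hzt hα hβ hαβ using 1; module
  · convert hK hr1 hq1 hα hβ hαβ using 1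
    obtain rfl : β = 1 - α := by linarith
    module
  · convert hK hr2 hq2 hα hβ hαβ using 1
    obtain rfl : β = 1 - α := by linarith
    module

lemma starSet_symm {u : E} {K : Set E} (hK : ∀ x ∈ K, -x ∈ K) : ∀ x ∈ starSet u K, -x ∈ starSet u K := by
  rintro y ⟨⟨s, hs, hys⟩, r, hr1, hr2⟩
  refine ⟨⟨-s, ⟨by linarith [hs.2], by linarith [hs.1]⟩, ?_⟩, -r, ?_, ?_⟩
  · convert hK _ hys using 1; module
  · convert hK _ hr2 using 1; module
  · convert hK _ hr1 using 1; module

lemma starSet_step {u : E} {K : Set E} (hK : Convex ℝ K) {y : E} (hy : y ∈ starSet u K) :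
    y + u ∈ K ∨ y - u ∈ K := by
  obtain ⟨⟨s, hs, hys⟩, r, hr1, hr2⟩ := hy
  have key : ∀ l l' c : ℝ, y + l • u ∈ K → y + l' • u ∈ K → l ≤ c → c ≤ l' → y + c • u ∈ K := by
    intro l l' c hl hl' h1 h2
    rcases eq_or_lt_of_le (h1.trans h2) with h | h
    · obtain rfl : c = l := by linarith
      exact hl
    · convert hK hl hl' (div_nonneg (sub_nonneg.2 h2) (sub_pos.2 h).le)
        (div_nonneg (sub_nonneg.2 h1) (sub_pos.2 h).le)
        (by rw [← add_div, div_eq_one_iff_eq (sub_pos.2 h).ne']; ring) using 1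
      have h3 : c = (l' - c) / (l' - l) * l + (c - l) / (l' - l) * l' := by
        field_simp [(sub_pos.2 h).ne']; ring
      have h4 : (l' - c) / (l' - l) + (c - l) / (l' - l) = 1 := by
        rw [← add_div, div_eq_one_iff_eq (sub_pos.2 h).ne']; ring
      nth_rewrite 1 [h3]
      linear_combination (norm := module) -h4 • y
  rcases le_or_gt 0 r with h | h
  · left
    have := key s (r + 1) 1 hys hr1 hs.2 (by linarith)
    simpa using this
  · right
    have := key (r - 1) s (-1) hr2 hys (by linarith) hs.1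
    simpa [sub_eq_add_neg] using this

lemma starSet_isCompact {u : E} {K : Set E} (hK : IsCompact K) : IsCompact (starSet u K) := by
  have h1 : IsCompact ((fun p : ℝ × E => p.2 - p.1 • u) '' (Icc (-1 : ℝ) 1 ×ˢ K)) :=
    (isCompact_Icc.prod hK).image (by fun_prop)
  set C : Set E := (fun x => x - u) '' K ∩ (fun x => x + u) '' K with hC
  have hCc : IsCompact C := (hK.image (by fun_prop)).inter (hK.image (by fun_prop))
  set L : Submodule ℝ E := Submodule.span ℝ {u}
  have h2 : IsClosed (C + (L : Set E)) := L.closed_of_finiteDimensional.add_left_of_isCompact hCc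
  have : starSet u K = (fun p : ℝ × E => p.2 - p.1 • u) '' (Icc (-1 : ℝ) 1 ×ˢ K) ∩ (C + (L : Set E)) := by
    ext y; constructor
    · rintro ⟨⟨s, hs, hys⟩, r, hr1, hr2⟩
      refine ⟨⟨(s, y + s • u), ⟨hs, hys⟩, by simp⟩, ⟨y + r • u, ⟨⟨_, hr1, by module⟩, ⟨_, hr2, by module⟩⟩,
        (-r) • u, Submodule.smul_mem _ _ (Submodule.mem_span_singleton_self u), by simp⟩⟩
    · rintro ⟨⟨⟨s, z⟩, ⟨hs, hz⟩, rfl⟩, ⟨w, ⟨⟨x1, hx1, e1⟩, ⟨x2, hx2, e2⟩⟩, l, hl, e⟩⟩
      refine ⟨⟨s, hs, by simpa using hz⟩, ?_⟩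
      obtain ⟨c, rfl⟩ := Submodule.mem_span_singleton.1 hl
      simp only at e1 e2 e
      refine ⟨-c, ?_, ?_⟩
      · convert hx1 using 1
        simp only at e ⊢
        linear_combination (norm := module) -e - e1
      · convert hx2 using 1
        simp only at e ⊢
        linear_combination (norm := module) -e - e2
  rw [this]
  exact h1.inter_right h2

/-- Banaszczyk's lemma. -/
theorem starSet_measure {u : E} (hu : ‖u‖ ≤ 1 / 50) {K : Set E} (hK : IsCompact K) (hKc : Convex ℝ K)
    (hhalf : 1 / 2 ≤ (stdGaussian E).real K) :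
    (stdGaussian E).real K ≤ (stdGaussian E).real (starSet u K) := by
  rcases eq_or_ne u 0 with rfl | hu0
  · refine measureReal_mono fun y hy => ⟨⟨0, by simp, by simpa using hy⟩, 0, by simpa using hy, by simpa using hy⟩
  have hpos : 0 < Module.finrank ℝ E := Module.finrank_pos_iff_exists_ne_zero.2 ⟨u, hu0⟩
  obtain ⟨m, hm⟩ : ∃ m, Module.finrank ℝ E = m + 1 := ⟨_, (Nat.succ_pred_eq_of_pos hpos).symm⟩
  have hun : 0 < ‖u‖ := norm_pos_iff.2 hu0
  have hon : Orthonormal ℝ (({0} : Set (Fin (m + 1))).domRestrict fun _ => ‖u‖⁻¹ • u) := by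
    refine ⟨fun i => by simp [norm_smul, hun.ne'], fun i j hij => ?_⟩
    exact absurd (Subsingleton.elim i j) hij
  obtain ⟨b, hb⟩ := hon.exists_orthonormalBasis_extension_of_card_eq (by simpa using hm)
  have hb0 : b 0 = ‖u‖⁻¹ • u := hb 0 rfl
  let Φ : (ℝ × (Fin m → ℝ)) ≃L[ℝ] E :=
    ((Fin.consEquivL ℝ (fun _ : Fin (m + 1) => ℝ)).trans (EuclideanSpace.equiv (Fin (m + 1)) ℝ).symm).trans
      b.repr.symm.toContinuousLinearEquiv
  have hΦ : ∀ p, Φ p = ∑ i, (Fin.cons p.1 p.2 : Fin (m + 1) → ℝ) i • b i := by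
    intro p
    change b.repr.symm (WithLp.toLp 2 (Fin.cons p.1 p.2 : Fin (m + 1) → ℝ)) = _
    rw [← b.sum_repr_symm]
  have hμ : stdGaussian E = ((gaussianReal 0 1).prod (gauss m)).map Φ := by
    rw [stdGaussian_eq_map_pi_orthonormalBasis b]
    have hmp := (measurePreserving_piFinSuccAbove (fun _ : Fin (m + 1) => gaussianReal 0 1) 0).symm
    rw [← hmp.map_eq, Measure.map_map (by fun_prop) (MeasurableEquiv.measurable _)]
    congr 1
    funext p
    rw [hΦ]
    simp [MeasurableEquiv.piFinSuccAbove, Fin.consEquiv]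
  have hstep : ∀ (p : ℝ × (Fin m → ℝ)) (s : ℝ), Φ (p.1 + s * ‖u‖, p.2) = Φ p + s • u := by
    intro p s
    rw [hΦ, hΦ, Fin.sum_univ_succ, Fin.sum_univ_succ]
    simp only [Fin.cons_zero, Fin.cons_succ, hb0, smul_smul]
    rw [show (p.1 + s * ‖u‖) * ‖u‖⁻¹ = p.1 * ‖u‖⁻¹ + s by field_simp, add_smul]
    abel
  have hpre : Φ ⁻¹' starSet u K = lineStar ‖u‖ (Φ ⁻¹' K) := by
    ext p
    simp only [starSet, lineStar, mem_preimage, mem_ofPred_eq, hstep]
  have hc : IsCompact (Φ ⁻¹' K) := Φ.toHomeomorph.isCompact_preimage.2 hK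
  have hS := (starSet_isCompact (u := u) hK).measurableSet
  have hmeasΦ : Measurable Φ := Φ.continuous.measurable
  rw [hμ, measureReal_def, measureReal_def, Measure.map_apply hmeasΦ hS,
    Measure.map_apply hmeasΦ hK.measurableSet, hpre]
  rw [hμ, measureReal_def, Measure.map_apply hmeasΦ hK.measurableSet] at hhalf
  exact lineStar_measure hun hu hc (hKc.linear_preimage Φ.toLinearEquiv.toLinearMap)
    (hpre ▸ hmeasΦ hS) hhalf

/-- Signs keeping all prefix sums inside symmetric closed convex bodies of large measure. -/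
theorem exists_signs (n : ℕ) (u : ℕ → E) (hu : ∀ i, i < n → ‖u i‖ ≤ 1 / 50)
    (K : ℕ → Set E) (hcl : ∀ k, IsClosed (K k)) (hcv : ∀ k, Convex ℝ (K k))
    (hsym : ∀ k, ∀ x ∈ K k, -x ∈ K k)
    (hloss : ∑ k ∈ Finset.range (n + 1), (stdGaussian E).real (K k)ᶜ < 1 / 2) :
    ∃ ε : ℕ → ℝ, (∀ i, ε i = 1 ∨ ε i = -1) ∧
      ∀ k, k ≤ n → ∑ i ∈ Finset.range k, ε i • u i ∈ K k := by
  set γ := stdGaussian E
  obtain ⟨R, hR⟩ : ∃ R : ℝ, ((n : ℝ) + 1) * γ.real (Metric.closedBall (0 : E) R)ᶜ
      < 1 / 2 - ∑ k ∈ Finset.range (n + 1), γ.real (K k)ᶜ := by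
    have h1 : Filter.Tendsto (fun R : ℕ => γ.real (Metric.closedBall (0 : E) (R : ℝ))ᶜ)
        Filter.atTop (nhds 0) := by
      have h2 := tendsto_measure_iInter_atTop (μ := γ)
        (s := fun R : ℕ => (Metric.closedBall (0 : E) (R : ℝ))ᶜ)
        (fun R => Metric.isClosed_closedBall.measurableSet.compl.nullMeasurableSet)
        (fun a b hab => compl_subset_compl.2 (Metric.closedBall_subset_closedBall (by exact_mod_cast hab)))
        ⟨0, measure_ne_top _ _⟩
      have h3 : (⋂ R : ℕ, (Metric.closedBall (0 : E) (R : ℝ))ᶜ) = ∅ := by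
        rw [← compl_iUnion, Metric.iUnion_closedBall_nat, compl_univ]
      rw [h3, measure_empty] at h2
      exact (ENNReal.tendsto_toReal ENNReal.zero_ne_top).comp h2
    obtain ⟨R, hR⟩ := ((h1.const_mul ((n : ℝ) + 1)).eventually_lt_const (by rw [mul_zero]; exact sub_pos.2 hloss)).exists
    exact ⟨R, hR⟩
  set B := Metric.closedBall (0 : E) R
  -- bodies built backwards
  let S : ℕ → Set E := fun j => Nat.rec (K n ∩ B) (fun j S => (K (n - (j + 1)) ∩ B) ∩ starSet (u (n - (j + 1))) S) j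
  have hS : ∀ j, j ≤ n → IsCompact (S j) ∧ Convex ℝ (S j) ∧ (∀ x ∈ S j, -x ∈ S j) ∧
      1 - ∑ k ∈ Finset.Icc (n - j) n, (γ.real (K k)ᶜ + γ.real Bᶜ) ≤ γ.real (S j) := by
    intro j
    induction j with
    | zero =>
      intro _
      have hc : IsCompact (K n ∩ B) := (isCompact_closedBall 0 R).inter_left (hcl n)
      refine ⟨hc, (hcv n).inter (convex_closedBall 0 R), fun x hx => ⟨hsym n x hx.1, by simpa [B] using hx.2⟩, ?_⟩
      simp only [Nat.sub_zero, Finset.Icc_self, Finset.sum_singleton]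
      have h1 := measureReal_compl (μ := γ) hc.measurableSet
      have h2 : γ.real (K n ∩ B)ᶜ ≤ γ.real (K n)ᶜ + γ.real Bᶜ := by
        rw [compl_inter]; exact measureReal_union_le _ _
      simp only [probReal_univ] at h1
      change _ ≤ γ.real (K n ∩ B)
      linarith
    | succ j ih =>
      intro hj
      obtain ⟨hc, hv, hs, hm⟩ := ih (by omega)
      set k := n - (j + 1) with hk
      have hc' : IsCompact (K k ∩ B) := (isCompact_closedBall 0 R).inter_left (hcl k)
      refine ⟨hc'.inter_right (starSet_isCompact hc).isClosed, ((hcv k).inter (convex_closedBall 0 R)).inter (starSet_convex hv),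
        fun x hx => ⟨⟨hsym k x hx.1.1, by simpa [B] using hx.1.2⟩, starSet_symm hs x hx.2⟩, ?_⟩
      have hsum : ∑ i ∈ Finset.Icc (n - (j + 1)) n, (γ.real (K i)ᶜ + γ.real Bᶜ)
          = (γ.real (K k)ᶜ + γ.real Bᶜ) + ∑ i ∈ Finset.Icc (n - j) n, (γ.real (K i)ᶜ + γ.real Bᶜ) := by
        rw [← Finset.insert_Icc_add_one_left_eq_Icc (show n - (j + 1) ≤ n by omega), Finset.sum_insert (by simp)]
        congr 3
        omega
      have hhalf : 1 / 2 ≤ γ.real (S j) := by
        refine le_trans ?_ hm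
        have : ∑ i ∈ Finset.Icc (n - j) n, (γ.real (K i)ᶜ + γ.real Bᶜ)
            ≤ ∑ i ∈ Finset.range (n + 1), (γ.real (K i)ᶜ + γ.real Bᶜ) :=
          Finset.sum_le_sum_of_subset_of_nonneg (fun i hi => by simp at hi ⊢; omega)
            (fun i _ _ => add_nonneg measureReal_nonneg measureReal_nonneg)
        rw [Finset.sum_add_distrib (s := Finset.range (n + 1))] at this
        simp only [Finset.sum_const, Finset.card_range, nsmul_eq_mul, Nat.cast_add, Nat.cast_one] at this
        linarith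
      have h1 := starSet_measure (hu k (by omega)) hc hv hhalf
      have h2 : γ.real ((K k ∩ B) ∩ starSet (u k) (S j))ᶜ
          ≤ γ.real (K k)ᶜ + γ.real Bᶜ + γ.real (starSet (u k) (S j))ᶜ := by
        rw [compl_inter, compl_inter]
        exact (measureReal_union_le _ _).trans (add_le_add (measureReal_union_le _ _) le_rfl)
      have h3 := measureReal_compl (μ := γ) (hc'.inter_right (starSet_isCompact (u := u k) hc).isClosed).measurableSet
      have h4 := measureReal_compl (μ := γ) (starSet_isCompact (u := u k) hc).measurableSet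
      simp only [probReal_univ] at h3 h4
      change _ ≤ γ.real ((K k ∩ B) ∩ starSet (u k) (S j))
      rw [hsum]
      linarith
  have h0 : (0 : E) ∈ S n := by
    obtain ⟨-, hv, hs, hm⟩ := hS n le_rfl
    have : 0 < γ.real (S n) := by
      refine lt_of_lt_of_le ?_ hm
      simp only [Nat.sub_self]
      have e : Finset.Icc 0 n = Finset.range (n + 1) := by ext i; simp
      rw [e, Finset.sum_add_distrib]
      simp only [Finset.sum_const, Finset.card_range, nsmul_eq_mul, Nat.cast_add, Nat.cast_one]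
      linarith
    obtain ⟨x, hx⟩ : (S n).Nonempty := nonempty_of_measureReal_ne_zero this.ne'
    have := hv hx (hs x hx) (show (0 : ℝ) ≤ 1 / 2 by norm_num) (show (0 : ℝ) ≤ 1 / 2 by norm_num) (by norm_num)
    simpa using this
  have key : ∀ k, k ≤ n → ∃ ε : ℕ → ℝ, (∀ i, ε i = 1 ∨ ε i = -1) ∧
      (∀ l, l ≤ k → ∑ i ∈ Finset.range l, ε i • u i ∈ S (n - l)) := by
    intro k
    induction k with
    | zero => exact fun _ => ⟨fun _ => 1, fun _ => Or.inl rfl, fun l hl => by simp [Nat.le_zero.1 hl]; exact h0⟩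
    | succ k ih =>
      intro hk
      obtain ⟨ε, hε, hmem⟩ := ih (by omega)
      have h := hmem k le_rfl
      rw [show n - k = (n - (k + 1)) + 1 by omega] at h
      have h' := h.2
      rw [show n - (n - (k + 1) + 1) = k by omega] at h'
      obtain ⟨c, hc, hcm⟩ : ∃ c : ℝ, (c = 1 ∨ c = -1) ∧
          ∑ i ∈ Finset.range k, ε i • u i + c • u k ∈ S (n - (k + 1)) := by
        rcases starSet_step (hS _ (by omega)).2.1 h' with h' | h'
        · exact ⟨1, Or.inl rfl, by simpa using h'⟩
        · exact ⟨-1, Or.inr rfl, by simpa [← sub_eq_add_neg] using h'⟩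
      refine ⟨fun i => if i = k then c else ε i, fun i => by dsimp only; split_ifs <;> [exact hc; exact hε i], ?_⟩
      have heq : ∀ l, l ≤ k → ∑ i ∈ Finset.range l, (if i = k then c else ε i) • u i
          = ∑ i ∈ Finset.range l, ε i • u i := fun l hl =>
        Finset.sum_congr rfl fun i hi => by
          have := Finset.mem_range.1 hi
          rw [if_neg (by omega)]
      intro l hl
      rcases Nat.lt_or_ge l (k + 1) with hl' | hl'
      · rw [heq l (by omega)]; exact hmem l (by omega)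
      · obtain rfl : l = k + 1 := by omega
        rw [Finset.sum_range_succ, heq k le_rfl]
        simp only [if_true]
        exact hcm
  obtain ⟨ε, hε, hmem⟩ := key n le_rfl
  refine ⟨ε, hε, fun k hk => ?_⟩
  have h := hmem k hk
  rcases Nat.eq_zero_or_pos (n - k) with he | he
  · obtain rfl : k = n := by omega
    rw [he] at h; exact h.1
  · obtain ⟨j, hj⟩ : ∃ j, n - k = j + 1 := ⟨n - k - 1, by omega⟩
    rw [hj] at h
    have := h.1.1
    rwa [show n - (j + 1) = k by omega] at this

end Vale.Agent.P262
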