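import Mathlib
import Vale.Agent.P262.Banaszczyk

/-!
Coordinate tests: signs such that chosen prefix sums are small on chosen sets of coordinates.
-/

open MeasureTheory ProbabilityTheory Set
open scoped ENNReal NNReal

namespace Vale.Agent.P262

variable {ι : Type*} [Fintype ι]

lemma lintegral_exp_sq_gauss :
    ∫⁻ x, ENNReal.ofReal (Real.exp (x ^ 2 / 4)) ∂gaussianReal 0 1 = ENNReal.ofReal (Real.sqrt 2) := by
  rw [gaussianReal_of_var_ne_zero 0 one_ne_zero, lintegral_withDensity_eq_lintegral_mul _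
    (measurable_gaussianPDF 0 1) (by fun_prop)]
  have h : ∀ x : ℝ, (gaussianPDF 0 1 * fun x => ENNReal.ofReal (Real.exp (x ^ 2 / 4))) x
      = ENNReal.ofReal ((Real.sqrt (2 * Real.pi))⁻¹ * Real.exp (-(1 / 4) * x ^ 2)) := by
    intro x
    simp only [Pi.mul_apply, gaussianPDF, ← ENNReal.ofReal_mul (gaussianPDFReal_nonneg _ _ _)]
    simp only [gaussianPDFReal, sub_zero, NNReal.coe_one, mul_one, mul_assoc, ← Real.exp_add]
    congr 3
    ring
  simp only [h]
  rw [← ofReal_integral_eq_lintegral_ofReal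
    ((integrable_exp_neg_mul_sq (by norm_num : (0 : ℝ) < 1 / 4)).const_mul _)
    (Filter.Eventually.of_forall fun x => by positivity), integral_const_mul, integral_gaussian]
  congr 1
  rw [← Real.sqrt_inv, ← Real.sqrt_mul (by positivity)]
  congr 1
  field_simp
  ring

/-- Tail of the squared norm of a set of coordinates of a standard Gaussian vector. -/
lemma gauss_tail (F : Finset ι) (T : ℝ) :
    (stdGaussian (EuclideanSpace ℝ ι)).real {y | T < ∑ i ∈ F, y i ^ 2}
      ≤ Real.exp (-T / 4) * Real.sqrt 2 ^ F.card := by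
  classical
  set μ := Measure.pi fun _ : ι => gaussianReal 0 1
  have hμ : stdGaussian (EuclideanSpace ℝ ι) = μ.map (WithLp.toLp 2) :=
    (map_pi_eq_stdGaussian).symm
  have hm : MeasurableSet {y : EuclideanSpace ℝ ι | T < ∑ i ∈ F, y i ^ 2} :=
    measurableSet_lt measurable_const (by fun_prop)
  rw [hμ, measureReal_def, Measure.map_apply (by fun_prop) hm]
  simp only [preimage_ofPred_eq]
  set g : (ι → ℝ) → ℝ≥0∞ := fun x => ∏ i, (if i ∈ F then ENNReal.ofReal (Real.exp (x i ^ 2 / 4)) else 1)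
  have hg : ∀ x : ι → ℝ, g x = ENNReal.ofReal (Real.exp ((∑ i ∈ F, x i ^ 2) / 4)) := by
    intro x
    simp only [g, Fintype.prod_ite_mem]
    rw [Finset.sum_div, Real.exp_sum, ENNReal.ofReal_prod_of_nonneg fun i _ => Real.exp_nonneg _]
  have hint : ∫⁻ x, g x ∂μ = ENNReal.ofReal (Real.sqrt 2) ^ F.card := by
    have hX : iIndepFun (fun (i : ι) (x : ι → ℝ) => ENNReal.ofReal (Real.exp (x i ^ 2 / 4))) μ :=
      iIndepFun_pi (μ := fun _ : ι => gaussianReal 0 1)
        (X := fun _ (t : ℝ) => ENNReal.ofReal (Real.exp (t ^ 2 / 4))) (fun _ => by fun_prop)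
    simp only [g, Fintype.prod_ite_mem]
    rw [lintegral_prod_eq_prod_lintegral_of_indepFun F _ hX (fun i => by fun_prop)]
    have : ∀ i : ι, ∫⁻ x : ι → ℝ, ENNReal.ofReal (Real.exp (x i ^ 2 / 4)) ∂μ
        = ENNReal.ofReal (Real.sqrt 2) := by
      intro i
      rw [← lintegral_exp_sq_gauss]
      exact (measurePreserving_eval (fun _ : ι => gaussianReal 0 1) i).lintegral_comp
        (f := fun t => ENNReal.ofReal (Real.exp (t ^ 2 / 4))) (by fun_prop)
    simp only [this, Finset.prod_const]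
  have hmark := meas_ge_le_lintegral_div (μ := μ) (f := g)
    (by rw [funext hg]; exact Measurable.aemeasurable (by fun_prop)) (ε := ENNReal.ofReal (Real.exp (T / 4)))
    (ENNReal.ofReal_pos.2 (Real.exp_pos _)).ne' ENNReal.ofReal_ne_top
  refine ENNReal.toReal_le_of_le_ofReal (by positivity) (le_trans (le_trans (measure_mono ?_) hmark) ?_)
  · intro x hx
    simp only [mem_ofPred_eq] at hx ⊢
    rw [hg]
    exact ENNReal.ofReal_le_ofReal (Real.exp_le_exp.2 (by linarith))
  · rw [hint, ← ENNReal.ofReal_pow (Real.sqrt_nonneg _), ← ENNReal.ofReal_div_of_pos (Real.exp_pos _)]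
    refine ENNReal.ofReal_le_ofReal (le_of_eq ?_)
    rw [div_eq_mul_inv, ← Real.exp_neg, mul_comm, neg_div]

/-- The signing theorem with coordinate tests at prescribed times. -/
theorem exists_signs_tests {J : Type*} [Fintype J] (n : ℕ) (u : ℕ → EuclideanSpace ℝ ι)
    (hu : ∀ i, i < n → ‖u i‖ ≤ 1) (time : J → ℕ) (htime : ∀ j, time j ≤ n)
    (F : J → Finset ι) (T : J → ℝ)
    (hloss : ∑ j, Real.exp (-T j / 4) * Real.sqrt 2 ^ (F j).card < 1 / 2) :
    ∃ ε : ℕ → ℝ, (∀ i, ε i = 1 ∨ ε i = -1) ∧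
      ∀ j, ∑ c ∈ F j, (∑ i ∈ Finset.range (time j), ε i * u i c) ^ 2 ≤ 2500 * T j := by
  classical
  let B : J → Set (EuclideanSpace ℝ ι) := fun j => {y | ∑ c ∈ F j, y c ^ 2 ≤ T j}
  let K : ℕ → Set (EuclideanSpace ℝ ι) := fun k => ⋂ j ∈ Finset.univ.filter (fun j => time j = k), B j
  have hBc : ∀ j, IsClosed (B j) := fun j => isClosed_le (by fun_prop) continuous_const
  have hBv : ∀ j, Convex ℝ (B j) := by
    intro j y hy z hz α β hα hβ hαβ
    simp only [B, mem_ofPred_eq] at hy hz ⊢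
    calc ∑ c ∈ F j, (α • y + β • z) c ^ 2 ≤ ∑ c ∈ F j, (α * y c ^ 2 + β * z c ^ 2) := by
          refine Finset.sum_le_sum fun c _ => ?_
          simp only [PiLp.add_apply, PiLp.smul_apply, smul_eq_mul]
          obtain rfl : β = 1 - α := by linarith
          nlinarith [mul_nonneg (mul_nonneg hα hβ) (sq_nonneg (y c - z c))]
      _ = α * ∑ c ∈ F j, y c ^ 2 + β * ∑ c ∈ F j, z c ^ 2 := by
          rw [Finset.sum_add_distrib, Finset.mul_sum, Finset.mul_sum]
      _ ≤ α * T j + β * T j := add_le_add (mul_le_mul_of_nonneg_left hy hα) (mul_le_mul_of_nonneg_left hz hβ)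
      _ = T j := by rw [← add_mul, hαβ, one_mul]
  obtain ⟨ε, hε, hmem⟩ := exists_signs (E := EuclideanSpace ℝ ι) n (fun i => (50 : ℝ)⁻¹ • u i)
    (fun i hi => by rw [norm_smul]; have := hu i hi; norm_num; linarith) K
    (fun k => isClosed_biInter fun j _ => hBc j)
    (fun k => convex_iInter₂ fun j _ => hBv j)
    (fun k x hx => by
      simp only [K, mem_iInter] at hx ⊢
      intro j hj
      simpa [B] using hx j hj) (by
      refine lt_of_le_of_lt ?_ hloss
      rw [← Finset.sum_fiberwise_of_maps_to (g := time) (t := Finset.range (n + 1))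
        (fun j _ => Finset.mem_range.2 (Nat.lt_succ_of_le (htime j)))]
      refine Finset.sum_le_sum fun k _ => ?_
      simp only [K, compl_iInter]
      refine le_trans (measureReal_biUnion_finset_le _ _) (Finset.sum_le_sum fun j _ => ?_)
      have : (B j)ᶜ = {y : EuclideanSpace ℝ ι | T j < ∑ c ∈ F j, y c ^ 2} := by
        ext y; simp [B]
      rw [this]
      exact gauss_tail (F j) (T j))
  refine ⟨ε, hε, fun j => ?_⟩
  have h := hmem (time j) (htime j)
  simp only [K, mem_iInter] at h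
  have h' := h j (by simp)
  simp only [B, mem_ofPred_eq, WithLp.ofLp_sum, Finset.sum_apply, PiLp.smul_apply, smul_eq_mul] at h'
  have e : ∀ c, (∑ i ∈ Finset.range (time j), ε i * ((50 : ℝ)⁻¹ * u i c)) ^ 2
      = (∑ i ∈ Finset.range (time j), ε i * u i c) ^ 2 / 2500 := by
    intro c
    simp only [fun i => show ε i * ((50 : ℝ)⁻¹ * u i c) = (50 : ℝ)⁻¹ * (ε i * u i c) by ring, ← Finset.mul_sum]
    ring
  simp only [e, ← Finset.sum_div] at h'
  linarith

end Vale.Agent.P262
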