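import Mathlib
import Vale.Agent.P262.Tests

/-!
Two uses of signings: repeated folding, which cuts a set into many parts of nearly equal weight for
all tested functionals, and rounding of fractional selections.
-/

namespace Vale.Agent.P262

variable {ι : Type*} [Fintype ι] [DecidableEq ι]

/-- Keep only the coordinates in `F`. -/
noncomputable def cut (F : Finset ι) : EuclideanSpace ℝ ι →ₗ[ℝ] EuclideanSpace ℝ ι where
  toFun y := WithLp.toLp 2 fun c => if c ∈ F then y c else 0
  map_add' y z := by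
    apply PiLp.ext
    intro c
    simp only [PiLp.add_apply]
    split_ifs <;> simp
  map_smul' r y := by
    apply PiLp.ext
    intro c
    simp only [PiLp.smul_apply, RingHom.id_apply]
    split_ifs <;> simp

lemma cut_apply (F : Finset ι) (y : EuclideanSpace ℝ ι) (c : ι) :
    cut F y c = if c ∈ F then y c else 0 := rfl

lemma norm_cut_sq (F : Finset ι) (y : EuclideanSpace ℝ ι) :
    ‖cut F y‖ ^ 2 = ∑ c ∈ F, y c ^ 2 := by
  rw [EuclideanSpace.real_norm_sq_eq]
  simp only [cut_apply, ite_pow, ne_eq, OfNat.ofNat_ne_zero, not_false_eq_true, zero_pow]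
  simp

lemma norm_cut_singleton (c : ι) (y : EuclideanSpace ℝ ι) : ‖cut {c} y‖ = |y c| := by
  rw [← sq_eq_sq₀ (norm_nonneg _) (abs_nonneg _), norm_cut_sq]
  simp

lemma norm_cut_le (F : Finset ι) (y : EuclideanSpace ℝ ι) : ‖cut F y‖ ≤ ‖y‖ := by
  rw [← sq_le_sq₀ (norm_nonneg _) (norm_nonneg _), norm_cut_sq, EuclideanSpace.real_norm_sq_eq]
  exact Finset.sum_le_sum_of_subset_of_nonneg (Finset.subset_univ _) fun _ _ _ => sq_nonneg _

variable {α : Type*} [DecidableEq α] {J : Type*} [Fintype J]

/-- Sum of the vectors assigned to the first `k` parts. -/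
noncomputable def part (s : Finset α) (φ : α → EuclideanSpace ℝ ι) (a : α → ℕ) (k : ℕ) :
    EuclideanSpace ℝ ι :=
  ∑ x ∈ s.filter (fun x => a x < k), φ x

lemma exists_signing (s : Finset α) (φ : α → EuclideanSpace ℝ ι) (hφ : ∀ x ∈ s, ‖φ x‖ ≤ 1)
    (a : α → ℕ) (m : ℕ) (F : J → Finset ι) (T : J → ℝ)
    (hloss : ((m : ℝ) + 1) * ∑ j, Real.exp (-T j / 4) * Real.sqrt 2 ^ (F j).card < 1 / 2) :
    ∃ P : Finset α, P ⊆ s ∧ ∀ k ≤ m, ∀ j,
      ‖cut (F j) (part P φ a k - part (s \ P) φ a k)‖ ≤ 50 * Real.sqrt (T j) := by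
  classical
  set n := s.card
  set e₀ := s.equivFin
  set σ := Tuple.sort fun i : Fin n => a (e₀.symm i)
  set e : Fin n ≃ s := σ.trans e₀.symm
  have hmono : Monotone fun i => a (e i) := Tuple.monotone_sort fun i : Fin n => a (e₀.symm i)
  set u : ℕ → EuclideanSpace ℝ ι := fun i => if h : i < n then φ (e ⟨i, h⟩) else 0
  let c : ℕ → ℕ := fun k => (Finset.univ.filter fun i : Fin n => a (e i) < k).card
  have hc : ∀ k (i : Fin n), (i : ℕ) < c k ↔ a (e i) < k := by
    intro k i
    constructor
    · intro h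
      by_contra hk
      have : (Finset.univ.filter fun i' : Fin n => a (e i') < k) ⊆ Finset.Iio i := by
        intro i' hi'
        simp only [Finset.mem_filter, Finset.mem_univ, true_and] at hi'
        exact Finset.mem_Iio.2 (lt_of_not_ge fun h' => hk (lt_of_le_of_lt (hmono h') hi'))
      have := Finset.card_le_card this
      simp only [Fin.card_Iio] at this
      exact absurd (lt_of_lt_of_le h this) (lt_irrefl _)
    · intro h
      have : Finset.Iic i ⊆ (Finset.univ.filter fun i' : Fin n => a (e i') < k) := by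
        intro i' hi'
        simp only [Finset.mem_filter, Finset.mem_univ, true_and]
        exact lt_of_le_of_lt (hmono (Finset.mem_Iic.1 hi')) h
      have := Finset.card_le_card this
      simp only [Fin.card_Iic] at this
      exact Nat.lt_of_succ_le this
  obtain ⟨ε, hε, htest⟩ := exists_signs_tests (J := Fin (m + 1) × J) n u
    (fun i hi => by simp only [u, hi, dite_true]; exact hφ _ (e _).2)
    (fun p => c p.1) (fun p => (Finset.card_le_univ _).trans (by simp)) (fun p => F p.2)
    (fun p => T p.2) (by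
      rw [Fintype.sum_prod_type]
      simp only [Finset.sum_const, Finset.card_univ, Fintype.card_fin, nsmul_eq_mul]
      push_cast
      exact hloss)
  set δ : α → ℝ := fun x => if h : x ∈ s then ε (e.symm ⟨x, h⟩ : ℕ) else 0
  refine ⟨s.filter fun x => δ x = 1, Finset.filter_subset _ _, fun k hk j => ?_⟩
  have h := htest (⟨k, Nat.lt_succ_of_le hk⟩, j)
  have hsum : part (s.filter fun x => δ x = 1) φ a k - part (s \ s.filter fun x => δ x = 1) φ a k
      = ∑ i ∈ Finset.range (c k), ε i • u i := by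
    have h1 : ∑ i ∈ Finset.range (c k), ε i • u i
        = ∑ i : Fin n, if a (e i) < k then ε i • φ (e i) else 0 := by
      have hcn : c k ≤ n := (Finset.card_le_univ _).trans (by simp)
      have hfil : Finset.range (c k) = (Finset.range n).filter (fun i => i < c k) := by
        ext i; simp; omega
      rw [hfil, Finset.sum_filter, ← Fin.sum_univ_eq_sum_range (fun i => if i < c k then ε i • u i else 0)]
      refine Finset.sum_congr rfl fun i _ => ?_
      simp only [hc, u, i.2, dite_true]
    rw [h1, ← Equiv.sum_comp e.symm]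
    simp only [Equiv.apply_symm_apply]
    rw [Finset.univ_eq_attach, show (∑ x ∈ s.attach, if a x.1 < k then ε (e.symm x : ℕ) • φ x.1 else 0)
      = ∑ x ∈ s.attach, (fun x => if a x < k then δ x • φ x else 0) x.1 from
      Finset.sum_congr rfl fun x _ => by simp [δ, x.2], Finset.sum_attach s (fun x => if a x < k then δ x • φ x else 0)]
    simp only [part]
    rw [Finset.sum_filter, Finset.sum_filter, Finset.sum_filter, ← Finset.filter_not, Finset.sum_filter,
      ← Finset.sum_sub_distrib]
    refine Finset.sum_congr rfl fun x hx => ?_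
    have hx' : δ x = 1 ∨ δ x = -1 := by simp only [δ, hx, dite_true]; exact hε _
    rcases hx' with h | h <;> simp [h] <;> norm_num <;> split_ifs <;> simp
  rw [hsum]
  have hnn : ‖cut (F j) (∑ i ∈ Finset.range (c k), ε i • u i)‖ ^ 2 ≤ 2500 * T j := by
    rw [norm_cut_sq]
    simpa [WithLp.ofLp_sum, Finset.sum_apply, PiLp.smul_apply, smul_eq_mul] using h
  have hT : 0 ≤ T j := by nlinarith [sq_nonneg ‖cut (F j) (∑ i ∈ Finset.range (c k), ε i • u i)‖]
  calc _ = Real.sqrt (‖cut (F j) (∑ i ∈ Finset.range (c k), ε i • u i)‖ ^ 2) :=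
        (Real.sqrt_sq (norm_nonneg _)).symm
    _ ≤ Real.sqrt (2500 * T j) := Real.sqrt_le_sqrt hnn
    _ = _ := by
        rw [Real.sqrt_mul (by norm_num), show (2500 : ℝ) = 50 ^ 2 by norm_num,
          Real.sqrt_sq (by norm_num)]

/-- Folding. -/
theorem fold (s : Finset α) (φ : α → EuclideanSpace ℝ ι) (hφ : ∀ x ∈ s, ‖φ x‖ ≤ 1)
    (F : J → Finset ι) (T : J → ℝ) :
    ∀ (g : ℕ) (a : α → ℕ) (m : ℕ), 0 < m → (∀ x ∈ s, a x < m) →
    ((m * 2 ^ g : ℕ) + 1 : ℝ) * (∑ j, Real.exp (-T j / 4) * Real.sqrt 2 ^ (F j).card) < 1 / 2 →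
    ∀ init : J → ℝ, (∀ k ≤ m, ∀ j,
      ‖cut (F j) (part s φ a k - ((k : ℝ) / m) • ∑ x ∈ s, φ x)‖ ≤ init j) →
    ∃ a' : α → ℕ, (∀ x ∈ s, a' x < m * 2 ^ g) ∧ (Set.InjOn a (s : Set α) → Set.InjOn a' (s : Set α)) ∧
      ∀ k ≤ m * 2 ^ g, ∀ j,
      ‖cut (F j) (part s φ a' k - ((k : ℝ) / (m * 2 ^ g : ℕ)) • ∑ x ∈ s, φ x)‖
        ≤ init j / 2 ^ g + 50 * Real.sqrt (T j) * (1 - 1 / 2 ^ g) := by
  intro g
  induction g with
  | zero =>
    intro a m _ ha _ init hinit
    exact ⟨a, by simpa using ha, id, fun k hk j => by simpa using hinit k (by simpa using hk) j⟩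
  | succ g ih =>
    intro a m hm ha hloss init hinit
    have h2m : 2 * m * 2 ^ g = m * 2 ^ (g + 1) := by rw [pow_succ]; ring
    have hle : ((m : ℝ) + 1) * (∑ j, Real.exp (-T j / 4) * Real.sqrt 2 ^ (F j).card) < 1 / 2 := by
      refine lt_of_le_of_lt (mul_le_mul_of_nonneg_right ?_
        (Finset.sum_nonneg fun j _ => by positivity)) hloss
      have : (m : ℕ) ≤ m * 2 ^ (g + 1) := Nat.le_mul_of_pos_right _ (by positivity)
      have := (Nat.cast_le (α := ℝ)).2 this
      push_cast at this ⊢
      linarith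
    obtain ⟨P, hP, hsig⟩ := exists_signing s φ hφ a m F T hle
    set a₁ : α → ℕ := fun x => if x ∈ P then a x else 2 * m - 1 - a x
    set D := ∑ x ∈ s, φ x
    have hsplit : ∀ k, part P φ a k + part (s \ P) φ a k = part s φ a k := by
      intro k
      simp only [part, Finset.sum_filter]
      rw [add_comm, Finset.sum_sdiff hP]
    have htotal : ∀ t : Finset α, t ⊆ s → part t φ a m = ∑ x ∈ t, φ x := fun t ht => by
      rw [part, Finset.filter_true_of_mem fun x hx => ha x (ht hx)]
    have key : ∀ k ≤ 2 * m, ∃ k' ≤ m, ∃ c : ℝ, (c = 1 ∨ c = -1) ∧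
        part s φ a₁ k - ((k : ℝ) / (2 * m : ℕ)) • D
          = (1 / 2 : ℝ) • (c • (part s φ a k' - ((k' : ℝ) / m) • D) + (part P φ a k' - part (s \ P) φ a k')) := by
      intro k hk
      rcases le_or_gt k m with hkm | hkm
      · refine ⟨k, hkm, 1, Or.inl rfl, ?_⟩
        have h1 : part s φ a₁ k = part P φ a k := by
          simp only [part]
          refine Finset.sum_congr ?_ fun _ _ => rfl
          ext x
          simp only [Finset.mem_filter, a₁]
          constructor
          · rintro ⟨hx, hlt⟩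
            have := ha x hx
            split_ifs at hlt with hxP
            · exact ⟨hxP, hlt⟩
            · omega
          · rintro ⟨hx, hlt⟩
            exact ⟨hP hx, by simp [hx, hlt]⟩
        rw [h1, ← hsplit k]
        push_cast
        rw [show (k : ℝ) / (2 * m) = (1 / 2) * ((k : ℝ) / m) by ring]
        module
      · refine ⟨2 * m - k, by omega, -1, Or.inr rfl, ?_⟩
        have h1 : part s φ a₁ k + part (s \ P) φ a (2 * m - k) = D := by
          simp only [part, Finset.sum_filter, D]
          rw [← Finset.sum_sdiff hP (f := fun x => if a₁ x < k then φ x else 0),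
            ← Finset.sum_sdiff hP (f := φ), add_right_comm]
          congr 1
          · rw [← Finset.sum_add_distrib]
            refine Finset.sum_congr rfl fun x hx => ?_
            simp only [Finset.mem_sdiff] at hx
            have := ha x hx.1
            simp only [a₁, hx.2, if_false]
            by_cases h : 2 * m - 1 - a x < k
            · rw [if_pos h, if_neg (by omega), add_zero]
            · rw [if_neg h, if_pos (by omega), zero_add]
          · refine Finset.sum_congr rfl fun x hx => ?_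
            have := ha x (hP hx)
            simp [a₁, hx, show a x < k by omega]
        rw [eq_sub_of_add_eq h1, ← hsplit (2 * m - k)]
        have e : ((2 * m - k : ℕ) : ℝ) = 2 * (m : ℝ) - k := by
          rw [Nat.cast_sub hk]; push_cast; ring
        have hm' : (m : ℝ) ≠ 0 := by positivity
        rw [e]
        push_cast
        have e1 : (2 * (m : ℝ) - k) / m = 2 - (k : ℝ) / m := by field_simp
        rw [e1, show (k : ℝ) / (2 * m) = (1 / 2) * ((k : ℝ) / m) by ring]
        module
    have hinit' : ∀ k ≤ 2 * m, ∀ j,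
        ‖cut (F j) (part s φ a₁ k - ((k : ℝ) / (2 * m : ℕ)) • D)‖
          ≤ init j / 2 + 25 * Real.sqrt (T j) := by
      intro k hk j
      obtain ⟨k', hk', c, hc, he⟩ := key k hk
      rw [he, map_smul, map_add, map_smul, norm_smul, Real.norm_of_nonneg (by norm_num : (0:ℝ) ≤ 1 / 2)]
      refine le_trans (mul_le_mul_of_nonneg_left (norm_add_le _ _) (by norm_num)) ?_
      have h1 := hinit k' hk' j
      have h2 := hsig k' hk' j
      have h3 : ‖c • cut (F j) (part s φ a k' - ((k' : ℝ) / m) • D)‖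
          = ‖cut (F j) (part s φ a k' - ((k' : ℝ) / m) • D)‖ := by
        rcases hc with rfl | rfl <;> simp only [neg_smul, one_smul, norm_neg]
      rw [h3]
      linarith
    obtain ⟨a', ha', hinj, hres⟩ := ih a₁ (2 * m) (by omega)
      (fun x hx => by simp only [a₁]; have := ha x hx; split_ifs <;> omega)
      (by rwa [h2m]) (fun j => init j / 2 + 25 * Real.sqrt (T j)) hinit'
    refine ⟨a', fun x hx => h2m ▸ ha' x hx, fun hi => hinj fun x hx y hy hxy => ?_, fun k hk j => ?_⟩
    · refine hi hx hy ?_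
      have := ha x hx
      have := ha y hy
      simp only [a₁] at hxy
      split_ifs at hxy <;> omega
    have := hres k (h2m ▸ hk) j
    rw [h2m] at this
    refine this.trans (le_of_eq ?_)
    rw [pow_succ]
    field_simp
    ring

/-- Rounding of a fractional selection. -/
theorem round_frac (s : Finset α) (φ : α → EuclideanSpace ℝ ι) (hφ : ∀ x ∈ s, ‖φ x‖ ≤ 1)
    (F : J → Finset ι) (T : J → ℝ)
    (hloss : 2 * (∑ j, Real.exp (-T j / 4) * Real.sqrt 2 ^ (F j).card) < 1 / 2)
    (x : α → ℝ) (hx : ∀ a ∈ s, x a ∈ Set.Icc (0 : ℝ) 1) :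
    ∃ S : Finset α, S ⊆ s ∧
      ∀ j, ‖cut (F j) (∑ a ∈ S, φ a - ∑ a ∈ s, x a • φ a)‖ ≤ 50 * Real.sqrt (T j) + 1 := by
  classical
  have dyadic : ∀ R : ℕ, ∀ q : α → ℕ, (∀ a ∈ s, q a ≤ 2 ^ R) → ∃ S : Finset α, S ⊆ s ∧
      ∀ j, ‖cut (F j) (∑ a ∈ S, φ a - ∑ a ∈ s, ((q a : ℝ) / 2 ^ R) • φ a)‖
        ≤ 50 * Real.sqrt (T j) * (1 - 1 / 2 ^ R) := by
    intro R
    induction R with
    | zero =>
      intro q hq
      refine ⟨s.filter fun a => q a = 1, Finset.filter_subset _ _, fun j => ?_⟩
      have : ∑ a ∈ s, ((q a : ℝ) / 2 ^ 0) • φ a = ∑ a ∈ s.filter (fun a => q a = 1), φ a := by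
        rw [Finset.sum_filter]
        refine Finset.sum_congr rfl fun a ha => ?_
        have := hq a ha
        rcases Nat.le_one_iff_eq_zero_or_eq_one.1 (by simpa using this) with h | h <;> simp [h]
      rw [this, sub_self, map_zero, norm_zero]
      simp
    | succ R ih =>
      intro q hq
      set O := s.filter fun a => q a % 2 = 1
      obtain ⟨P, hP, hsig⟩ := exists_signing O φ (fun a ha => hφ a (Finset.mem_filter.1 ha).1)
        (fun _ => 0) 1 F T (by norm_num; linarith)
      set q' : α → ℕ := fun a => if a ∈ P then q a / 2 + 1 else q a / 2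
      obtain ⟨S, hS, hres⟩ := ih q' fun a ha => by
        have := hq a ha
        rw [pow_succ] at this
        simp only [q']
        split_ifs with h
        · have := (Finset.mem_filter.1 (hP h)).2; omega
        · omega
      refine ⟨S, hS, fun j => ?_⟩
      have h1 := hsig 1 le_rfl j
      simp only [part, show ∀ t : Finset α, t.filter (fun _ => (0 : ℕ) < 1) = t from fun t => by simp] at h1
      have hdiff : ∑ a ∈ s, ((q' a : ℝ) / 2 ^ R) • φ a - ∑ a ∈ s, ((q a : ℝ) / 2 ^ (R + 1)) • φ a
          = (1 / 2 ^ (R + 1) : ℝ) • (∑ a ∈ P, φ a - ∑ a ∈ O \ P, φ a) := by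
        have hP' : P = s.filter fun a => q a % 2 = 1 ∧ a ∈ P := by
          ext a; simp only [Finset.mem_filter]
          exact ⟨fun h => ⟨(Finset.mem_filter.1 (hP h)).1, (Finset.mem_filter.1 (hP h)).2, h⟩, fun h => h.2.2⟩
        have hOP : O \ P = s.filter fun a => q a % 2 = 1 ∧ a ∉ P := by
          ext a; simp [O, and_assoc]
        rw [smul_sub, Finset.smul_sum, Finset.smul_sum, ← Finset.sum_sub_distrib, hOP]
        rw [show ∀ f : α → EuclideanSpace ℝ ι, ∑ a ∈ P, f a
          = ∑ a ∈ s.filter (fun a => q a % 2 = 1 ∧ a ∈ P), f a from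
          fun f => Finset.sum_congr hP' fun _ _ => rfl]
        rw [Finset.sum_filter, Finset.sum_filter, ← Finset.sum_sub_distrib]
        refine Finset.sum_congr rfl fun a ha => ?_
        have hdm : (q a : ℝ) = 2 * ((q a / 2 : ℕ) : ℝ) + ((q a % 2 : ℕ) : ℝ) := by
          exact_mod_cast (Nat.div_add_mod (q a) 2).symm
        rw [← sub_smul]
        by_cases hodd : q a % 2 = 1
        · by_cases hm : a ∈ P
          · rw [if_pos ⟨hodd, hm⟩, if_neg (by rintro ⟨-, h⟩; exact h hm), sub_zero]
            congr 1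
            simp only [q', hm, if_true]
            rw [hdm, hodd, pow_succ]; push_cast; field_simp; ring
          · rw [if_neg (by rintro ⟨-, h⟩; exact hm h), if_pos ⟨hodd, hm⟩, zero_sub, ← neg_smul]
            congr 1
            simp only [q', hm, if_false]
            rw [hdm, hodd, pow_succ]; push_cast; field_simp; ring
        · have hm : a ∉ P := fun h => hodd (Finset.mem_filter.1 (hP h)).2
          rw [if_neg (fun h => hodd h.1), if_neg (fun h => hodd h.1), sub_zero]
          simp only [q', hm, if_false]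
          rw [hdm, show q a % 2 = 0 by omega, pow_succ]
          push_cast
          rw [show ((q a / 2 : ℕ) : ℝ) / 2 ^ R - (2 * ((q a / 2 : ℕ) : ℝ) + 0) / (2 ^ R * 2) = 0 by
            field_simp; ring, zero_smul]
      have e : ∑ a ∈ S, φ a - ∑ a ∈ s, ((q a : ℝ) / 2 ^ (R + 1)) • φ a
          = (∑ a ∈ S, φ a - ∑ a ∈ s, ((q' a : ℝ) / 2 ^ R) • φ a)
            + (1 / 2 ^ (R + 1) : ℝ) • (∑ a ∈ P, φ a - ∑ a ∈ O \ P, φ a) := by
        rw [← hdiff]; abel
      rw [e, map_add, map_smul]
      refine (norm_add_le _ _).trans ?_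
      rw [norm_smul, Real.norm_of_nonneg (by positivity)]
      refine (add_le_add (hres j) (mul_le_mul_of_nonneg_left h1 (by positivity))).trans (le_of_eq ?_)
      rw [pow_succ]; field_simp; ring
  obtain ⟨R, hR⟩ : ∃ R : ℕ, (s.card : ℝ) ≤ 2 ^ R :=
    ⟨s.card, by exact_mod_cast (Nat.lt_two_pow_self (n := s.card)).le⟩
  obtain ⟨S, hS, hres⟩ := dyadic R (fun a => ⌊x a * 2 ^ R⌋₊) fun a ha => by
    refine Nat.floor_le_of_le ?_
    push_cast
    exact mul_le_of_le_one_left (by positivity) (hx a ha).2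
  refine ⟨S, hS, fun j => ?_⟩
  have herr : ‖∑ a ∈ s, ((⌊x a * 2 ^ R⌋₊ : ℝ) / 2 ^ R) • φ a - ∑ a ∈ s, x a • φ a‖ ≤ 1 := by
    rw [← Finset.sum_sub_distrib]
    refine (norm_sum_le_of_le _ (n := fun _ => (1 : ℝ) / 2 ^ R) fun a ha => ?_).trans ?_
    · rw [← sub_smul, norm_smul, Real.norm_eq_abs]
      refine le_trans (mul_le_mul (b := 1 / 2 ^ R) ?_ (hφ a ha) (norm_nonneg _) (by positivity))
        (by rw [mul_one])
      have h0 : 0 ≤ x a * 2 ^ R := mul_nonneg (hx a ha).1 (by positivity)
      have h1 := Nat.floor_le h0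
      have h2 := Nat.lt_floor_add_one (x a * 2 ^ R)
      rw [div_sub' (by positivity), abs_div, abs_of_pos (show (0:ℝ) < 2 ^ R by positivity)]
      exact (div_le_div_iff_of_pos_right (by positivity)).2 (abs_le.2 ⟨by linarith, by linarith⟩)
    · simp only [Finset.sum_const, nsmul_eq_mul]
      rw [mul_one_div, div_le_one (by positivity)]
      exact hR
  have e : ∑ a ∈ S, φ a - ∑ a ∈ s, x a • φ a
      = (∑ a ∈ S, φ a - ∑ a ∈ s, ((⌊x a * 2 ^ R⌋₊ : ℝ) / 2 ^ R) • φ a)
        + (∑ a ∈ s, ((⌊x a * 2 ^ R⌋₊ : ℝ) / 2 ^ R) • φ a - ∑ a ∈ s, x a • φ a) := by abel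
  rw [e, map_add]
  refine (norm_add_le _ _).trans (add_le_add ((hres j).trans ?_) ((norm_cut_le _ _).trans herr))
  exact mul_le_of_le_one_right (by positivity) (by
    have : (0 : ℝ) ≤ 1 / 2 ^ R := by positivity
    linarith)

end Vale.Agent.P262
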