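import Mathlib

/-!
The choice of scales. Given the integer logarithms `ψ i` of the eigenvalues, a sequence of levels
`lvl j` is built whose gaps `gap j` change slowly, are never small compared with the number of
eigenvalues nearby, and whose total over the levels that meet an eigenvalue is linear in `d`.
-/

namespace Vale.Agent.P262

variable {d : ℕ}

/-- Number of `i` with `|ψ i - t| ≤ σ`. -/
def cnt (ψ : Fin d → ℤ) (t : ℤ) (σ : ℕ) : ℕ :=
  (Finset.univ.filter fun i => (ψ i - t).natAbs ≤ σ).card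

/-- The local crowding at `t`. -/
def crowd (M B : ℕ) (ψ : Fin d → ℤ) (t : ℤ) : ℕ :=
  max (B * M) ((Finset.range (4 * M * d + 1)).sup fun σ => 4 * M * cnt ψ t σ - σ)

/-- The levels. -/
def lvl (M B : ℕ) (ψ : Fin d → ℤ) : ℕ → ℤ
  | 0 => 0
  | j + 1 => lvl M B ψ j + ((crowd M B ψ (lvl M B ψ j) / M : ℕ) : ℤ)

/-- The gap after level `j`. -/
def gap (M B : ℕ) (ψ : Fin d → ℤ) (j : ℕ) : ℕ := crowd M B ψ (lvl M B ψ j) / M

/-- Coordinates far above level `j`. -/
def High (M B : ℕ) (ψ : Fin d → ℤ) (j : ℕ) (i : Fin d) : Prop :=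
  2 * (gap M B ψ j : ℤ) ≤ ψ i - lvl M B ψ j

/-- Coordinates far below level `j`. -/
def Low (M B : ℕ) (ψ : Fin d → ℤ) (j : ℕ) (i : Fin d) : Prop :=
  2 * (gap M B ψ j : ℤ) ≤ lvl M B ψ j - ψ i

instance (M B : ℕ) (ψ : Fin d → ℤ) (j : ℕ) (i : Fin d) : Decidable (High M B ψ j i) := by
  unfold High; infer_instance

instance (M B : ℕ) (ψ : Fin d → ℤ) (j : ℕ) (i : Fin d) : Decidable (Low M B ψ j i) := by
  unfold Low; infer_instance

/-- Coordinates near level `j`. -/
def nearSet (M B : ℕ) (ψ : Fin d → ℤ) (j : ℕ) : Finset (Fin d) :=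
  Finset.univ.filter fun i => ¬ High M B ψ j i ∧ ¬ Low M B ψ j i

lemma cnt_le_d (ψ : Fin d → ℤ) (t : ℤ) (σ : ℕ) : cnt ψ t σ ≤ d :=
  (Finset.card_le_univ _).trans (by simp)

lemma cnt_crowd (M B : ℕ) (ψ : Fin d → ℤ) (t : ℤ) (σ : ℕ) :
    4 * M * cnt ψ t σ ≤ crowd M B ψ t + σ := by
  by_cases h : σ < 4 * M * d + 1
  · have h1 : 4 * M * cnt ψ t σ - σ ≤ crowd M B ψ t :=
      le_max_of_le_right (Finset.le_sup (f := fun σ => 4 * M * cnt ψ t σ - σ) (Finset.mem_range.2 h))
    omega
  · have := Nat.mul_le_mul_left (4 * M) (cnt_le_d ψ t σ)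
    omega

lemma crowd_lip (M B : ℕ) (ψ : Fin d → ℤ) (t t' : ℤ) :
    crowd M B ψ t' ≤ crowd M B ψ t + (t' - t).natAbs := by
  refine max_le ((le_max_left _ _).trans (Nat.le_add_right _ _)) (Finset.sup_le fun σ _ => ?_)
  have h : cnt ψ t' σ ≤ cnt ψ t (σ + (t' - t).natAbs) := by
    refine Finset.card_le_card fun i hi => ?_
    simp only [Finset.mem_filter, Finset.mem_univ, true_and] at hi ⊢
    omega
  have h1 := cnt_crowd M B ψ t (σ + (t' - t).natAbs)
  have h2 := Nat.mul_le_mul_left (4 * M) h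
  omega

section
variable {M B : ℕ} (hM : 100 ≤ M) (hB : 1000 ≤ B) (ψ : Fin d → ℤ)
include hM

lemma le_gap (j : ℕ) : B ≤ gap M B ψ j :=
  (Nat.le_div_iff_mul_le (by omega)).2 (le_max_left _ _)

lemma cnt_gap (j σ : ℕ) : 4 * M * cnt ψ (lvl M B ψ j) σ ≤ M * (gap M B ψ j + 1) + σ := by
  have h1 := cnt_crowd M B ψ (lvl M B ψ j) σ
  have h2 := Nat.div_add_mod (crowd M B ψ (lvl M B ψ j)) M
  have h3 := Nat.mod_lt (crowd M B ψ (lvl M B ψ j)) (show M > 0 by omega)
  rw [Nat.mul_add, mul_one]
  simp only [gap]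
  omega

include hB

lemma gap_step (j : ℕ) :
    100 * gap M B ψ (j + 1) ≤ 103 * gap M B ψ j ∧ 100 * gap M B ψ j ≤ 103 * gap M B ψ (j + 1) := by
  have h : lvl M B ψ (j + 1) - lvl M B ψ j = (gap M B ψ j : ℤ) := by simp [lvl, gap]
  have h1 := crowd_lip M B ψ (lvl M B ψ j) (lvl M B ψ (j + 1))
  have h2 := crowd_lip M B ψ (lvl M B ψ (j + 1)) (lvl M B ψ j)
  have h3 := Nat.div_add_mod (crowd M B ψ (lvl M B ψ j)) M
  have h4 := Nat.mod_lt (crowd M B ψ (lvl M B ψ j)) (show M > 0 by omega)
  have h5 := Nat.div_add_mod (crowd M B ψ (lvl M B ψ (j + 1))) M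
  have h6 := Nat.mod_lt (crowd M B ψ (lvl M B ψ (j + 1))) (show M > 0 by omega)
  have hg := le_gap (B := B) hM ψ j
  have hg' := le_gap (B := B) hM ψ (j + 1)
  have e1 : (lvl M B ψ (j + 1) - lvl M B ψ j).natAbs = gap M B ψ j := by rw [h]; simp
  have e2 : (lvl M B ψ j - lvl M B ψ (j + 1)).natAbs = gap M B ψ j := by
    rw [← neg_sub, Int.natAbs_neg, e1]
  rw [e1] at h1
  rw [e2] at h2
  change M * gap M B ψ j + _ = _ at h3
  change M * gap M B ψ (j + 1) + _ = _ at h5
  set a := gap M B ψ j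
  set b := gap M B ψ (j + 1)
  have k1 : M * b ≤ M * a + M + a := by omega
  have k2 : M * a ≤ M * b + M + a := by omega
  constructor
  · have : M * (b - a - 1) ≤ a := by rw [Nat.mul_sub, Nat.mul_sub]; omega
    have := le_trans (Nat.mul_le_mul_right (b - a - 1) hM) this
    omega
  · have : M * (a - b - 1) ≤ a := by rw [Nat.mul_sub, Nat.mul_sub]; omega
    have := le_trans (Nat.mul_le_mul_right (a - b - 1) hM) this
    omega

omit hB in
lemma lvl_succ (j : ℕ) : lvl M B ψ (j + 1) = lvl M B ψ j + (gap M B ψ j : ℤ) := by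
  simp [lvl, gap]

omit hB in
lemma lvl_mono : Monotone (lvl M B ψ) :=
  monotone_nat_of_le_succ fun j => by rw [lvl_succ hM]; omega

omit hB in
lemma le_lvl (j : ℕ) : (j : ℤ) * B ≤ lvl M B ψ j := by
  induction j with
  | zero => simp [lvl]
  | succ j ih =>
    rw [lvl_succ hM]
    have := le_gap (B := B) hM ψ j
    push_cast
    nlinarith

lemma high_pred {j : ℕ} {i : Fin d} (h : High M B ψ (j + 1) i) : High M B ψ j i := by
  have := gap_step hM hB ψ j
  have := lvl_succ (B := B) hM ψ j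
  simp only [High] at *
  omega

lemma high_anti {j k : ℕ} (hjk : j ≤ k) {i : Fin d} (h : High M B ψ k i) : High M B ψ j i := by
  induction k, hjk using Nat.le_induction with
  | base => exact h
  | succ k _ ih => exact ih (high_pred hM hB ψ h)

lemma low_succ {j : ℕ} {i : Fin d} (h : Low M B ψ j i) : Low M B ψ (j + 1) i := by
  have := gap_step hM hB ψ j
  have := lvl_succ (B := B) hM ψ j
  simp only [Low] at *
  omega

lemma low_mono {j k : ℕ} (hjk : j ≤ k) {i : Fin d} (h : Low M B ψ j i) : Low M B ψ k i := by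
  induction k, hjk using Nat.le_induction with
  | base => exact h
  | succ k _ ih => exact low_succ hM hB ψ ih

lemma high_not_low_succ {j : ℕ} {i : Fin d} (h : High M B ψ j i) : ¬ Low M B ψ (j + 1) i := by
  have := gap_step hM hB ψ j
  have := lvl_succ (B := B) hM ψ j
  have := le_gap (B := B) hM ψ j
  simp only [Low, High] at *
  omega

lemma near_low_ten {j : ℕ} {i : Fin d} (h : i ∈ nearSet M B ψ j) : Low M B ψ (j + 10) i := by
  simp only [nearSet, Finset.mem_filter, Finset.mem_univ, true_and] at h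
  simp only [High, Low] at h ⊢
  have s0 := gap_step hM hB ψ j
  have s1 := gap_step hM hB ψ (j + 1)
  have s2 := gap_step hM hB ψ (j + 2)
  have s3 := gap_step hM hB ψ (j + 3)
  have s4 := gap_step hM hB ψ (j + 4)
  have s5 := gap_step hM hB ψ (j + 5)
  have s6 := gap_step hM hB ψ (j + 6)
  have s7 := gap_step hM hB ψ (j + 7)
  have s8 := gap_step hM hB ψ (j + 8)
  have s9 := gap_step hM hB ψ (j + 9)
  have l0 := lvl_succ (B := B) hM ψ j
  have l1 := lvl_succ (B := B) hM ψ (j + 1)
  have l2 := lvl_succ (B := B) hM ψ (j + 2)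
  have l3 := lvl_succ (B := B) hM ψ (j + 3)
  have l4 := lvl_succ (B := B) hM ψ (j + 4)
  have l5 := lvl_succ (B := B) hM ψ (j + 5)
  have l6 := lvl_succ (B := B) hM ψ (j + 6)
  have l7 := lvl_succ (B := B) hM ψ (j + 7)
  have l8 := lvl_succ (B := B) hM ψ (j + 8)
  have l9 := lvl_succ (B := B) hM ψ (j + 9)
  have hg := le_gap (B := B) hM ψ j
  zify at s0 s1 s2 s3 s4 s5 s6 s7 s8 s9 hg
  linarith [s0.1, s0.2, s1.1, s1.2, s2.1, s2.2, s3.1, s3.2, s4.1, s4.2, s5.1, s5.2, s6.1, s6.2,
    s7.1, s7.2, s8.1, s8.2, s9.1, s9.2, h.1, h.2]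

lemma near_stages (J : ℕ) (i : Fin d) :
    ((Finset.range J).filter fun j => i ∈ nearSet M B ψ j).card ≤ 10 := by
  classical
  set S := (Finset.range J).filter fun j => i ∈ nearSet M B ψ j
  rcases S.eq_empty_or_nonempty with h | h
  · simp [h]
  · have hm : i ∈ nearSet M B ψ (S.min' h) := (Finset.mem_filter.1 (S.min'_mem h)).2
    have hl := near_low_ten hM hB ψ hm
    refine (Finset.card_le_card (t := Finset.Ico (S.min' h) (S.min' h + 10)) fun j hj => ?_).trans
      (by simp)
    refine Finset.mem_Ico.2 ⟨S.min'_le j hj, lt_of_not_ge fun hle => ?_⟩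
    have := low_mono hM hB ψ hle hl
    have h2 := (Finset.mem_filter.1 hj).2
    simp only [nearSet, Finset.mem_filter] at h2
    exact h2.2.2 this

lemma nearSet_card (j : ℕ) : (nearSet M B ψ j).card ≤ gap M B ψ j := by
  have hg := le_gap (B := B) hM ψ j
  have h1 := cnt_gap (B := B) hM ψ j (2 * gap M B ψ j)
  have h2 : (nearSet M B ψ j).card ≤ cnt ψ (lvl M B ψ j) (2 * gap M B ψ j) := by
    refine Finset.card_le_card fun i hi => ?_
    simp only [nearSet, Finset.mem_filter, Finset.mem_univ, true_and] at hi ⊢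
    simp only [High, Low] at hi
    omega
  set g := gap M B ψ j
  set n := cnt ψ (lvl M B ψ j) (2 * g)
  have : 4 * M * n ≤ 4 * M * g := by
    calc 4 * M * n ≤ M * (g + 1) + 2 * g := h1
      _ ≤ M * (g + 1) + M * g := Nat.add_le_add_left (Nat.mul_le_mul_right g (by omega)) _
      _ ≤ 4 * M * g := by
        rw [← Nat.mul_add, mul_comm 4 M, mul_assoc]
        exact Nat.mul_le_mul_left M (by omega)
  exact h2.trans (Nat.le_of_mul_le_mul_left this (by omega))

omit hB in
lemma bad_card (T : Finset ℤ) (hT : ∀ t ∈ T, B * M < crowd M B ψ t) :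
    T.card ≤ 24 * M * d := by
  classical
  have key : ∀ T : Finset ℤ, ∀ σ : ℤ → ℕ, (∀ t ∈ T, σ t + B * M < 4 * M * cnt ψ t (σ t)) →
      T.card ≤ 24 * M * (Finset.univ.filter fun i => ∃ t ∈ T, (ψ i - t).natAbs ≤ σ t).card := by
    intro T
    induction T using Finset.strongInduction with
    | _ T ih =>
      intro σ hσ
      rcases T.eq_empty_or_nonempty with rfl | hne
      · simp
      obtain ⟨t0, ht0, hmax⟩ := T.exists_max_image σ hne
      set T' := T.filter fun t => 2 * σ t0 < (t - t0).natAbs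
      have hss : T' ⊂ T := Finset.filter_ssubset.2 ⟨t0, ht0, by simp⟩
      have h1 := ih T' hss σ fun t ht => hσ t (Finset.mem_filter.1 ht).1
      set U := Finset.univ.filter fun i => ∃ t ∈ T', (ψ i - t).natAbs ≤ σ t
      set V := Finset.univ.filter fun i => (ψ i - t0).natAbs ≤ σ t0
      have hd : Disjoint U V := by
        refine Finset.disjoint_left.2 fun i hi hi' => ?_
        simp only [U, V, Finset.mem_filter, Finset.mem_univ, true_and] at hi hi'
        obtain ⟨t, ht, hti⟩ := hi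
        have h2 := (Finset.mem_filter.1 ht).2
        have h3 := hmax t (Finset.mem_filter.1 ht).1
        omega
      have hsub : U ∪ V ⊆ Finset.univ.filter fun i => ∃ t ∈ T, (ψ i - t).natAbs ≤ σ t := by
        intro i hi
        simp only [U, V, Finset.mem_union, Finset.mem_filter, Finset.mem_univ, true_and] at hi ⊢
        rcases hi with ⟨t, ht, h⟩ | h
        · exact ⟨t, (Finset.mem_filter.1 ht).1, h⟩
        · exact ⟨t0, ht0, h⟩
      have h4 : T.card ≤ T'.card + (4 * σ t0 + 1) := by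
        have : T ⊆ T' ∪ Finset.Icc (t0 - (2 * σ t0 : ℕ)) (t0 + (2 * σ t0 : ℕ)) := by
          intro t ht
          simp only [T', Finset.mem_union, Finset.mem_filter, Finset.mem_Icc, ht, true_and]
          omega
        refine (Finset.card_le_card this).trans ((Finset.card_union_le _ _).trans ?_)
        simp only [Int.card_Icc]
        omega
      have h5 := hσ t0 ht0
      have h7 : 4 * M * cnt ψ t0 (σ t0) * 6 = 24 * M * V.card := by
        simp only [cnt, V]; ring
      have h8 := Nat.mul_le_mul_left (24 * M) (Finset.card_le_card hsub)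
      rw [Finset.card_union_of_disjoint hd, Nat.mul_add] at h8
      omega
  have hex : ∀ t : ℤ, ∃ σ : ℕ, t ∈ T → σ + B * M < 4 * M * cnt ψ t σ := by
    intro t
    by_cases ht : t ∈ T
    · have h := hT t ht
      simp only [crowd, lt_max_iff, lt_irrefl, false_or, Finset.lt_sup_iff] at h
      obtain ⟨σ, -, hs⟩ := h
      exact ⟨σ, fun _ => by omega⟩
    · exact ⟨0, fun h => absurd h ht⟩
  choose σ hσ using hex
  exact (key T σ fun t ht => hσ t ht).trans
    (Nat.mul_le_mul_left _ ((Finset.card_le_univ _).trans (by simp)))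

lemma charge (J : ℕ) :
    ∑ j ∈ (Finset.range J).filter (fun j => (nearSet M B ψ j).Nonempty), gap M B ψ j
      ≤ (20 * B + 24 * M) * d := by
  classical
  set A := (Finset.range J).filter (fun j => (nearSet M B ψ j).Nonempty)
  rw [← Finset.sum_filter_add_sum_filter_not A (fun j => gap M B ψ j < 2 * B)]
  have h1 : ∑ j ∈ A.filter (fun j => gap M B ψ j < 2 * B), gap M B ψ j ≤ 20 * B * d := by
    calc ∑ j ∈ A.filter (fun j => gap M B ψ j < 2 * B), gap M B ψ j
        ≤ ∑ j ∈ A, 2 * B * (nearSet M B ψ j).card := by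
          refine le_trans (Finset.sum_le_sum fun j hj => ?_)
            (Finset.sum_le_sum_of_subset (Finset.filter_subset _ _))
          have h := Finset.mem_filter.1 hj
          have := (Finset.mem_filter.1 h.1).2.card_pos
          calc gap M B ψ j ≤ 2 * B * 1 := by omega
            _ ≤ _ := Nat.mul_le_mul_left _ this
      _ ≤ ∑ j ∈ Finset.range J, 2 * B * (nearSet M B ψ j).card :=
          Finset.sum_le_sum_of_subset (Finset.filter_subset _ _)
      _ = 2 * B * ∑ i : Fin d, ((Finset.range J).filter fun j => i ∈ nearSet M B ψ j).card := by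
          rw [← Finset.mul_sum]
          congr 1
          simp only [Finset.card_filter]
          rw [Finset.sum_comm]
          refine Finset.sum_congr rfl fun j _ => ?_
          rw [← Finset.card_filter]
          congr 1
          ext i; simp
      _ ≤ 2 * B * ∑ _i : Fin d, 10 :=
          Nat.mul_le_mul_left _ (Finset.sum_le_sum fun i _ => near_stages hM hB ψ J i)
      _ = 20 * B * d := by simp; ring
  have h2 : ∑ j ∈ A.filter (fun j => ¬ gap M B ψ j < 2 * B), gap M B ψ j ≤ 24 * M * d := by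
    set A' := A.filter (fun j => ¬ gap M B ψ j < 2 * B)
    have hdis : (↑A' : Set ℕ).PairwiseDisjoint
        fun j => Finset.Ico (lvl M B ψ j) (lvl M B ψ (j + 1)) := by
      intro a _ b _ hab
      refine Finset.disjoint_left.2 fun t hta htb => ?_
      simp only [Finset.mem_Ico] at hta htb
      rcases Nat.lt_or_gt_of_ne hab with h | h
      · have := lvl_mono (B := B) hM ψ (show a + 1 ≤ b by omega); omega
      · have := lvl_mono (B := B) hM ψ (show b + 1 ≤ a by omega); omega
    have hsum : ∑ j ∈ A', gap M B ψ j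
        = (A'.biUnion fun j => Finset.Ico (lvl M B ψ j) (lvl M B ψ (j + 1))).card := by
      rw [Finset.card_biUnion hdis]
      refine Finset.sum_congr rfl fun j _ => ?_
      simp [lvl_succ hM]
    rw [hsum]
    refine bad_card (B := B) hM ψ _ fun t ht => ?_
    obtain ⟨j, hj, htj⟩ := Finset.mem_biUnion.1 ht
    simp only [Finset.mem_Ico, lvl_succ hM] at htj
    have hg := (Finset.mem_filter.1 hj).2
    have h3 := crowd_lip M B ψ t (lvl M B ψ j)
    have h4 : (M : ℕ) * gap M B ψ j ≤ crowd M B ψ (lvl M B ψ j) := Nat.mul_div_le _ _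
    have h5 : (lvl M B ψ j - t).natAbs < gap M B ψ j := by omega
    obtain ⟨g', hg'⟩ : ∃ g', gap M B ψ j = 2 * B + g' := ⟨_, (Nat.add_sub_cancel' (by omega)).symm⟩
    rw [hg'] at h4 h5
    have h6 : 2 * B + g' + B * M ≤ M * (2 * B + g') := by
      rw [Nat.mul_add]
      have : g' ≤ M * g' := Nat.le_mul_of_pos_left _ (by omega)
      have : 2 * B + B * M ≤ M * (2 * B) := by
        calc 2 * B + B * M ≤ M * B + B * M := Nat.add_le_add_right (Nat.mul_le_mul_right B (by omega)) _
          _ = M * (2 * B) := by ring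
      omega
    omega
  calc _ ≤ 20 * B * d + 24 * M * d := Nat.add_le_add h1 h2
    _ = _ := by ring

omit hB in
/-- Sums of decreasing functions of the distance to a level. -/
lemma sum_dist_le (j : ℕ) (f : ℕ → ℝ) (hf : Antitone f) (hf0 : ∀ σ, 0 ≤ f σ) (P : Finset (Fin d))
    (S : ℕ) (hS : ∀ i ∈ P, (ψ i - lvl M B ψ j).natAbs ≤ S) :
    4 * (M : ℝ) * ∑ i ∈ P, f (ψ i - lvl M B ψ j).natAbs
      ≤ (M : ℝ) * ((gap M B ψ j : ℝ) + 1) * f 0 + ∑ σ ∈ Finset.range S, f (σ + 1) := by
  classical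
  set s : Fin d → ℕ := fun i => (ψ i - lvl M B ψ j).natAbs
  set n : ℕ → ℝ := fun σ => ((P.filter fun i => s i ≤ σ).card : ℝ)
  set A : ℝ := (M : ℝ) * ((gap M B ψ j : ℝ) + 1)
  have hn : ∀ σ, 4 * (M : ℝ) * n σ ≤ A + σ := by
    intro σ
    have h1 := cnt_gap (B := B) hM ψ j σ
    have h2 : (P.filter fun i => s i ≤ σ).card ≤ cnt ψ (lvl M B ψ j) σ :=
      Finset.card_le_card fun i hi => by simp [s] at hi ⊢; exact hi.2
    have h3 : ((4 * M * (P.filter fun i => s i ≤ σ).card : ℕ) : ℝ)
        ≤ ((M * (gap M B ψ j + 1) + σ : ℕ) : ℝ) :=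
      Nat.cast_le.2 (le_trans (Nat.mul_le_mul_left _ h2) h1)
    push_cast at h3
    simpa [n, A] using h3
  have e : ∀ K, ∀ k ≤ K, f k = f K + ∑ σ ∈ Finset.Ico k K, (f σ - f (σ + 1)) := by
    intro K k hk
    induction K, hk using Nat.le_induction with
    | base => simp
    | succ K hk ih => rw [Finset.sum_Ico_succ_top hk, ih]; ring
  have e2 : ∑ i ∈ P, f (s i) = n S * f S + ∑ σ ∈ Finset.range S, (f σ - f (σ + 1)) * n σ := by
    rw [Finset.sum_congr rfl fun i hi => e S (s i) (hS i hi), Finset.sum_add_distrib]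
    congr 1
    · simp only [Finset.sum_const, nsmul_eq_mul, n]
      rw [Finset.filter_true_of_mem fun i hi => hS i hi]
    · have : ∀ i ∈ P, ∑ σ ∈ Finset.Ico (s i) S, (f σ - f (σ + 1))
          = ∑ σ ∈ Finset.range S, if s i ≤ σ then f σ - f (σ + 1) else 0 := by
        intro i _
        rw [← Finset.sum_filter]
        refine Finset.sum_congr ?_ fun _ _ => rfl
        ext σ; simp; omega
      rw [Finset.sum_congr rfl this, Finset.sum_comm]
      refine Finset.sum_congr rfl fun σ _ => ?_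
      rw [← Finset.sum_filter]
      simp [n, mul_comm, mul_sub, sub_mul]
  have tel : ∀ K : ℕ, (A + K) * f K + ∑ σ ∈ Finset.range K, (f σ - f (σ + 1)) * (A + σ)
      = A * f 0 + ∑ σ ∈ Finset.range K, f (σ + 1) := by
    intro K
    induction K with
    | zero => simp
    | succ K ih => rw [Finset.sum_range_succ, Finset.sum_range_succ]; push_cast; linarith
  rw [← tel S, e2, mul_add, Finset.mul_sum]
  refine add_le_add ?_ (Finset.sum_le_sum fun σ _ => ?_)
  · rw [← mul_assoc]; exact mul_le_mul_of_nonneg_right (hn S) (hf0 S)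
  · calc 4 * (M : ℝ) * ((f σ - f (σ + 1)) * n σ) = (f σ - f (σ + 1)) * (4 * (M : ℝ) * n σ) := by ring
      _ ≤ _ := mul_le_mul_of_nonneg_left (hn σ) (sub_nonneg.2 (hf (Nat.le_succ σ)))

end

end Vale.Agent.P262
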