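import Mathlib
import Vale.Agent.P262.Fold
import Vale.Agent.P262.Schedule

/-!
The setting of the Euclidean Steinitz bound: a family of vectors in an orthogonal frame of its
second moment, the scales attached to it, the lifted vectors and the families of tests.
-/

namespace Vale.Agent.P262

/-! ### Powers of two -/

/-- The function `2 ^ x`. -/
noncomputable def tp (x : ℝ) : ℝ := (2 : ℝ) ^ x

lemma tp_pos (x : ℝ) : 0 < tp x := Real.rpow_pos_of_pos (by norm_num) x

lemma tp_nonneg (x : ℝ) : 0 ≤ tp x := (tp_pos x).le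

lemma tp_zero : tp 0 = 1 := Real.rpow_zero 2

lemma tp_one : tp 1 = 2 := Real.rpow_one 2

lemma tp_add (x y : ℝ) : tp (x + y) = tp x * tp y := Real.rpow_add (by norm_num) x y

lemma tp_sub (x y : ℝ) : tp (x - y) = tp x / tp y := Real.rpow_sub (by norm_num) x y

lemma tp_le {x y : ℝ} (h : x ≤ y) : tp x ≤ tp y := Real.rpow_le_rpow_of_exponent_le (by norm_num) h

lemma one_le_tp {x : ℝ} (h : 0 ≤ x) : 1 ≤ tp x := tp_zero ▸ tp_le h

lemma tp_le_one {x : ℝ} (h : x ≤ 0) : tp x ≤ 1 := tp_zero ▸ tp_le h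

lemma tp_sq (x : ℝ) : tp x ^ 2 = tp (2 * x) := by rw [two_mul, tp_add, pow_two]

lemma sqrt_tp (x : ℝ) : Real.sqrt (tp x) = tp (x / 2) := by
  rw [show tp x = tp (x / 2) ^ 2 by rw [tp_sq]; ring_nf, Real.sqrt_sq (tp_nonneg _)]

lemma tp_neg (x : ℝ) : tp (-x) = (tp x)⁻¹ := Real.rpow_neg (by norm_num) x

lemma tp_natCast (n : ℕ) : tp n = 2 ^ n := Real.rpow_natCast 2 n

lemma tp_intCast (n : ℤ) : tp n = (2 : ℝ) ^ n := Real.rpow_intCast 2 n

/-- The largeness assumed of the base gap. -/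
def Big (B : ℕ) : Prop :=
  1000000 ≤ B ∧ ∀ x : ℝ, (B : ℝ) ≤ x → 10 ^ 30 * x ^ 20 ≤ tp (x / 1000)

lemma poly_le {B : ℕ} (hB : Big B) {x y c : ℝ} (n : ℕ) (hx : (B : ℝ) ≤ x) (hc : c ≤ 10 ^ 30)
    (hn : n ≤ 20) (hy : x / 1000 ≤ y) : c * x ^ n ≤ tp y := by
  have h1 : (1 : ℝ) ≤ x := le_trans (by exact_mod_cast le_trans (by norm_num) hB.1) hx
  refine le_trans ?_ ((hB.2 x hx).trans (tp_le hy))
  exact mul_le_mul hc (pow_le_pow_right₀ h1 hn) (by positivity) (by positivity)

/-! ### The setting -/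

/-- A family of vectors, written in an orthogonal frame of its second moment. -/
structure Sys (d N : ℕ) where
  /-- the vectors -/
  v : Fin N → Fin d → ℝ
  /-- the eigenvalues -/
  lam : Fin d → ℝ
  /-- the base gap -/
  B : ℕ
  hB : Big B
  hlam : ∀ i, 0 < lam i
  hnorm : ∀ k, ∑ i, v k i ^ 2 ≤ 1
  horth : ∀ i l, ∑ k, v k i * v k l = if i = l then lam i else 0
  hsum : ∀ i, ∑ k, v k i = 0

namespace Sys

variable {d N : ℕ} (D : Sys d N)

/-- Integer logarithms of the eigenvalues. -/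
noncomputable def psi (i : Fin d) : ℤ := Int.log 2 (D.lam i)

/-- The levels. -/
noncomputable def t (j : ℕ) : ℤ := lvl 1000 D.B D.psi j

/-- The gaps, as reals. -/
noncomputable def g (j : ℕ) : ℕ := gap 1000 D.B D.psi j

/-- Signed distance of a coordinate to a level. -/
noncomputable def s (j : ℕ) (i : Fin d) : ℝ := ((D.psi i - D.t j : ℤ) : ℝ)

/-- The weight of a coordinate at a level. -/
noncomputable def w (j : ℕ) (i : Fin d) : ℝ := (D.g j : ℝ) + |D.s j i|

/-- High coordinates. -/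
def Hi (j : ℕ) (i : Fin d) : Prop := 2 * (D.g j : ℝ) ≤ D.s j i

/-- Low coordinates. -/
def Lo (j : ℕ) (i : Fin d) : Prop := D.s j i ≤ -(2 * (D.g j : ℝ))

open Classical in
/-- The set of high coordinates. -/
noncomputable def hiSet (j : ℕ) : Finset (Fin d) := Finset.univ.filter (D.Hi j)

open Classical in
/-- The set of coordinates which are neither high nor low. -/
noncomputable def midSet (j : ℕ) : Finset (Fin d) :=
  Finset.univ.filter fun i => ¬ D.Hi j i ∧ ¬ D.Lo j i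

open Classical in
/-- The coordinates that become low after level `j`. -/
noncomputable def newSet (j : ℕ) : Finset (Fin d) :=
  Finset.univ.filter fun i => D.Lo (j + 1) i ∧ ¬ D.Lo j i

/-- The size below which a squared entry is dust. -/
noncomputable def eps (j : ℕ) (i : Fin d) : ℝ := tp (D.s j i / 16)

lemma g_ge (j : ℕ) : (D.B : ℝ) ≤ D.g j := by
  exact_mod_cast le_gap (B := D.B) (by norm_num) D.psi j

lemma g_big (j : ℕ) : (1000000 : ℝ) ≤ D.g j :=
  le_trans (by exact_mod_cast D.hB.1) (D.g_ge j)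

lemma g_step (j : ℕ) :
    100 * (D.g (j + 1) : ℝ) ≤ 103 * D.g j ∧ 100 * (D.g j : ℝ) ≤ 103 * D.g (j + 1) := by
  have h := gap_step (M := 1000) (B := D.B) (by norm_num) (le_trans (by norm_num) D.hB.1) D.psi j
  exact ⟨by exact_mod_cast h.1, by exact_mod_cast h.2⟩

lemma s_succ (j : ℕ) (i : Fin d) : D.s (j + 1) i = D.s j i - D.g j := by
  simp only [s, t, g, lvl_succ (B := D.B) (show 100 ≤ 1000 by norm_num) D.psi j]
  push_cast; ring

lemma hi_iff (j : ℕ) (i : Fin d) : D.Hi j i ↔ High 1000 D.B D.psi j i := by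
  simp only [Hi, High, s, g, t]
  constructor <;> intro h
  · exact_mod_cast h
  · exact_mod_cast h

lemma lo_iff (j : ℕ) (i : Fin d) : D.Lo j i ↔ Low 1000 D.B D.psi j i := by
  simp only [Lo, Low, s, g, t]
  rw [le_neg, ← Int.cast_neg, neg_sub]
  constructor <;> intro h
  · exact_mod_cast h
  · exact_mod_cast h

lemma hi_anti {j k : ℕ} (hjk : j ≤ k) {i : Fin d} (h : D.Hi k i) : D.Hi j i := by
  rw [hi_iff] at h ⊢
  exact high_anti (by norm_num) (le_trans (by norm_num) D.hB.1) D.psi hjk h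

lemma lo_succ {j : ℕ} {i : Fin d} (h : D.Lo j i) : D.Lo (j + 1) i := by
  rw [lo_iff] at h ⊢
  exact low_succ (by norm_num) (le_trans (by norm_num) D.hB.1) D.psi h

lemma lo_mono {j k : ℕ} (hjk : j ≤ k) {i : Fin d} (h : D.Lo j i) : D.Lo k i := by
  rw [lo_iff] at h ⊢
  exact low_mono (by norm_num) (le_trans (by norm_num) D.hB.1) D.psi hjk h

lemma hi_not_lo_succ {j : ℕ} {i : Fin d} (h : D.Hi j i) : ¬ D.Lo (j + 1) i := by
  rw [hi_iff] at h
  rw [lo_iff]
  exact high_not_low_succ (by norm_num) (le_trans (by norm_num) D.hB.1) D.psi h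

lemma hi_not_lo {j : ℕ} {i : Fin d} (h : D.Hi j i) : ¬ D.Lo j i :=
  fun h' => D.hi_not_lo_succ h (D.lo_succ h')

lemma midSet_eq (j : ℕ) : D.midSet j = nearSet 1000 D.B D.psi j := by
  ext i; simp [midSet, nearSet, hi_iff, lo_iff]

lemma newSet_sub (j : ℕ) : D.newSet j ⊆ D.midSet j := by
  intro i hi
  simp only [newSet, midSet, Finset.mem_filter, Finset.mem_univ, true_and] at hi ⊢
  exact ⟨fun h => D.hi_not_lo_succ h hi.1, hi.2⟩

lemma midSet_card (j : ℕ) : ((D.midSet j).card : ℝ) ≤ D.g j := by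
  rw [midSet_eq]
  exact_mod_cast nearSet_card (by norm_num) (le_trans (by norm_num) D.hB.1) D.psi j

lemma w_pos (j : ℕ) (i : Fin d) : 0 < D.w j i := by
  have := D.g_big j; have := abs_nonneg (D.s j i); simp only [w]; linarith

lemma g_le_w (j : ℕ) (i : Fin d) : (D.g j : ℝ) ≤ D.w j i := le_add_of_nonneg_right (abs_nonneg _)

lemma eps_pos (j : ℕ) (i : Fin d) : 0 < D.eps j i := tp_pos _

lemma eps_succ (j : ℕ) (i : Fin d) : D.eps (j + 1) i = D.eps j i * tp (-(D.g j : ℝ) / 16) := by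
  simp only [eps, ← tp_add, s_succ]; ring_nf

lemma eps_succ_le (j : ℕ) (i : Fin d) : D.eps (j + 1) i ≤ D.eps j i := by
  refine tp_le ?_
  have := D.g_big j
  rw [s_succ]; linarith

/-- The expected second moment of a block at level `j`. -/
noncomputable def mean (j : ℕ) (i : Fin d) : ℝ := D.lam i * tp (-(D.t j : ℝ))

lemma mean_bounds (j : ℕ) (i : Fin d) :
    tp (D.s j i) ≤ D.mean j i ∧ D.mean j i ≤ 2 * tp (D.s j i) := by
  have h1 := Int.zpow_log_le_self (b := 2) (by norm_num) (D.hlam i)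
  have h2 := (Int.lt_zpow_succ_log_self (b := 2) (by norm_num) (D.lam i)).le
  have e : tp (D.s j i) = tp (D.psi i : ℝ) * tp (-(D.t j : ℝ)) := by
    rw [← tp_add]; simp only [s]; push_cast; ring_nf
  have e2 : tp ((D.psi i : ℝ) + 1) = 2 * tp (D.psi i : ℝ) := by rw [tp_add, tp_one]; ring
  push_cast at h1 h2
  rw [← tp_intCast] at h1 h2
  push_cast at h2
  refine ⟨?_, ?_⟩
  · rw [e]; exact mul_le_mul_of_nonneg_right h1 (tp_nonneg _)
  · rw [e, ← mul_assoc]; exact mul_le_mul_of_nonneg_right (e2 ▸ h2) (tp_nonneg _)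

lemma mean_succ (j : ℕ) (i : Fin d) : D.mean (j + 1) i = D.mean j i / 2 ^ D.g j := by
  have h : (D.t (j + 1) : ℝ) = D.t j + D.g j := by
    simp only [t, g, lvl_succ (B := D.B) (show 100 ≤ 1000 by norm_num) D.psi j]; push_cast; rfl
  rw [mean, mean, h, show -((D.t j : ℝ) + D.g j) = -(D.t j : ℝ) - D.g j by ring, tp_sub, tp_natCast,
    mul_div_assoc]

/-! ### Decaying sums over coordinates -/

lemma sum_decay (j : ℕ) : ∑ i, tp (-|D.s j i| / 24) ≤ D.g j := by
  classical
  set f : ℕ → ℝ := fun σ => tp (-(σ : ℝ) / 24)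
  have hf : Antitone f := fun a b hab => tp_le (by
    have : (a : ℝ) ≤ b := by exact_mod_cast hab
    linarith)
  set S := Finset.univ.sup fun i => (D.psi i - D.t j).natAbs
  have h := sum_dist_le (M := 1000) (B := D.B) (by norm_num) D.psi j f hf
    (fun _ => tp_nonneg _) Finset.univ S (fun i hi => Finset.le_sup (f := fun i => (D.psi i - D.t j).natAbs) hi)
  have e : ∀ i, f (D.psi i - D.t j).natAbs = tp (-|D.s j i| / 24) := by
    intro i; simp only [f, s, Nat.cast_natAbs, Int.cast_abs]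
  have hr : tp (-1 / 24) ≤ 99 / 100 := by
    refine le_of_pow_le_pow_left₀ (n := 24) (by norm_num) (by norm_num) ?_
    rw [← Real.rpow_natCast (tp _), tp, ← Real.rpow_mul (by norm_num)]
    norm_num [Real.rpow_neg]
  have hgeo : ∑ σ ∈ Finset.range S, f (σ + 1) ≤ 100 := by
    calc ∑ σ ∈ Finset.range S, f (σ + 1) ≤ ∑ σ ∈ Finset.range S, (99 / 100 : ℝ) ^ σ := by
          refine Finset.sum_le_sum fun σ _ => ?_
          refine le_trans (hf (Nat.le_succ σ)) ?_
          simp only [f]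
          rw [show -(σ : ℝ) / 24 = (-1 / 24) * σ by ring, tp, Real.rpow_mul (by norm_num),
            Real.rpow_natCast]
          exact pow_le_pow_left₀ (tp_nonneg _) hr σ
      _ ≤ 100 := by
          have := geom_sum_eq (x := (99 / 100 : ℝ)) (by norm_num) S
          rw [this]
          have : (0 : ℝ) ≤ (99 / 100 : ℝ) ^ S := by positivity
          norm_num
          linarith
  have h' : 4 * (1000 : ℝ) * ∑ i, f (D.psi i - D.t j).natAbs
      ≤ 1000 * ((D.g j : ℝ) + 1) * f 0 + 100 := by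
    refine le_trans ?_ (add_le_add le_rfl hgeo)
    exact_mod_cast h
  simp only [e] at h'
  have f0 : f 0 = 1 := by simp [f, tp_zero]
  rw [f0] at h'
  have := D.g_big j
  linarith

lemma sum_decay_hi (j : ℕ) :
    ∑ l ∈ D.hiSet j, tp (-(D.s j l - D.g j) / 4) ≤ tp (-(D.g j : ℝ) / 8) := by
  have h : ∀ l ∈ D.hiSet j, tp (-(D.s j l - D.g j) / 4)
      ≤ tp (-(D.g j : ℝ) / 6) * tp (-|D.s j l| / 24) := by
    intro l hl
    simp only [hiSet, Finset.mem_filter, Hi] at hl
    have := D.g_big j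
    rw [← tp_add]
    refine tp_le ?_
    rw [abs_of_nonneg (by linarith [hl.2])]
    linarith [hl.2]
  refine (Finset.sum_le_sum h).trans ?_
  rw [← Finset.mul_sum]
  refine le_trans (mul_le_mul_of_nonneg_left
    (le_trans (Finset.sum_le_sum_of_subset_of_nonneg (Finset.subset_univ _)
      fun _ _ _ => tp_nonneg _) (D.sum_decay j)) (tp_nonneg _)) ?_
  have := poly_le D.hB (x := (D.g j : ℝ)) (y := (D.g j : ℝ) / 24) (c := 1) 1 (D.g_ge j) (by norm_num)
    (by norm_num) (by have := D.g_big j; linarith)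
  rw [one_mul, pow_one] at this
  refine le_trans (mul_le_mul_of_nonneg_left this (tp_nonneg _)) (le_of_eq ?_)
  rw [← tp_add]; ring_nf

lemma sum_beta (j : ℕ) : ∑ i, (D.w j i)⁻¹ ^ 2 ≤ 1 := by
  classical
  set gg : ℝ := (D.g j : ℝ)
  have hg := D.g_big j
  set f : ℕ → ℝ := fun σ => (gg + σ)⁻¹ ^ 2
  have hf : Antitone f := fun a b hab => by
    have : (a : ℝ) ≤ b := by exact_mod_cast hab
    have : (0:ℝ) ≤ a := Nat.cast_nonneg a
    exact pow_le_pow_left₀ (inv_nonneg.2 (by linarith)) (inv_anti₀ (by linarith) (by linarith)) 2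
  set S := Finset.univ.sup fun i => (D.psi i - D.t j).natAbs
  have h := sum_dist_le (M := 1000) (B := D.B) (by norm_num) D.psi j f hf
    (fun σ => sq_nonneg _) Finset.univ S (fun i hi => Finset.le_sup (f := fun i => (D.psi i - D.t j).natAbs) hi)
  have e : ∀ i, f (D.psi i - D.t j).natAbs = (D.w j i)⁻¹ ^ 2 := by
    intro i; simp only [f, gg, w, s, Nat.cast_natAbs, Int.cast_abs]
  have htel : ∀ S : ℕ, ∑ σ ∈ Finset.range S, f (σ + 1) ≤ gg⁻¹ - (gg + S)⁻¹ := by
    intro S
    induction S with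
    | zero => simp
    | succ S ih =>
      rw [Finset.sum_range_succ]
      have h1 : f (S + 1) ≤ (gg + S)⁻¹ - (gg + (S + 1 : ℕ))⁻¹ := by
        simp only [f]
        push_cast
        have : (0:ℝ) ≤ S := Nat.cast_nonneg S
        rw [inv_sub_inv (by linarith) (by linarith), inv_pow,
          show gg + ((S:ℝ) + 1) - (gg + S) = 1 by ring, one_div, pow_two]
        exact inv_anti₀ (mul_pos (by linarith) (by linarith)) (mul_le_mul_of_nonneg_right (by linarith) (by linarith))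
      linarith
  have h' : 4 * (1000 : ℝ) * ∑ i, f (D.psi i - D.t j).natAbs
      ≤ 1000 * (gg + 1) * f 0 + gg⁻¹ := by
    refine le_trans ?_ (add_le_add le_rfl (le_trans (htel S) (sub_le_self _ (inv_nonneg.2 ?_))))
    · simp only [gg, Sys.g, Sys.t]; exact_mod_cast h
    · have : (0:ℝ) ≤ S := Nat.cast_nonneg S; linarith
  simp only [e] at h'
  have f0 : 1000 * (gg + 1) * f 0 ≤ 1 := by
    simp only [f, Nat.cast_zero, add_zero, inv_pow]
    rw [mul_inv_le_iff₀ (by positivity)]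
    nlinarith
  have : gg⁻¹ ≤ 1 := inv_le_one_of_one_le₀ (by linarith)
  linarith

/-! ### Blocks -/

/-- Second moments of a block. -/
def gram (b : Finset (Fin N)) (i l : Fin d) : ℝ := ∑ k ∈ b, D.v k i * D.v k l

/-- Allowed deviation of second moments. -/
noncomputable def dev (j : ℕ) (i l : Fin d) : ℝ :=
  10 ^ 6 * (D.w j i + D.w j l) + 10 * tp (max (min (D.s j i) (D.s j l)) 0 / 2)

/-- Mass of the dust of a block in one coordinate. -/
noncomputable def dust (j : ℕ) (b : Finset (Fin N)) (i : Fin d) : ℝ :=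
  ∑ k ∈ b, if D.v k i ^ 2 ≤ D.eps j i then D.v k i ^ 2 else 0

/-- The hypothesis carried by a block at level `j`. -/
structure Block (j : ℕ) (b : Finset (Fin N)) : Prop where
  moment : ∀ i l, |D.gram b i l - if i = l then D.mean j i else 0| ≤ D.dev j i l
  dusty : ∀ i, D.Lo j i → D.dust j b i ≤ 10 ^ 7 * D.w j i ^ 2 * D.eps j i

/-! ### Lifted vectors -/

/-- Indices of the lifted vectors: entries, products, dust entries, dust squares, counting. -/
abbrev Idx (d : ℕ) := (Fin d ⊕ Fin d × Fin d) ⊕ (Fin d ⊕ Fin d) ⊕ Unit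

/-- The index of an entry. -/
abbrev cLin (i : Fin d) : Idx d := Sum.inl (Sum.inl i)

/-- The index of a product. -/
abbrev cQuad (p : Fin d × Fin d) : Idx d := Sum.inl (Sum.inr p)

/-- The index of a dust entry. -/
abbrev cDl (i : Fin d) : Idx d := Sum.inr (Sum.inl (Sum.inl i))

/-- The index of a dust square. -/
abbrev cDs (i : Fin d) : Idx d := Sum.inr (Sum.inl (Sum.inr i))

/-- The counting index. -/
abbrev cOne : Idx d := Sum.inr (Sum.inr ())

/-- The entry if it is dust at level `j`. -/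
noncomputable def dv (j : ℕ) (k : Fin N) (i : Fin d) : ℝ :=
  if D.v k i ^ 2 ≤ D.eps j i then D.v k i else 0

lemma dv_sq (j : ℕ) (k : Fin N) (i : Fin d) : D.dv j k i ^ 2 ≤ D.eps j i := by
  unfold dv; split_ifs with h
  · exact h
  · simpa using (D.eps_pos j i).le

/-- The lifted vector. -/
noncomputable def lift (j : ℕ) (k : Fin N) : EuclideanSpace ℝ (Idx d) :=
  WithLp.toLp 2 fun c => (1 / 4 : ℝ) * match c with
    | Sum.inl (Sum.inl i) => D.v k i
    | Sum.inl (Sum.inr p) => D.v k p.1 * D.v k p.2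
    | Sum.inr (Sum.inl (Sum.inl i)) => (D.w j i)⁻¹ * D.dv (j + 1) k i / Real.sqrt (D.eps (j + 1) i)
    | Sum.inr (Sum.inl (Sum.inr i)) => (D.w j i)⁻¹ * D.dv (j + 1) k i ^ 2 / D.eps (j + 1) i
    | Sum.inr (Sum.inr _) => 1

lemma lift_lin (j : ℕ) (k : Fin N) (i : Fin d) : D.lift j k (cLin i) = 1 / 4 * D.v k i := rfl

lemma lift_quad (j : ℕ) (k : Fin N) (p : Fin d × Fin d) :
    D.lift j k (cQuad p) = 1 / 4 * (D.v k p.1 * D.v k p.2) := rfl

lemma lift_dl (j : ℕ) (k : Fin N) (i : Fin d) :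
    D.lift j k (cDl i)
      = 1 / 4 * ((D.w j i)⁻¹ * D.dv (j + 1) k i / Real.sqrt (D.eps (j + 1) i)) := rfl

lemma lift_ds (j : ℕ) (k : Fin N) (i : Fin d) :
    D.lift j k (cDs i) = 1 / 4 * ((D.w j i)⁻¹ * D.dv (j + 1) k i ^ 2 / D.eps (j + 1) i) := rfl

lemma lift_one (j : ℕ) (k : Fin N) : D.lift j k cOne = 1 / 4 := mul_one _

lemma norm_lift_le (j : ℕ) (k : Fin N) : ‖D.lift j k‖ ≤ 1 := by
  have hsq : ∑ i, ((D.w j i)⁻¹) ^ 2 ≤ 1 := D.sum_beta j
  have h0 : (∑ i, D.v k i ^ 2) ≤ 1 := D.hnorm k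
  have h0' : 0 ≤ ∑ i, D.v k i ^ 2 := Finset.sum_nonneg fun i _ => sq_nonneg _
  have h1 : ∑ p : Fin d × Fin d, (D.v k p.1 * D.v k p.2) ^ 2 ≤ 1 := by
    simp only [mul_pow]
    rw [Fintype.sum_prod_type]
    dsimp only
    rw [← Finset.sum_mul_sum]
    exact mul_le_one₀ h0 h0' h0
  have h2 : ∑ i, ((D.w j i)⁻¹ * D.dv (j + 1) k i / Real.sqrt (D.eps (j + 1) i)) ^ 2 ≤ 1 := by
    refine le_trans (Finset.sum_le_sum fun i _ => ?_) hsq
    rw [div_pow, mul_pow, Real.sq_sqrt (D.eps_pos _ i).le, div_le_iff₀ (D.eps_pos _ i)]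
    exact mul_le_mul_of_nonneg_left (D.dv_sq _ k i) (sq_nonneg _)
  have h3 : ∑ i, ((D.w j i)⁻¹ * D.dv (j + 1) k i ^ 2 / D.eps (j + 1) i) ^ 2 ≤ 1 := by
    refine le_trans (Finset.sum_le_sum fun i _ => ?_) hsq
    rw [div_pow, mul_pow, div_le_iff₀ (by have := D.eps_pos (j + 1) i; positivity)]
    exact mul_le_mul_of_nonneg_left (pow_le_pow_left₀ (sq_nonneg _) (D.dv_sq _ k i) 2) (sq_nonneg _)
  have e : ‖D.lift j k‖ ^ 2 = 1 / 16 * ((∑ i, D.v k i ^ 2
      + ∑ p : Fin d × Fin d, (D.v k p.1 * D.v k p.2) ^ 2)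
      + ((∑ i, ((D.w j i)⁻¹ * D.dv (j + 1) k i / Real.sqrt (D.eps (j + 1) i)) ^ 2
      + ∑ i, ((D.w j i)⁻¹ * D.dv (j + 1) k i ^ 2 / D.eps (j + 1) i) ^ 2) + 1)) := by
    rw [EuclideanSpace.real_norm_sq_eq]
    simp only [Fintype.sum_sum_type, lift, mul_pow, ← Finset.mul_sum, one_pow, Finset.univ_unique,
      Finset.sum_singleton]
    ring
  have : ‖D.lift j k‖ ^ 2 ≤ 1 := by rw [e]; linarith
  exact (sq_le_one_iff₀ (norm_nonneg _)).1 this

/-! ### Tests -/

/-- One test for each index of the lifted vectors and one for the middle coordinates. -/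
abbrev Tix (d : ℕ) := Idx d ⊕ Unit

/-- The coordinates read by a test. -/
noncomputable def tF (j : ℕ) : Tix d → Finset (Idx d)
  | Sum.inl c => {c}
  | Sum.inr _ => (D.midSet j).map ⟨cLin, fun a b h => by simpa using h⟩

/-- The thresholds of the tests. -/
noncomputable def tT (j : ℕ) : Tix d → ℝ
  | Sum.inl (Sum.inl (Sum.inl i)) => 100 * D.w j i
  | Sum.inl (Sum.inl (Sum.inr p)) => 100 * (D.w j p.1 + D.w j p.2)
  | Sum.inl (Sum.inr (Sum.inl (Sum.inl i))) => 100 * D.w j i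
  | Sum.inl (Sum.inr (Sum.inl (Sum.inr i))) => 100 * D.w j i
  | Sum.inl (Sum.inr (Sum.inr _)) => 100 * (D.g j : ℝ)
  | Sum.inr _ => 100 * (D.g j : ℝ)

lemma exp_le_tp {a b : ℝ} (ha : b ≤ a) (hb : 0 ≤ b) : Real.exp (-a) ≤ tp (-b) := by
  rw [tp, Real.rpow_def_of_pos (by norm_num)]
  refine Real.exp_le_exp.2 ?_
  have h1 : Real.log 2 < 1 := by linarith [Real.log_two_lt_d9]
  nlinarith

/-- The loss of the tests. -/
lemma tests_loss (j : ℕ) :
    ∑ c, Real.exp (-D.tT j c / 4) * Real.sqrt 2 ^ (D.tF j c).card ≤ tp (-(10 * (D.g j : ℝ))) := by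
  set gg : ℝ := (D.g j : ℝ) with hgg
  have hg := D.g_big j
  set u : Fin d → ℝ := fun i => tp (-|D.s j i| / 24)
  have hu0 : ∀ i, 0 ≤ u i := fun i => tp_nonneg _
  have hu : ∑ i, u i ≤ gg := D.sum_decay j
  have hs2 : Real.sqrt 2 ≤ 2 := Real.sqrt_le_iff.2 ⟨by norm_num, by norm_num⟩
  have hs0 : 0 ≤ Real.sqrt 2 := Real.sqrt_nonneg _
  set K : ℝ := 2 * tp (-(20 * gg))
  have one : ∀ i, Real.exp (-(100 * D.w j i) / 4) * Real.sqrt 2 ≤ K * u i := by
    intro i
    have h1 : Real.exp (-(100 * D.w j i) / 4) ≤ tp (-(20 * gg)) * u i := by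
      rw [show -(100 * D.w j i) / 4 = -(25 * D.w j i) by ring, ← tp_add,
        show -(20 * gg) + -|D.s j i| / 24 = -(20 * gg + |D.s j i| / 24) by ring]
      refine exp_le_tp ?_ ?_
      · simp only [w]; have := abs_nonneg (D.s j i); linarith
      · have := abs_nonneg (D.s j i); linarith
    calc _ ≤ tp (-(20 * gg)) * u i * 2 := mul_le_mul h1 hs2 hs0 (mul_nonneg (tp_nonneg _) (hu0 i))
      _ = K * u i := by simp only [K]; ring
  have two : ∀ p : Fin d × Fin d,
      Real.exp (-(100 * (D.w j p.1 + D.w j p.2)) / 4) * Real.sqrt 2 ≤ K * (u p.1 * u p.2) := by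
    intro p
    have h1 : Real.exp (-(100 * (D.w j p.1 + D.w j p.2)) / 4) ≤ tp (-(20 * gg)) * (u p.1 * u p.2) := by
      rw [show -(100 * (D.w j p.1 + D.w j p.2)) / 4 = -(25 * (D.w j p.1 + D.w j p.2)) by ring,
        ← tp_add, ← tp_add, show -(20 * gg) + (-|D.s j p.1| / 24 + -|D.s j p.2| / 24)
          = -(20 * gg + (|D.s j p.1| + |D.s j p.2|) / 24) by ring]
      refine exp_le_tp ?_ ?_
      · simp only [w]; have := abs_nonneg (D.s j p.1); have := abs_nonneg (D.s j p.2); linarith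
      · have := abs_nonneg (D.s j p.1); have := abs_nonneg (D.s j p.2); linarith
    calc _ ≤ tp (-(20 * gg)) * (u p.1 * u p.2) * 2 :=
          mul_le_mul h1 hs2 hs0 (mul_nonneg (tp_nonneg _) (mul_nonneg (hu0 _) (hu0 _)))
      _ = K * (u p.1 * u p.2) := by simp only [K]; ring
  have unit : Real.exp (-(100 * gg) / 4) * Real.sqrt 2 ≤ K := by
    rw [show -(100 * gg) / 4 = -(25 * gg) by ring]
    calc _ ≤ tp (-(20 * gg)) * 2 := mul_le_mul (exp_le_tp (by linarith) (by linarith)) hs2 hs0 (tp_nonneg _)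
      _ = K := by simp only [K]; ring
  have mid : Real.exp (-(100 * gg) / 4) * Real.sqrt 2 ^ (D.midSet j).card ≤ K := by
    rw [show -(100 * gg) / 4 = -(25 * gg) by ring]
    have h1 : Real.sqrt 2 ^ (D.midSet j).card ≤ tp gg := by
      refine (pow_le_pow_left₀ hs0 hs2 _).trans ?_
      rw [← tp_natCast]; exact tp_le (D.midSet_card j)
    calc _ ≤ tp (-(25 * gg)) * tp gg := mul_le_mul (exp_le_tp le_rfl (by linarith)) h1 (by positivity) (tp_nonneg _)
      _ ≤ 1 * tp (-(20 * gg)) := by rw [← tp_add, one_mul]; exact tp_le (by linarith)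
      _ ≤ K := mul_le_mul_of_nonneg_right (by norm_num) (tp_nonneg _)
  have hK : 0 ≤ K := mul_nonneg (by norm_num) (tp_nonneg _)
  simp only [Fintype.sum_sum_type, tF, tT, Finset.card_singleton, Finset.card_map, pow_one,
    Finset.univ_unique, Finset.sum_singleton]
  have b1 : ∑ i, Real.exp (-(100 * D.w j i) / 4) * Real.sqrt 2 ≤ K * gg :=
    (Finset.sum_le_sum fun i _ => one i).trans
      (by rw [← Finset.mul_sum]; exact mul_le_mul_of_nonneg_left hu hK)
  have b2 : ∑ p : Fin d × Fin d, Real.exp (-(100 * (D.w j p.1 + D.w j p.2)) / 4) * Real.sqrt 2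
      ≤ K * (gg * gg) := by
    refine (Finset.sum_le_sum fun p _ => two p).trans ?_
    rw [← Finset.mul_sum, Fintype.sum_prod_type]
    dsimp only
    rw [← Finset.sum_mul_sum]
    exact mul_le_mul_of_nonneg_left (mul_le_mul hu hu (Finset.sum_nonneg fun i _ => hu0 i) (by linarith)) hK
  refine le_trans (add_le_add (add_le_add (add_le_add b1 b2) (add_le_add (add_le_add b1 b1) unit)) mid) ?_
  have h5 : 10 * gg ^ 2 ≤ tp gg :=
    poly_le D.hB 2 (D.g_ge j) (by norm_num) (by norm_num) (by linarith)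
  calc K * gg + K * (gg * gg) + (K * gg + K * gg + K) + K = K * (gg ^ 2 + 3 * gg + 2) := by ring
    _ ≤ K * (5 * gg ^ 2) := mul_le_mul_of_nonneg_left (by nlinarith) hK
    _ = tp (-(20 * gg)) * (10 * gg ^ 2) := by simp only [K]; ring
    _ ≤ tp (-(20 * gg)) * tp gg := mul_le_mul_of_nonneg_left h5 (tp_nonneg _)
    _ ≤ _ := by rw [← tp_add]; exact tp_le (by linarith)

open Classical in
/-- The sets of high coordinates of level `j` that have left by a later level. -/
noncomputable def exits (j : ℕ) : Finset (Finset (Fin d)) :=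
  (D.hiSet j).powerset.filter fun F => F.Nonempty ∧ ∃ k, j ≤ k ∧ F = D.hiSet j \ D.hiSet k

lemma hiSet_anti {j k : ℕ} (h : j ≤ k) : D.hiSet k ⊆ D.hiSet j := by
  intro i hi
  simp only [hiSet, Finset.mem_filter, Finset.mem_univ, true_and] at hi ⊢
  exact D.hi_anti h hi

lemma exits_loss (j : ℕ) :
    ∑ F : D.exits j, Real.exp (-(100 * (F.1.card : ℝ)) / 4) * Real.sqrt 2 ^ F.1.card ≤ 1 / 10 := by
  classical
  set f : ℕ → ℝ := fun n => Real.exp (-(100 * (n : ℝ)) / 4) * Real.sqrt 2 ^ n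
  have hinj : Set.InjOn Finset.card (D.exits j : Set (Finset (Fin d))) := by
    intro F hF G hG h
    simp only [exits, Finset.mem_coe, Finset.mem_filter] at hF hG
    obtain ⟨-, -, a, ha, rfl⟩ := hF
    obtain ⟨-, -, b, hb, rfl⟩ := hG
    rcases le_total a b with hab | hab
    · exact Finset.eq_of_subset_of_card_le (Finset.sdiff_subset_sdiff le_rfl (D.hiSet_anti hab)) h.ge
    · exact (Finset.eq_of_subset_of_card_le (Finset.sdiff_subset_sdiff le_rfl (D.hiSet_anti hab)) h.le).symm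
  have hf : ∀ n : ℕ, f (n + 1) ≤ (1 / 20) * (1 / 2) ^ n := by
    intro n
    simp only [f]
    rw [show -(100 * ((n + 1 : ℕ) : ℝ)) / 4 = ((n + 1 : ℕ) : ℝ) * (-25) by ring, Real.exp_nat_mul, ← mul_pow]
    have h1 : Real.exp (-25) * Real.sqrt 2 ≤ 1 / 20 := by
      have : Real.exp (-25) ≤ tp (-25) := exp_le_tp le_rfl (by norm_num)
      refine le_trans (mul_le_mul this (Real.sqrt_le_iff.2 ⟨by norm_num, by norm_num⟩ : Real.sqrt 2 ≤ 2)
        (Real.sqrt_nonneg _) (tp_nonneg _)) ?_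
      rw [tp, Real.rpow_neg (by norm_num), show (25 : ℝ) = ((25 : ℕ) : ℝ) by norm_num, Real.rpow_natCast]
      norm_num
    refine le_trans (pow_le_pow_left₀ (by positivity) h1 _) ?_
    rw [pow_succ, mul_comm]
    exact mul_le_mul_of_nonneg_left (pow_le_pow_left₀ (by norm_num) (by norm_num) n) (by norm_num)
  calc ∑ F : D.exits j, Real.exp (-(100 * (F.1.card : ℝ)) / 4) * Real.sqrt 2 ^ F.1.card
      = ∑ F ∈ D.exits j, f F.card := Finset.sum_coe_sort (D.exits j) (fun F => f F.card)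
    _ = ∑ n ∈ (D.exits j).image Finset.card, f n := (Finset.sum_image hinj).symm
    _ ≤ ∑ n ∈ (Finset.range (d + 1)).erase 0, f n := by
        refine Finset.sum_le_sum_of_subset_of_nonneg (fun n hn => ?_) fun n _ _ => by positivity
        obtain ⟨F, hF, rfl⟩ := Finset.mem_image.1 hn
        simp only [exits, Finset.mem_filter] at hF
        simp only [Finset.mem_erase, Finset.mem_range]
        exact ⟨hF.2.1.card_pos.ne', Nat.lt_succ_of_le ((Finset.card_le_univ F).trans (by simp))⟩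
    _ = ∑ n ∈ Finset.range d, f (n + 1) := by
        rw [Finset.sum_erase_eq_sub (by simp), Finset.sum_range_succ']; ring
    _ ≤ ∑ n ∈ Finset.range d, (1 / 20 : ℝ) * (1 / 2) ^ n := Finset.sum_le_sum fun n _ => hf n
    _ ≤ 1 / 10 := by
        rw [← Finset.mul_sum]
        have := sum_geometric_two_le d
        linarith

end Sys

end Vale.Agent.P262
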