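import Mathlib
import Vale.Agent.P262.Basic

/-!
Correcting a sum in the high coordinates by a fractional selection that is linear in the vectors,
and the effect of this correction on all other tested quantities.
-/

namespace Vale.Agent.P262

/-- A bound for solutions of a diagonally dominated system. -/
lemma dominant_bound {d : ℕ} (H : Finset (Fin d)) (A W : Fin d → Fin d → ℝ) (Dg θ ρ z : Fin d → ℝ)
    (c : ℝ) (hc : 0 ≤ c) (hρ : ∀ i ∈ H, 0 < ρ i) (hθ : ∀ i ∈ H, 0 < θ i)
    (hA : ∀ i ∈ H, ∀ l ∈ H, |A i l - if i = l then Dg i else 0| ≤ W i l)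
    (hD : ∀ i ∈ H, θ i ≤ Dg i * ρ i) (hW : ∀ i ∈ H, ∑ l ∈ H, W i l * ρ l ≤ θ i / 2)
    (hy : ∀ i ∈ H, |∑ l ∈ H, A i l * z l| ≤ c * θ i) : ∀ l ∈ H, |z l| ≤ 2 * c * ρ l := by
  rcases H.eq_empty_or_nonempty with rfl | hne
  · simp
  obtain ⟨i, hi, hmax⟩ := H.exists_max_image (fun l => |z l| / ρ l) hne
  set m := |z i| / ρ i
  have hm0 : 0 ≤ m := div_nonneg (abs_nonneg _) (hρ i hi).le
  have hle : ∀ l ∈ H, |z l| ≤ m * ρ l := fun l hl => (div_le_iff₀ (hρ l hl)).1 (hmax l hl)
  have h1 : Dg i * z i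
      = ∑ l ∈ H, A i l * z l - ∑ l ∈ H, (A i l - if i = l then Dg i else 0) * z l := by
    simp only [sub_mul, Finset.sum_sub_distrib, ite_mul, zero_mul, Finset.sum_ite_eq, hi, if_true]
    ring
  have h2 : |∑ l ∈ H, (A i l - if i = l then Dg i else 0) * z l| ≤ m * (θ i / 2) := by
    refine (Finset.abs_sum_le_sum_abs _ _).trans ?_
    refine le_trans (Finset.sum_le_sum (g := fun l => m * (W i l * ρ l)) fun l hl => ?_) ?_
    · rw [abs_mul]
      calc _ ≤ W i l * (m * ρ l) := mul_le_mul (hA i hi l hl) (hle l hl) (abs_nonneg _)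
            (le_trans (abs_nonneg _) (hA i hi l hl))
        _ = _ := by ring
    · rw [← Finset.mul_sum]; exact mul_le_mul_of_nonneg_left (hW i hi) hm0
  have h3 : |Dg i * z i| ≤ c * θ i + m * (θ i / 2) := by
    rw [h1]; exact (abs_sub _ _).trans (add_le_add (hy i hi) h2)
  have hDg : 0 < Dg i := pos_of_mul_pos_left (lt_of_lt_of_le (hθ i hi) (hD i hi)) (hρ i hi).le
  have h4 : |Dg i * z i| = m * (Dg i * ρ i) := by
    rw [abs_mul, abs_of_pos hDg]; simp only [m]; field_simp [(hρ i hi).ne']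
  have h5 : m ≤ 2 * c := by
    have := mul_le_mul_of_nonneg_left (hD i hi) hm0
    nlinarith [hθ i hi]
  intro l hl
  exact (hle l hl).trans (mul_le_mul_of_nonneg_right h5 (hρ l hl).le)

/-- Solving a diagonally dominated system. -/
lemma dominant_solve {d : ℕ} (H : Finset (Fin d)) (A W : Fin d → Fin d → ℝ) (Dg θ ρ y : Fin d → ℝ)
    (hρ : ∀ i ∈ H, 0 < ρ i) (hθ : ∀ i ∈ H, 0 < θ i)
    (hA : ∀ i ∈ H, ∀ l ∈ H, |A i l - if i = l then Dg i else 0| ≤ W i l)
    (hD : ∀ i ∈ H, θ i ≤ Dg i * ρ i) (hW : ∀ i ∈ H, ∑ l ∈ H, W i l * ρ l ≤ θ i / 2)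
    (hy : ∀ i ∈ H, |y i| ≤ θ i) :
    ∃ z : Fin d → ℝ, (∀ i ∈ H, ∑ l ∈ H, A i l * z l = y i) ∧ ∀ l ∈ H, |z l| ≤ 2 * ρ l := by
  classical
  set L : (H → ℝ) →ₗ[ℝ] (H → ℝ) := (Matrix.of fun i l : H => A i l).mulVecLin
  have hL : ∀ (x : H → ℝ) (i : H),
      L x i = ∑ l ∈ H, A i l * (if h : l ∈ H then x ⟨l, h⟩ else 0) := by
    intro x i
    rw [← Finset.sum_coe_sort H]
    simp [L, Matrix.mulVec, dotProduct]
  have hinj : Function.Injective L := by
    refine (injective_iff_map_eq_zero L).2 fun x hx => ?_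
    have := dominant_bound H A W Dg θ ρ (fun l => if h : l ∈ H then x ⟨l, h⟩ else 0) 0 le_rfl hρ hθ
      hA hD hW fun i hi => by
        have e := hL x ⟨i, hi⟩
        rw [hx] at e
        rw [← e]; simp
    funext l
    simpa using this l.1 l.2
  obtain ⟨x, hx⟩ := (LinearMap.injective_iff_surjective.1 hinj) fun i : H => y i
  have e : ∀ i ∈ H, ∑ l ∈ H, A i l * (if h : l ∈ H then x ⟨l, h⟩ else 0) = y i := fun i hi => by
    rw [← hL x ⟨i, hi⟩, hx]
  refine ⟨fun l => if h : l ∈ H then x ⟨l, h⟩ else 0, e, fun l hl => ?_⟩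
  have := dominant_bound H A W Dg θ ρ _ 1 zero_le_one hρ hθ hA hD hW
    (fun i hi => by rw [e i hi, one_mul]; exact hy i hi) l hl
  simpa using this

/-- Cauchy-Schwarz with absolute values. -/
lemma abs_sum_mul_le {α : Type*} (s : Finset α) (f g : α → ℝ) :
    |∑ k ∈ s, f k * g k| ≤ Real.sqrt (∑ k ∈ s, f k ^ 2) * Real.sqrt (∑ k ∈ s, g k ^ 2) := by
  refine (Finset.abs_sum_le_sum_abs _ _).trans ?_
  simp only [abs_mul]
  refine (Real.sum_mul_le_sqrt_mul_sqrt s _ _).trans (le_of_eq ?_)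
  simp only [sq_abs]

namespace Sys

variable {d N : ℕ} (D : Sys d N)

/-- Deviation of the second moments of a pair of parts. -/
noncomputable def devU (j : ℕ) (i l : Fin d) : ℝ :=
  10 ^ 4 * (D.w j i + D.w j l) + tp (max (min (D.s (j + 1) i) (D.s (j + 1) l)) 0 / 2)

/-- The amount by which a high coordinate is corrected at most. -/
noncomputable def theta (j : ℕ) (l : Fin d) : ℝ := tp (D.s (j + 1) l / 4)

lemma theta_pos (j : ℕ) (l : Fin d) : 0 < D.theta j l := tp_pos _

lemma hi_facts {j : ℕ} {l : Fin d} (h : D.Hi j l) :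
    (D.g j : ℝ) ≤ D.s (j + 1) l ∧ D.w j l ≤ 3 * D.s (j + 1) l ∧ (D.B : ℝ) ≤ D.s (j + 1) l := by
  have := D.g_big j
  have := D.g_ge j
  simp only [Hi] at h
  rw [D.s_succ]
  refine ⟨by linarith, ?_, by linarith⟩
  rw [w, abs_of_nonneg (by linarith)]
  linarith

lemma sum_rho (j : ℕ) :
    ∑ l ∈ D.hiSet j, tp (-D.s (j + 1) l / 4) ≤ tp (-(D.g j : ℝ) / 8) := by
  simp only [s_succ]; exact D.sum_decay_hi j

lemma sum_devU (j : ℕ) (i : Fin d) :
    ∑ l ∈ D.hiSet j, D.devU j i l * tp (-(3 * D.s (j + 1) l) / 4)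
      ≤ 2 * D.w j i * tp (-(D.g j : ℝ) / 8) := by
  refine le_trans (Finset.sum_le_sum (g := fun l => 2 * D.w j i * tp (-D.s (j + 1) l / 4))
    fun l hl => ?_) ?_
  · simp only [hiSet, Finset.mem_filter] at hl
    obtain ⟨h1, h2, h3⟩ := D.hi_facts hl.2
    set x := D.s (j + 1) l with hx
    have hg := D.g_big j
    have hwi : 1 ≤ D.w j i := le_trans (by linarith) (D.g_le_w j i)
    have hwl : 1 ≤ D.w j l := le_trans (by linarith) (D.g_le_w j l)
    have p : 6 * 10 ^ 4 * x ≤ tp (x / 2) := by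
      simpa using poly_le D.hB 1 h3 (c := 6 * 10 ^ 4) (by norm_num) (by norm_num) (y := x / 2) (by linarith)
    have q : 10 ^ 4 * (D.w j i + D.w j l) ≤ D.w j i * tp (x / 2) := by
      calc 10 ^ 4 * (D.w j i + D.w j l) ≤ D.w j i * (2 * 10 ^ 4 * D.w j l) := by nlinarith
        _ ≤ D.w j i * tp (x / 2) := mul_le_mul_of_nonneg_left (by linarith) (by linarith)
    have r : tp (max (min (D.s (j + 1) i) x) 0 / 2) ≤ D.w j i * tp (x / 2) :=
      le_trans (tp_le (by
        have : max (min (D.s (j + 1) i) x) 0 ≤ x := max_le (min_le_right _ _) (by linarith)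
        linarith)) (le_mul_of_one_le_left (tp_nonneg _) hwi)
    calc D.devU j i l * tp (-(3 * x) / 4) ≤ 2 * D.w j i * tp (x / 2) * tp (-(3 * x) / 4) :=
          mul_le_mul_of_nonneg_right (by simp only [devU, ← hx]; linarith) (tp_nonneg _)
      _ = _ := by rw [mul_assoc, ← tp_add]; ring_nf
  · rw [← Finset.mul_sum]
    exact mul_le_mul_of_nonneg_left (D.sum_rho j) (by have := D.w_pos j i; linarith)

lemma tp_neg_small (j : ℕ) : tp (-(D.g j : ℝ) / 8) ≤ 1 / 10 ^ 20 := by
  have h : (10 : ℝ) ^ 20 ≤ tp ((D.g j : ℝ) / 8) := by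
    simpa using poly_le D.hB 0 (D.g_ge j) (c := 10 ^ 20) (by norm_num) (by norm_num)
      (y := (D.g j : ℝ) / 8) (by have := D.g_big j; linarith)
  rw [neg_div, tp_neg, one_div]
  exact inv_anti₀ (by positivity) h

/-- The correction in one pair of parts and its side effects. -/
theorem leak (j : ℕ) (U : Finset (Fin N))
    (hU : ∀ i l, |D.gram U i l - if i = l then D.mean (j + 1) i else 0| ≤ D.devU j i l)
    (hG : ∀ i, D.Lo (j + 1) i →
      ∑ k ∈ U, D.dv (j + 1) k i ^ 2 ≤ 5000 * D.w j i ^ 2 * D.eps (j + 1) i)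
    (y : Fin d → ℝ) (hy : ∀ l, D.Hi j l → |y l| ≤ D.theta j l) :
    ∃ ℓ : Fin N → ℝ, (∀ k, |ℓ k| ≤ 1 / 2) ∧
      (∀ l, D.Hi j l → ∑ k ∈ U, ℓ k * D.v k l = y l) ∧
      (∀ i ∈ D.midSet j, |∑ k ∈ U, ℓ k * D.v k i| ≤ 1) ∧
      (∀ i l, |∑ k ∈ U, ℓ k * (D.v k i * D.v k l)| ≤ (D.w j i + D.w j l)
          + tp (max (min (D.s (j + 1) i) (D.s (j + 1) l)) 0 / 2)) ∧
      ∀ i, D.Lo (j + 1) i →
        |∑ k ∈ U, ℓ k * D.dv (j + 1) k i| ≤ D.w j i * Real.sqrt (D.eps (j + 1) i) ∧
        |∑ k ∈ U, ℓ k * D.dv (j + 1) k i ^ 2| ≤ D.w j i * D.eps (j + 1) i := by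
  classical
  set H := D.hiSet j
  have memH : ∀ {l}, l ∈ H ↔ D.Hi j l := by intro l; simp [H, hiSet]
  set ρ : Fin d → ℝ := fun l => tp (-(3 * D.s (j + 1) l) / 4)
  have hsmall := D.tp_neg_small j
  obtain ⟨z, hz, hzb⟩ := dominant_solve H (fun i l => D.gram U i l) (D.devU j) (D.mean (j + 1))
    (D.theta j) ρ y (fun i _ => tp_pos _) (fun i _ => D.theta_pos j i)
    (fun i _ l _ => hU i l)
    (fun i _ => by
      refine le_trans (le_of_eq ?_) (mul_le_mul_of_nonneg_right (D.mean_bounds (j + 1) i).1 (tp_nonneg _))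
      rw [← tp_add, theta]; ring_nf)
    (fun i hi => by
      refine (D.sum_devU j i).trans ?_
      obtain ⟨h1, h2, h3⟩ := D.hi_facts (memH.1 hi)
      have p : 12 * D.s (j + 1) i ≤ D.theta j i := by
        have := poly_le D.hB 1 h3 (c := 12) (by norm_num) (by norm_num) (y := D.s (j + 1) i / 4)
          (by have := D.g_big j; linarith)
        simpa [theta] using this
      have := mul_le_mul_of_nonneg_left (le_trans hsmall (by norm_num : (1 / 10 ^ 20 : ℝ) ≤ 1))
        (by have := D.w_pos j i; linarith : 0 ≤ 2 * D.w j i)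
      linarith)
    (fun i hi => hy i (memH.1 hi))
  have hρ : ∀ l ∈ H, ρ l ≤ tp (-D.s (j + 1) l / 4) := fun l hl => tp_le (by
    have := (D.hi_facts (memH.1 hl)).1
    have := D.g_big j
    linarith)
  set ℓ : Fin N → ℝ := fun k => ∑ l ∈ H, z l * D.v k l
  have swap : ∀ f : Fin N → ℝ, ∑ k ∈ U, ℓ k * f k = ∑ l ∈ H, z l * ∑ k ∈ U, f k * D.v k l := by
    intro f
    simp only [ℓ, Finset.sum_mul, Finset.mul_sum]
    rw [Finset.sum_comm]
    exact Finset.sum_congr rfl fun l _ => Finset.sum_congr rfl fun k _ => by ring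
  have hlin : ∀ i, ∑ k ∈ U, ℓ k * D.v k i = ∑ l ∈ H, D.gram U i l * z l := by
    intro i
    rw [swap fun k => D.v k i]
    exact Finset.sum_congr rfl fun l _ => mul_comm _ _
  have hℓ : ∀ k, |ℓ k| ≤ 1 / 2 := by
    intro k
    refine (Finset.abs_sum_le_sum_abs _ _).trans ?_
    refine le_trans (Finset.sum_le_sum (g := fun l => 2 * tp (-D.s (j + 1) l / 4)) fun l hl => ?_) ?_
    · rw [abs_mul]
      refine le_trans (mul_le_of_le_one_right (abs_nonneg _) ?_)
        ((hzb l hl).trans (mul_le_mul_of_nonneg_left (hρ l hl) (by norm_num)))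
      rw [← sq_le_one_iff_abs_le_one]
      exact le_trans (Finset.single_le_sum (f := fun i => D.v k i ^ 2) (fun i _ => sq_nonneg _)
        (Finset.mem_univ l)) (D.hnorm k)
    · rw [← Finset.mul_sum]
      have := D.sum_rho j
      linarith
  have hσ : ∑ k ∈ U, ℓ k ^ 2 ≤ 1 / 10 ^ 16 := by
    have h1 : ∑ k ∈ U, ℓ k ^ 2 = ∑ l ∈ H, z l * y l := by
      simp only [pow_two]
      rw [swap ℓ]
      exact Finset.sum_congr rfl fun l hl => by rw [hlin, hz l hl]
    rw [h1]
    refine le_trans (Finset.sum_le_sum (g := fun l => 2 * tp (-D.s (j + 1) l / 4)) fun l hl => ?_) ?_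
    · refine (le_abs_self _).trans ?_
      rw [abs_mul]
      refine le_trans (mul_le_mul (hzb l hl) (hy l (memH.1 hl)) (abs_nonneg _)
        (mul_nonneg (by norm_num) (tp_nonneg _))) ?_
      rw [mul_assoc]
      refine mul_le_mul_of_nonneg_left ?_ (by norm_num)
      simp only [ρ, theta, ← tp_add]
      refine tp_le ?_
      have := (D.hi_facts (memH.1 hl)).1
      have := D.g_big j
      linarith
    · rw [← Finset.mul_sum]
      have := D.sum_rho j
      linarith
  have hsqσ : Real.sqrt (∑ k ∈ U, ℓ k ^ 2) ≤ 1 / 10 ^ 8 := by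
    refine Real.sqrt_le_iff.2 ⟨by norm_num, hσ.trans (by norm_num)⟩
  have cs : ∀ f : Fin N → ℝ, ∀ R : ℝ, 0 ≤ R → (∑ k ∈ U, f k ^ 2) ≤ R ^ 2 →
      |∑ k ∈ U, ℓ k * f k| ≤ R / 10 ^ 8 := by
    intro f R hR hf
    refine (abs_sum_mul_le U ℓ f).trans ?_
    rw [div_eq_mul_one_div, mul_comm R]
    exact mul_le_mul hsqσ (Real.sqrt_le_iff.2 ⟨hR, hf⟩) (Real.sqrt_nonneg _) (by norm_num)
  refine ⟨ℓ, hℓ, fun l hl => by rw [hlin]; exact hz l (memH.2 hl), fun i hi => ?_, fun i l => ?_,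
    fun i hi => ⟨?_, ?_⟩⟩
  · rw [hlin]
    have hne : ∀ l ∈ H, i ≠ l := by
      rintro l hl rfl
      simp only [midSet, Finset.mem_filter] at hi
      exact hi.2.1 (memH.1 hl)
    refine (Finset.abs_sum_le_sum_abs _ _).trans ?_
    refine le_trans (Finset.sum_le_sum (g := fun l => 2 * (D.devU j i l * ρ l)) fun l hl => ?_) ?_
    · rw [abs_mul]
      have h := hU i l
      rw [if_neg (hne l hl), sub_zero] at h
      calc _ ≤ D.devU j i l * (2 * ρ l) :=
            mul_le_mul h (hzb l hl) (abs_nonneg _) (le_trans (abs_nonneg _) h)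
        _ = _ := by ring
    · rw [← Finset.mul_sum]
      have hw : D.w j i ≤ 3 * D.g j := by
        simp only [midSet, Finset.mem_filter, Hi, Lo, not_le] at hi
        have : |D.s j i| ≤ 2 * D.g j := abs_le.2 ⟨by linarith [hi.2.2], by linarith [hi.2.1]⟩
        simp only [w]; linarith
      refine le_trans (mul_le_mul_of_nonneg_left (D.sum_devU j i) (by norm_num)) ?_
      have h12 : 12 * (D.g j : ℝ) ≤ tp ((D.g j : ℝ) / 8) := by
        simpa using poly_le D.hB 1 (D.g_ge j) (c := 12) (by norm_num) (by norm_num)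
          (y := (D.g j : ℝ) / 8) (by have := D.g_big j; linarith)
      have h' : 12 * (D.g j : ℝ) * tp (-(D.g j : ℝ) / 8) ≤ 1 := by
        rw [neg_div, tp_neg, mul_inv_le_iff₀ (tp_pos _), one_mul]; exact h12
      have := mul_le_mul_of_nonneg_right (show 4 * D.w j i ≤ 12 * D.g j by linarith)
        (tp_nonneg (-(D.g j : ℝ) / 8))
      linarith
  · set m := max (min (D.s (j + 1) i) (D.s (j + 1) l)) 0 with hm
    set W := D.w j i + D.w j l with hW
    have hW1 : 1 ≤ W := by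
      have := D.g_big j; have := D.g_le_w j i; have := D.g_le_w j l; linarith
    have hsq : ∑ k ∈ U, (D.v k i * D.v k l) ^ 2 ≤ 2 * 10 ^ 4 * W + 3 * tp m := by
      have one : ∀ a c : Fin d, D.s (j + 1) a = min (D.s (j + 1) i) (D.s (j + 1) l) →
          D.w j a ≤ W → (∑ k ∈ U, (D.v k a * D.v k c) ^ 2) ≤ 2 * 10 ^ 4 * W + 3 * tp m := by
        intro a c ha hwa
        refine le_trans (Finset.sum_le_sum (g := fun k => D.v k a * D.v k a) fun k _ => ?_) ?_
        · rw [mul_pow, pow_two (D.v k a)]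
          exact mul_le_of_le_one_right (mul_self_nonneg _) (le_trans
            (Finset.single_le_sum (f := fun i => D.v k i ^ 2) (fun i _ => sq_nonneg _)
              (Finset.mem_univ c)) (D.hnorm k))
        · have h := (abs_le.1 (hU a a)).2
          rw [if_pos rfl, devU, min_self, ha, ← hm] at h
          have := (D.mean_bounds (j + 1) a).2
          have h2 : tp (D.s (j + 1) a) ≤ tp m := tp_le (by rw [ha]; exact le_max_left _ _)
          have h3 : tp (m / 2) ≤ tp m := tp_le (by have : 0 ≤ m := le_max_right _ _; linarith)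
          show D.gram U a a ≤ _
          linarith
      rcases le_total (D.s (j + 1) i) (D.s (j + 1) l) with h | h
      · exact one i l (min_eq_left h).symm (le_add_of_nonneg_right (D.w_pos j l).le)
      · have := one l i (min_eq_right h).symm (le_add_of_nonneg_left (D.w_pos j i).le)
        simpa [mul_comm] using this
    refine (cs (fun k => D.v k i * D.v k l) (2 * 10 ^ 4 * W + 2 * tp (m / 2))
      (by have := tp_pos (m / 2); linarith) (hsq.trans ?_)).trans ?_
    · have e : tp m = tp (m / 2) ^ 2 := by rw [tp_sq]; ring_nf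
      rw [e]
      have := tp_pos (m / 2)
      nlinarith
    · have := tp_pos (m / 2)
      linarith
  · refine (cs (fun k => D.dv (j + 1) k i) (100 * D.w j i * Real.sqrt (D.eps (j + 1) i))
      (by have := D.w_pos j i; positivity) ?_).trans ?_
    · rw [mul_pow, Real.sq_sqrt (D.eps_pos _ i).le, mul_pow]
      refine (hG i hi).trans (mul_le_mul_of_nonneg_right ?_ (D.eps_pos _ i).le)
      nlinarith [sq_nonneg (D.w j i)]
    · have : 0 ≤ D.w j i * Real.sqrt (D.eps (j + 1) i) := by have := D.w_pos j i; positivity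
      linarith
  · refine (cs (fun k => D.dv (j + 1) k i ^ 2) (100 * D.w j i * D.eps (j + 1) i)
      (by have := D.w_pos j i; have := D.eps_pos (j + 1) i; positivity) ?_).trans ?_
    · refine le_trans (Finset.sum_le_sum
        (g := fun k => D.eps (j + 1) i * D.dv (j + 1) k i ^ 2) fun k _ => ?_) ?_
      · rw [pow_two (D.dv (j + 1) k i ^ 2)]
        exact mul_le_mul_of_nonneg_right (D.dv_sq _ k i) (sq_nonneg _)
      · rw [← Finset.mul_sum]
        refine (mul_le_mul_of_nonneg_left (hG i hi) (D.eps_pos _ i).le).trans ?_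
        nlinarith [sq_nonneg (D.w j i * D.eps (j + 1) i)]
    · have : 0 ≤ D.w j i * D.eps (j + 1) i := mul_nonneg (D.w_pos j i).le (D.eps_pos _ i).le
      linarith

end Sys

end Vale.Agent.P262
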