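import Mathlib
import Vale.Agent.P262.Basic
import Vale.Agent.P262.Leak

/-!
The two foldings of a stage: dust is cut into many parts, and the few heavy vectors are put into
an order, both evenly for every test.
-/

namespace Vale.Agent.P262

/-- The number of admissible ranks below a slot. -/
lemma count_slots (p L M : ℕ) (hL : 0 < L) (hp : p ≤ L) (hM : M ≤ L) :
    |((((Finset.range M).filter fun r => r * L / M < p).card : ℕ) : ℝ)
      - ((p : ℝ) + 1) / ((L : ℝ) + 1) * M| ≤ 2 := by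
  rcases Nat.eq_zero_or_pos M with rfl | hM0
  · simp
  set n := (p * M + (L - 1)) / L
  have hnM : n ≤ M := by
    refine Nat.le_of_lt_succ ((Nat.div_lt_iff_lt_mul hL).2 ?_)
    have := Nat.mul_le_mul_right M hp
    rw [Nat.succ_mul, Nat.mul_comm M L]
    omega
  have hset : (Finset.range M).filter (fun r => r * L / M < p) = Finset.range n := by
    ext r
    simp only [Finset.mem_filter, Finset.mem_range, Nat.div_lt_iff_lt_mul hM0]
    have key : r < n ↔ r * L < p * M := by
      rw [show (r < n) = (r + 1 ≤ n) from rfl, Nat.le_div_iff_mul_le hL, Nat.add_mul, Nat.one_mul]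
      omega
    constructor
    · exact fun h => key.2 h.2
    · exact fun h => ⟨lt_of_lt_of_le h hnM, key.1 h⟩
  rw [hset, Finset.card_range]
  have h1 : n * L ≤ p * M + (L - 1) := Nat.div_mul_le_self _ _
  have h2 : p * M + (L - 1) < (n + 1) * L := by
    have := Nat.lt_succ_self n
    exact (Nat.div_lt_iff_lt_mul hL).1 this
  have hn1 : (n : ℝ) * L ≤ (p : ℝ) * M + L := by exact_mod_cast le_trans h1 (by omega)
  have hn2 : (p : ℝ) * M ≤ ((n : ℝ) + 1) * L := by exact_mod_cast le_trans (Nat.le_add_right _ _) h2.le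
  have hL' : (0 : ℝ) < L := by exact_mod_cast hL
  have hp' : (p : ℝ) ≤ L := by exact_mod_cast hp
  have hM' : (M : ℝ) ≤ L := by exact_mod_cast hM
  have e : (n : ℝ) - ((p : ℝ) + 1) / ((L : ℝ) + 1) * M
      = (((n : ℝ) * L - p * M) + (M : ℝ) * (p - L) / ((L : ℝ) + 1)) / L := by
    field_simp; ring
  rw [e, abs_div, abs_of_pos hL', div_le_iff₀ hL']
  have h3 : -(L : ℝ) ≤ (M : ℝ) * (p - L) / ((L : ℝ) + 1) := by
    rw [le_div_iff₀ (by linarith)]
    nlinarith [(Nat.cast_nonneg M : (0 : ℝ) ≤ M), (Nat.cast_nonneg p : (0 : ℝ) ≤ p)]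
  have h4 : (M : ℝ) * (p - L) / ((L : ℝ) + 1) ≤ 0 :=
    div_nonpos_of_nonpos_of_nonneg (mul_nonpos_of_nonneg_of_nonpos (Nat.cast_nonneg M) (by linarith))
      (by linarith)
  exact abs_le.2 ⟨by linarith, by linarith⟩

lemma abs_le_norm_cut {ι : Type*} [Fintype ι] [DecidableEq ι] (F : Finset ι) (y : EuclideanSpace ℝ ι)
    {c : ι} (hc : c ∈ F) : |y c| ≤ ‖cut F y‖ := by
  rw [← sq_le_sq₀ (abs_nonneg _) (norm_nonneg _), norm_cut_sq, sq_abs]
  exact Finset.single_le_sum (f := fun c => y c ^ 2) (fun c _ => sq_nonneg _) hc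

namespace Sys

variable {d N : ℕ} (D : Sys d N)

lemma sum_lift_lin (j : ℕ) (S : Finset (Fin N)) (i : Fin d) :
    (∑ k ∈ S, D.lift j k) (cLin i) = 1 / 4 * ∑ k ∈ S, D.v k i := by
  simp [WithLp.ofLp_sum, Finset.sum_apply, lift_lin, Finset.mul_sum]

lemma sum_lift_quad (j : ℕ) (S : Finset (Fin N)) (i l : Fin d) :
    (∑ k ∈ S, D.lift j k) (cQuad (i, l)) = 1 / 4 * D.gram S i l := by
  simp [WithLp.ofLp_sum, Finset.sum_apply, lift_quad, Finset.mul_sum, gram]

lemma sum_lift_one (j : ℕ) (S : Finset (Fin N)) :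
    (∑ k ∈ S, D.lift j k) cOne = 1 / 4 * (S.card : ℝ) := by
  simp [WithLp.ofLp_sum, Finset.sum_apply, lift_one, mul_comm]

lemma sum_lift_dl (j : ℕ) (S : Finset (Fin N)) (i : Fin d) :
    (∑ k ∈ S, D.lift j k) (cDl i)
      = 1 / 4 * ((D.w j i)⁻¹ * (∑ k ∈ S, D.dv (j + 1) k i) / Real.sqrt (D.eps (j + 1) i)) := by
  simp [WithLp.ofLp_sum, Finset.sum_apply, lift_dl, Finset.mul_sum, Finset.sum_div]

lemma sum_lift_ds (j : ℕ) (S : Finset (Fin N)) (i : Fin d) :
    (∑ k ∈ S, D.lift j k) (cDs i)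
      = 1 / 4 * ((D.w j i)⁻¹ * (∑ k ∈ S, D.dv (j + 1) k i ^ 2) / D.eps (j + 1) i) := by
  simp [WithLp.ofLp_sum, Finset.sum_apply, lift_ds, Finset.mul_sum, Finset.sum_div]

lemma norm_sum_lift (j : ℕ) (S : Finset (Fin N)) : ‖∑ k ∈ S, D.lift j k‖ ≤ S.card := by
  refine (norm_sum_le_of_le _ (n := fun _ => (1 : ℝ)) fun k _ => D.norm_lift_le j k).trans (le_of_eq ?_)
  simp

open Classical in
/-- The vectors that are heavy in a newly low coordinate. -/
noncomputable def singles (j : ℕ) (b : Finset (Fin N)) : Finset (Fin N) :=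
  b.filter fun k => ∃ i ∈ D.newSet j, D.eps (j + 1) i < D.v k i ^ 2

lemma singles_sub (j : ℕ) (b : Finset (Fin N)) : D.singles j b ⊆ b := Finset.filter_subset _ _

lemma new_facts {j : ℕ} {i : Fin d} (hi : i ∈ D.newSet j) :
    D.s j i < 0 ∧ -(2 * (D.g j : ℝ)) < D.s j i ∧ D.w j i ≤ 3 * D.g j := by
  simp only [newSet, Finset.mem_filter, Lo, not_le] at hi
  obtain ⟨-, h1, h2⟩ := hi
  have := (D.g_step j).2
  have := D.g_big j
  rw [D.s_succ] at h1
  refine ⟨by linarith, h2, ?_⟩
  rw [w, abs_of_neg (by linarith)]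
  linarith

lemma new_mass {j : ℕ} {b : Finset (Fin N)} (hb : D.Block j b) {i : Fin d} (hi : i ∈ D.newSet j) :
    D.gram b i i ≤ 3 * 10 ^ 6 * D.w j i := by
  obtain ⟨h1, -, -⟩ := D.new_facts hi
  have h := (abs_le.1 (hb.moment i i)).2
  rw [if_pos rfl, dev, min_self, max_eq_right h1.le] at h
  have := (D.mean_bounds j i).2
  have := tp_le_one h1.le
  simp only [zero_div, tp_zero] at h
  have := D.g_big j
  have := D.g_le_w j i
  linarith

lemma singles_card {j : ℕ} {b : Finset (Fin N)} (hb : D.Block j b) :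
    ((D.singles j b).card : ℝ) ≤ tp ((D.g j : ℝ) / 4) := by
  classical
  have hsub : D.singles j b ⊆
      (D.newSet j).biUnion fun i => b.filter fun k => D.eps (j + 1) i < D.v k i ^ 2 := by
    intro k hk
    simp only [singles, Finset.mem_filter] at hk
    obtain ⟨hk, i, hi, h⟩ := hk
    exact Finset.mem_biUnion.2 ⟨i, hi, Finset.mem_filter.2 ⟨hk, h⟩⟩
  have hg := D.g_big j
  set K : ℝ := 9 * 10 ^ 6 * D.g j * tp (3 * (D.g j : ℝ) / 16)
  have one : ∀ i ∈ D.newSet j,
      ((b.filter fun k => D.eps (j + 1) i < D.v k i ^ 2).card : ℝ) ≤ K := by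
    intro i hi
    obtain ⟨h1, h2, h3⟩ := D.new_facts hi
    have he : tp (-(3 * (D.g j : ℝ) / 16)) ≤ D.eps (j + 1) i := by
      refine tp_le ?_; rw [D.s_succ]; linarith
    have h : ((b.filter fun k => D.eps (j + 1) i < D.v k i ^ 2).card : ℝ) * tp (-(3 * (D.g j : ℝ) / 16))
        ≤ D.gram b i i := by
      rw [← nsmul_eq_mul, ← Finset.sum_const]
      refine le_trans (Finset.sum_le_sum fun k hk => le_trans he (Finset.mem_filter.1 hk).2.le) ?_
      refine le_trans (Finset.sum_le_sum_of_subset_of_nonneg (Finset.filter_subset _ _)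
        fun k _ _ => sq_nonneg _) (le_of_eq ?_)
      simp only [gram, pow_two]
    rw [tp_neg, mul_inv_le_iff₀ (tp_pos _)] at h
    refine h.trans ?_
    have := (D.new_mass hb hi)
    exact mul_le_mul_of_nonneg_right (by linarith) (tp_nonneg _)
  calc ((D.singles j b).card : ℝ)
      ≤ ∑ i ∈ D.newSet j, ((b.filter fun k => D.eps (j + 1) i < D.v k i ^ 2).card : ℝ) := by
        exact_mod_cast le_trans (Finset.card_le_card hsub) Finset.card_biUnion_le
    _ ≤ (D.newSet j).card * K := by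
        rw [← nsmul_eq_mul, ← Finset.sum_const]; exact Finset.sum_le_sum one
    _ ≤ D.g j * K := mul_le_mul_of_nonneg_right
        (le_trans (by exact_mod_cast Finset.card_le_card (D.newSet_sub j)) (D.midSet_card j))
        (by positivity [tp_nonneg (3 * (D.g j : ℝ) / 16)])
    _ ≤ tp ((D.g j : ℝ) / 16) * tp (3 * (D.g j : ℝ) / 16) := by
        have := poly_le D.hB 2 (D.g_ge j) (c := 9 * 10 ^ 6) (by norm_num) (by norm_num)
          (y := (D.g j : ℝ) / 16) (by linarith)
        simp only [K]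
        rw [← mul_assoc]
        refine mul_le_mul_of_nonneg_right ?_ (tp_nonneg _)
        linarith
    _ = _ := by rw [← tp_add]; ring_nf

lemma dust_mass {j : ℕ} {b : Finset (Fin N)} (hb : D.Block j b) {i : Fin d} (hi : D.Lo (j + 1) i) :
    (∑ k ∈ b, D.dv (j + 1) k i ^ 2) / 2 ^ D.g j ≤ D.w j i ^ 2 * D.eps (j + 1) i := by
  classical
  have hg := D.g_big j
  rw [div_le_iff₀ (by positivity), ← tp_natCast]
  have hw : 1 ≤ D.w j i := le_trans (by linarith) (D.g_le_w j i)
  have hnn : 0 ≤ D.w j i ^ 2 * D.eps (j + 1) i := mul_nonneg (sq_nonneg _) (D.eps_pos _ _).le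
  by_cases hlo : D.Lo j i
  · refine le_trans ?_ (le_trans (le_trans (le_of_eq rfl) (hb.dusty i hlo)) ?_)
    · refine Finset.sum_le_sum fun k _ => ?_
      simp only [dv]
      split_ifs with h1 h2
      · exact le_rfl
      · exact absurd (h1.trans (D.eps_succ_le j i)) h2
      · simpa using sq_nonneg (D.v k i)
      · simp
    · have e : D.eps j i = D.eps (j + 1) i * tp ((D.g j : ℝ) / 16) := by
        simp only [eps, ← tp_add, s_succ]; ring_nf
      rw [e]
      have p : 10 ^ 7 * tp ((D.g j : ℝ) / 16) ≤ tp (D.g j : ℝ) := by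
        have := poly_le D.hB 0 (D.g_ge j) (c := 10 ^ 7) (by norm_num) (by norm_num)
          (y := (D.g j : ℝ) - (D.g j : ℝ) / 16) (by linarith)
        rw [pow_zero, mul_one] at this
        calc 10 ^ 7 * tp ((D.g j : ℝ) / 16) ≤ tp ((D.g j : ℝ) - (D.g j : ℝ) / 16) * tp ((D.g j : ℝ) / 16) :=
              mul_le_mul_of_nonneg_right this (tp_nonneg _)
          _ = _ := by rw [← tp_add, sub_add_cancel]
      calc 10 ^ 7 * D.w j i ^ 2 * (D.eps (j + 1) i * tp ((D.g j : ℝ) / 16))
          = D.w j i ^ 2 * D.eps (j + 1) i * (10 ^ 7 * tp ((D.g j : ℝ) / 16)) := by ring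
        _ ≤ _ := mul_le_mul_of_nonneg_left p hnn
  · have hn : i ∈ D.newSet j := by simp [newSet, hi, hlo]
    obtain ⟨h1, h2, -⟩ := D.new_facts hn
    have h : ∑ k ∈ b, D.dv (j + 1) k i ^ 2 ≤ D.gram b i i := by
      refine Finset.sum_le_sum fun k _ => ?_
      simp only [dv]
      split_ifs with h
      · exact le_of_eq (pow_two _)
      · simpa using mul_self_nonneg (D.v k i)
    refine (h.trans (D.new_mass hb hn)).trans ?_
    have p : 3 * 10 ^ 6 ≤ D.eps (j + 1) i * tp (D.g j : ℝ) := by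
      simp only [eps, ← tp_add, s_succ]
      have := poly_le D.hB 0 (D.g_ge j) (c := 3 * 10 ^ 6) (by norm_num) (by norm_num)
        (y := (D.s j i - (D.g j : ℝ)) / 16 + D.g j) (by linarith)
      simpa using this
    calc 3 * 10 ^ 6 * D.w j i ≤ D.eps (j + 1) i * tp (D.g j : ℝ) * D.w j i :=
          mul_le_mul_of_nonneg_right p (by linarith)
      _ ≤ D.eps (j + 1) i * tp (D.g j : ℝ) * D.w j i ^ 2 :=
          mul_le_mul_of_nonneg_left (le_self_pow₀ hw (by norm_num))
            (mul_nonneg (D.eps_pos _ _).le (tp_nonneg _))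
      _ = _ := by ring

/-- The pair of dust parts around slot `p`. -/
def pairU (Du : Finset (Fin N)) (a : Fin N → ℕ) (p : ℕ) : Finset (Fin N) :=
  Du.filter fun x => a x = 2 * p + 1 ∨ a x = 2 * p + 2

lemma pairU_sum (Du : Finset (Fin N)) (a : Fin N → ℕ) (p : ℕ) {ι : Type*} [Fintype ι]
    (φ : Fin N → EuclideanSpace ℝ ι) :
    ∑ x ∈ pairU Du a p, φ x = part Du φ a (2 * p + 3) - part Du φ a (2 * p + 1) := by
  simp only [pairU, part, Finset.sum_filter, ← Finset.sum_sub_distrib]
  refine Finset.sum_congr rfl fun x _ => ?_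
  by_cases h1 : a x < 2 * p + 1
  · rw [if_neg (by omega), if_pos (by omega), if_pos h1, sub_self]
  · by_cases h2 : a x < 2 * p + 3
    · rw [if_pos (by omega), if_pos h2, if_neg h1, sub_zero]
    · rw [if_neg (by omega), if_neg h2, if_neg h1, sub_zero]

/-- Both foldings. -/
theorem base_parts {j : ℕ} {b : Finset (Fin N)} (hb : D.Block j b) :
    ∃ a slot : Fin N → ℕ,
      (∀ x ∈ b \ D.singles j b, a x < 2 * 2 ^ D.g j) ∧
      (∀ x ∈ D.singles j b, slot x + 1 < 2 ^ D.g j) ∧
      Set.InjOn slot (D.singles j b : Set (Fin N)) ∧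
      (∀ p, p + 1 < 2 ^ D.g j → ∀ c : Tix d,
        ‖cut (D.tF j c) (∑ x ∈ pairU (b \ D.singles j b) a p, D.lift j x
          - ((1 : ℝ) / 2 ^ D.g j) • ∑ x ∈ b \ D.singles j b, D.lift j x)‖
          ≤ 100 * Real.sqrt (D.tT j c)) ∧
      ∀ p, p + 1 < 2 ^ D.g j → ∀ c : Tix d,
        ‖cut (D.tF j c) (part (b \ D.singles j b) (D.lift j) a (2 * p + 1)
          + part (D.singles j b) (D.lift j) slot p
          + (1 / 2 : ℝ) • ∑ x ∈ pairU (b \ D.singles j b) a p, D.lift j x
          - (((p : ℝ) + 1) / 2 ^ D.g j) • ∑ x ∈ b, D.lift j x)‖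
          ≤ 150 * Real.sqrt (D.tT j c) + 2000 * Real.sqrt (D.g j) + 12 := by
  classical
  set g := D.g j with hgdef
  set φ := D.lift j
  set Sg := D.singles j b
  set Du := b \ Sg
  have hφ : ∀ s : Finset (Fin N), ∀ x ∈ s, ‖φ x‖ ≤ 1 := fun s x _ => D.norm_lift_le j x
  have hg := D.g_big j
  rw [← hgdef] at hg
  have hloss := D.tests_loss j
  rw [← hgdef] at hloss
  have hL0 : 0 ≤ ∑ c, Real.exp (-D.tT j c / 4) * Real.sqrt 2 ^ (D.tF j c).card :=
    Finset.sum_nonneg fun c _ => by positivity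
  have hKr : ((2 : ℝ) ^ g) = tp (g : ℝ) := (tp_natCast g).symm
  have hM := D.singles_card hb
  rw [← hgdef] at hM
  have hMK : Sg.card + 1 < 2 ^ g := by
    have h1 : ((Sg.card + 1 : ℕ) : ℝ) < ((2 ^ g : ℕ) : ℝ) := by
      push_cast
      rw [hKr]
      have h2 : 2 * tp ((g : ℝ) / 4) ≤ tp ((g : ℝ) / 2) := by
        rw [show (g : ℝ) / 2 = (g : ℝ) / 4 + (g : ℝ) / 4 by ring, tp_add]
        refine mul_le_mul_of_nonneg_right ?_ (tp_nonneg _)
        rw [← tp_one]; exact tp_le (by linarith)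
      have h3 : 1 ≤ tp ((g : ℝ) / 4) := one_le_tp (by linarith)
      have h4 : tp ((g : ℝ) / 2) < tp (g : ℝ) :=
        Real.rpow_lt_rpow_of_exponent_lt (by norm_num) (by linarith)
      linarith
    exact_mod_cast h1
  -- dust
  obtain ⟨a, ha, -, hdust⟩ := fold Du φ (hφ Du) (D.tF j) (D.tT j) (g + 1) (fun _ => 0) 1 one_pos
    (fun _ _ => one_pos) (by
      have h1 : (((1 * 2 ^ (g + 1) : ℕ) : ℝ) + 1) ≤ tp ((g : ℝ) + 2) := by
        push_cast
        rw [tp_add, ← hKr, show tp 2 = 4 by rw [tp, Real.rpow_two]; norm_num, pow_succ]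
        have : (1 : ℝ) ≤ 2 ^ g := one_le_pow₀ (by norm_num)
        linarith
      refine lt_of_le_of_lt (mul_le_mul h1 hloss hL0 (tp_nonneg _)) ?_
      rw [← tp_add]
      refine lt_of_le_of_lt (tp_le (y := -2) (by linarith)) ?_
      rw [tp, Real.rpow_neg (by norm_num), Real.rpow_two]; norm_num)
    (fun _ => 0) (fun k hk c => by
      interval_cases k
      · simp [part]
      · simp [part])
  have hdu : ∀ k ≤ 2 * 2 ^ g, ∀ c, ‖cut (D.tF j c) (part Du φ a k
      - ((k : ℝ) / (2 * 2 ^ g)) • ∑ x ∈ Du, φ x)‖ ≤ 50 * Real.sqrt (D.tT j c) := by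
    intro k hk c
    have h := hdust k (by rwa [one_mul, pow_succ, mul_comm]) c
    rw [one_mul, Nat.cast_pow, Nat.cast_ofNat, pow_succ' (2 : ℝ) g] at h
    refine h.trans ?_
    rw [zero_div, zero_add]
    exact mul_le_of_le_one_right (by positivity) (sub_le_self _ (by positivity))
  -- singles
  set m := Sg.card + 1
  set e := Sg.equivFin
  set a₀ : Fin N → ℕ := fun x => if h : x ∈ Sg then (e ⟨x, h⟩ : ℕ) else 0
  obtain ⟨a', ha', hinj, hsing⟩ := fold Sg φ (hφ Sg) (D.tF j) (D.tT j) g a₀ m (Nat.succ_pos _)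
    (fun x hx => by simp only [a₀, hx, dite_true, m]; have := (e ⟨x, hx⟩).2; omega) (by
      have h1 : (((m * 2 ^ g : ℕ) : ℝ) + 1) ≤ tp (2 * (g : ℝ) + 1) := by
        push_cast
        rw [tp_add, tp_one, two_mul (g : ℝ), tp_add, ← hKr]
        have h2 : (m : ℝ) ≤ 2 ^ g := by exact_mod_cast hMK.le
        have : (1 : ℝ) ≤ 2 ^ g := one_le_pow₀ (by norm_num)
        nlinarith
      refine lt_of_le_of_lt (mul_le_mul h1 hloss hL0 (tp_nonneg _)) ?_
      rw [← tp_add]
      refine lt_of_le_of_lt (tp_le (y := -2) (by linarith)) ?_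
      rw [tp, Real.rpow_neg (by norm_num), Real.rpow_two]; norm_num)
    (fun _ => 2 * (Sg.card : ℝ)) (fun k hk c => by
      refine (norm_cut_le _ _).trans ((norm_sub_le _ _).trans ?_)
      rw [norm_smul, Real.norm_of_nonneg (by positivity), two_mul]
      refine add_le_add ((D.norm_sum_lift j _).trans (Nat.cast_le.2 (Finset.card_filter_le _ _))) ?_
      refine le_trans (mul_le_mul ?_ (D.norm_sum_lift j Sg) (norm_nonneg _) zero_le_one) (by rw [one_mul])
      exact div_le_one_of_le₀ (by exact_mod_cast hk) (Nat.cast_nonneg _))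
  have hinj' : Set.InjOn a' (Sg : Set (Fin N)) := hinj fun x hx y hy h => by
    simp only [Finset.mem_coe] at hx hy
    simp only [a₀, hx, hy, dite_true] at h
    simpa using e.injective (Fin.ext h)
  set rank : Fin N → ℕ := fun x => (Sg.filter fun y => a' y < a' x).card
  have hrank_lt : ∀ x ∈ Sg, rank x < Sg.card := fun x hx =>
    Finset.card_lt_card (Finset.filter_ssubset.2 ⟨x, hx, lt_irrefl _⟩)
  have hrank_mono : ∀ x ∈ Sg, ∀ y, a' x < a' y → rank x < rank y := by
    intro x hx y hxy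
    refine Finset.card_lt_card (Finset.ssubset_iff_of_subset ?_ |>.2 ⟨x, ?_, ?_⟩)
    · intro z hz; simp only [Finset.mem_filter] at hz ⊢; exact ⟨hz.1, hz.2.trans hxy⟩
    · simp [hx, hxy]
    · simp
  have hrank_inj : Set.InjOn rank (Sg : Set (Fin N)) := by
    intro x hx y hy h
    rcases lt_trichotomy (a' x) (a' y) with hlt | heq | hlt
    · exact absurd h (hrank_mono x hx y hlt).ne
    · exact hinj' hx hy heq
    · exact absurd h (hrank_mono y hy x hlt).ne'
  have himg : Sg.image rank = Finset.range Sg.card := by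
    refine Finset.eq_of_subset_of_card_le (fun r hr => ?_) ?_
    · obtain ⟨x, hx, rfl⟩ := Finset.mem_image.1 hr
      exact Finset.mem_range.2 (hrank_lt x hx)
    · rw [Finset.card_range, Finset.card_image_of_injOn hrank_inj]
  set L := 2 ^ g - 1 with hLdef
  have hL : 0 < L := by omega
  have hML : Sg.card ≤ L := by omega
  set slot : Fin N → ℕ := fun x => rank x * L / Sg.card
  have hslot_lt : ∀ x ∈ Sg, slot x < L := by
    intro x hx
    have h := hrank_lt x hx
    refine (Nat.div_lt_iff_lt_mul (by omega)).2 ?_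
    rw [mul_comm L]
    exact Nat.mul_lt_mul_of_pos_right h hL
  have hslot_inj : Set.InjOn slot (Sg : Set (Fin N)) := by
    intro x hx y hy h
    refine hrank_inj hx hy ?_
    have hpos : 0 < Sg.card := Finset.card_pos.2 ⟨x, hx⟩
    have step : ∀ r r' : ℕ, r < r' → r * L / Sg.card < r' * L / Sg.card := by
      intro r r' hr
      refine lt_of_lt_of_le (Nat.lt_succ_self _) ?_
      rw [Nat.succ_eq_add_one, ← Nat.add_div_right _ hpos]
      refine Nat.div_le_div_right ?_
      calc r * L + Sg.card ≤ r * L + L := Nat.add_le_add_left hML _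
        _ = (r + 1) * L := by ring
        _ ≤ r' * L := Nat.mul_le_mul_right L hr
    rcases lt_trichotomy (rank x) (rank y) with hlt | heq | hlt
    · exact absurd h (step _ _ hlt).ne
    · exact heq
    · exact absurd h (step _ _ hlt).ne'
  refine ⟨a, slot, fun x hx => by have := ha x hx; rw [one_mul, pow_succ, mul_comm] at this; exact this,
    fun x hx => by have := hslot_lt x hx; omega, hslot_inj, fun p hp c => ?_, fun p hp c => ?_⟩
  · have h3 := hdu (2 * p + 3) (by omega) c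
    have h1 := hdu (2 * p + 1) (by omega) c
    rw [pairU_sum]
    set S := ∑ x ∈ Du, φ x
    have e : part Du φ a (2 * p + 3) - part Du φ a (2 * p + 1) - ((1 : ℝ) / 2 ^ g) • S
        = (part Du φ a (2 * p + 3) - (((2 * p + 3 : ℕ) : ℝ) / (2 * 2 ^ g)) • S)
          - (part Du φ a (2 * p + 1) - (((2 * p + 1 : ℕ) : ℝ) / (2 * 2 ^ g)) • S) := by
      push_cast
      rw [show (2 * (p : ℝ) + 3) / (2 * 2 ^ g) = (2 * (p : ℝ) + 1) / (2 * 2 ^ g) + 1 / 2 ^ g by
        field_simp; ring]
      module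
    rw [e, map_sub]
    refine (norm_sub_le _ _).trans ?_
    linarith
  · have h3 := hdu (2 * p + 3) (by omega) c
    have h1 := hdu (2 * p + 1) (by omega) c
    set S := ∑ x ∈ Du, φ x
    set H := ∑ x ∈ Sg, φ x
    set τ : ℝ := ((p : ℝ) + 1) / 2 ^ g
    have hτ0 : 0 ≤ τ := by positivity
    -- the singles before slot p
    set X := Sg.filter fun x => slot x < p
    set k := X.sup fun x => a' x + 1
    have hk : k ≤ m * 2 ^ g := Finset.sup_le fun x hx => ha' x (Finset.mem_filter.1 hx).1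
    have hXk : X = Sg.filter fun x => a' x < k := by
      ext x
      simp only [X, Finset.mem_filter]
      constructor
      · rintro ⟨hx, h⟩
        refine ⟨hx, ?_⟩
        exact Finset.le_sup (f := fun x => a' x + 1) (show x ∈ X by simp [X, hx, h])
      · rintro ⟨hx, h⟩
        obtain ⟨y, hy, hxy⟩ := Finset.lt_sup_iff.1 h
        simp only [X, Finset.mem_filter] at hy
        refine ⟨hx, lt_of_le_of_lt ?_ hy.2⟩
        refine Nat.div_le_div_right (Nat.mul_le_mul_right L ?_)
        rcases eq_or_lt_of_le (Nat.le_of_lt_succ hxy) with he | hlt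
        · exact (congrArg rank (hinj' hx hy.1 he)).le
        · exact (hrank_mono x hx y hlt).le
    have hpart : part Sg φ slot p = part Sg φ a' k := by
      simp only [part]; rw [← hXk]
    have hcardX : X.card = ((Finset.range Sg.card).filter fun r => r * L / Sg.card < p).card := by
      rw [← himg, Finset.filter_image, Finset.card_image_of_injOn (hrank_inj.mono (Finset.coe_subset.2
        (Finset.filter_subset _ _)))]
    have hcount : |(X.card : ℝ) - τ * Sg.card| ≤ 2 := by
      rw [hcardX]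
      have h := count_slots p L Sg.card hL (by omega) hML
      rwa [show (L : ℝ) + 1 = 2 ^ g by rw [hLdef, Nat.cast_sub Nat.one_le_two_pow]; push_cast; ring] at h
    set κ : ℝ := (k : ℝ) / (m * 2 ^ g : ℕ)
    have herr : ∀ c', ‖cut (D.tF j c') (part Sg φ a' k - κ • H)‖ ≤ 50 * Real.sqrt (D.tT j c') + 2 := by
      intro c'
      refine (hsing k hk c').trans ?_
      have h2 : 2 * (Sg.card : ℝ) / 2 ^ g ≤ 2 := by
        rw [div_le_iff₀ (by positivity)]
        have : (Sg.card : ℝ) ≤ 2 ^ g := by exact_mod_cast (show Sg.card ≤ 2 ^ g by omega)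
        linarith
      have h4 : 50 * Real.sqrt (D.tT j c') * (1 - 1 / 2 ^ g) ≤ 50 * Real.sqrt (D.tT j c') :=
        mul_le_of_le_one_right (by positivity) (sub_le_self _ (by positivity))
      linarith
    have hsqg : Real.sqrt (D.tT j (Sum.inl cOne)) = 10 * Real.sqrt g := by
      show Real.sqrt (100 * (g : ℝ)) = _
      rw [Real.sqrt_mul (by norm_num), show (100 : ℝ) = 10 ^ 2 by norm_num, Real.sqrt_sq (by norm_num)]
    have hκ : |κ - τ| * Sg.card ≤ 2000 * Real.sqrt g + 10 := by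
      have h := herr (Sum.inl cOne)
      have h' := (abs_le_norm_cut _ _ (c := cOne) (by simp [tF])).trans h
      rw [hsqg] at h'
      simp only [PiLp.sub_apply, PiLp.smul_apply, smul_eq_mul, H, φ] at h'
      rw [part, ← hXk, sum_lift_one, sum_lift_one] at h'
      have h5 : |(X.card : ℝ) - κ * Sg.card| ≤ 2000 * Real.sqrt g + 8 := by
        rw [show 1 / 4 * (X.card : ℝ) - κ * (1 / 4 * (Sg.card : ℝ))
          = 1 / 4 * ((X.card : ℝ) - κ * Sg.card) by ring, abs_mul, abs_of_pos (by norm_num : (0:ℝ) < 1/4)] at h'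
        linarith
      rw [show |κ - τ| * (Sg.card : ℝ) = |κ * Sg.card - τ * Sg.card| by
        rw [← sub_mul, abs_mul, Nat.abs_cast]]
      have := abs_le.1 hcount
      have := abs_le.1 h5
      exact abs_le.2 ⟨by linarith, by linarith⟩
    rw [pairU_sum, hpart]
    have hb' : ∑ x ∈ b, φ x = S + H :=
      (Finset.sum_sdiff (D.singles_sub j b)).symm
    rw [hb']
    have e : part Du φ a (2 * p + 1) + part Sg φ a' k
        + (1 / 2 : ℝ) • (part Du φ a (2 * p + 3) - part Du φ a (2 * p + 1)) - τ • (S + H)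
        = (part Du φ a (2 * p + 1) - (((2 * p + 1 : ℕ) : ℝ) / (2 * 2 ^ g)) • S)
          + (1 / 2 : ℝ) • ((part Du φ a (2 * p + 3) - (((2 * p + 3 : ℕ) : ℝ) / (2 * 2 ^ g)) • S)
            - (part Du φ a (2 * p + 1) - (((2 * p + 1 : ℕ) : ℝ) / (2 * 2 ^ g)) • S))
          + (part Sg φ a' k - κ • H) + (κ - τ) • H := by
      have hτ : τ = (2 * (p : ℝ) + 1) / (2 * 2 ^ g) + (1 / 2) * (1 / 2 ^ g) := by
        simp only [τ]; field_simp; ring
      push_cast
      rw [show (2 * (p : ℝ) + 3) / (2 * 2 ^ g) = (2 * (p : ℝ) + 1) / (2 * 2 ^ g) + 1 / 2 ^ g by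
        field_simp; ring, hτ]
      module
    rw [e, map_add, map_add, map_add, map_smul, map_smul,
      map_sub (cut (D.tF j c)) (part Du φ a (2 * p + 3) - _)]
    refine (norm_add_le _ _).trans ?_
    refine (add_le_add ((norm_add_le _ _).trans (add_le_add (norm_add_le _ _) (herr c))) le_rfl).trans ?_
    rw [norm_smul, norm_smul, Real.norm_of_nonneg (by norm_num : (0 : ℝ) ≤ 1 / 2), Real.norm_eq_abs]
    have h6 : |κ - τ| * ‖cut (D.tF j c) H‖ ≤ 2000 * Real.sqrt g + 10 :=
      le_trans (mul_le_mul_of_nonneg_left ((norm_cut_le _ _).trans (D.norm_sum_lift j Sg)) (abs_nonneg _)) hκ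
    have h7 := norm_sub_le (cut (D.tF j c) (part Du φ a (2 * p + 3) - (((2 * p + 3 : ℕ) : ℝ) / (2 * 2 ^ g)) • S))
      (cut (D.tF j c) (part Du φ a (2 * p + 1) - (((2 * p + 1 : ℕ) : ℝ) / (2 * 2 ^ g)) • S))
    linarith

end Sys

end Vale.Agent.P262
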