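import Mathlib
import Vale.Agent.P262.Split

/-!
One stage: a block is cut into ordered children and isolated vectors so that every boundary is
controlled in every coordinate.
-/

namespace Vale.Agent.P262

namespace Sys

variable {d N : ℕ} (D : Sys d N)

/-- Error in second moments at a boundary. -/
noncomputable def err2 (j : ℕ) (i l : Fin d) : ℝ :=
  2 * 10 ^ 4 * (D.w j i + D.w j l) + 2 * tp (max (min (D.s (j + 1) i) (D.s (j + 1) l)) 0 / 2)

/-- The vectors before a boundary. -/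
def upto (b : Finset (Fin N)) (pos : Fin N → ℕ) (q : ℕ) : Finset (Fin N) :=
  b.filter fun x => pos x < q

/-- The share of the block before a boundary. -/
noncomputable def share (j q : ℕ) : ℝ := (((q + 1) / 2 : ℕ) : ℝ) / 2 ^ D.g j

/-- What a stage achieves. -/
structure Refined (j : ℕ) (b : Finset (Fin N)) (P E : Fin d → ℝ) (pos : Fin N → ℕ) : Prop where
  pos_lt : ∀ x ∈ b, pos x + 1 < 2 * 2 ^ D.g j
  odd_one : ∀ x ∈ b, ∀ y ∈ b, pos x % 2 = 1 → pos x = pos y → x = y
  even_dust : ∀ x ∈ b, pos x % 2 = 0 → ∀ i ∈ D.newSet j, D.v x i ^ 2 ≤ D.eps (j + 1) i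
  moment : ∀ q, q < 2 * 2 ^ D.g j → ∀ i l,
    |D.gram (upto b pos q) i l - D.share j q * D.gram b i l| ≤ D.err2 j i l
  low : ∀ q, q < 2 * 2 ^ D.g j → ∀ i, D.Lo (j + 1) i →
    |∑ k ∈ upto b pos q, D.dv (j + 1) k i - D.share j q * ∑ k ∈ b, D.dv (j + 1) k i|
      ≤ 2 * 10 ^ 4 * D.w j i ^ 2 * Real.sqrt (D.eps (j + 1) i) ∧
    |∑ k ∈ upto b pos q, D.dv (j + 1) k i ^ 2 - D.share j q * ∑ k ∈ b, D.dv (j + 1) k i ^ 2|
      ≤ 2 * 10 ^ 4 * D.w j i ^ 2 * D.eps (j + 1) i
  middle : ∀ q, q < 2 * 2 ^ D.g j →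
    ∑ i ∈ D.midSet j, (∑ k ∈ upto b pos q, D.v k i - D.share j q * ∑ k ∈ b, D.v k i) ^ 2
      ≤ 6 * 10 ^ 8 * D.g j
  high : ∀ q, 0 < q → q + 1 < 2 * 2 ^ D.g j → ∃ e : Fin d → ℝ, (∀ l, 0 ≤ e l) ∧
    (∀ l, D.Hi j l → |P l + ∑ k ∈ upto b pos q, D.v k l| ≤ max (E l) (e l)) ∧
    ∀ F ∈ D.exits j, ∑ l ∈ F, e l ^ 2 ≤ 5 * 10 ^ 6 * (F.card : ℝ)

lemma sqrt_hundred (x : ℝ) : Real.sqrt (100 * x) = 10 * Real.sqrt x := by
  rw [Real.sqrt_mul (by norm_num), show (100 : ℝ) = 10 ^ 2 by norm_num, Real.sqrt_sq (by norm_num)]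

lemma sqrt_le_self {x : ℝ} (h : 1 ≤ x) : Real.sqrt x ≤ x :=
  Real.sqrt_le_iff.2 ⟨by linarith, le_self_pow₀ h (by norm_num)⟩

/-- The properties of the correction that the conversion needs. -/
structure SmallLeak (j : ℕ) (R : EuclideanSpace ℝ (Idx d)) : Prop where
  mid : ∀ i ∈ D.midSet j, |R (cLin i)| ≤ 1 / 4
  quad : ∀ i l, |R (cQuad (i, l))| ≤ 1 / 4 * (D.w j i + D.w j l
    + tp (max (min (D.s (j + 1) i) (D.s (j + 1) l)) 0 / 2))
  dl : ∀ i, D.Lo (j + 1) i → |R (cDl i)| ≤ 1 / 4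
  ds : ∀ i, D.Lo (j + 1) i → |R (cDs i)| ≤ 1 / 4

lemma smallLeak_zero (j : ℕ) : D.SmallLeak j 0 := by
  refine ⟨fun i _ => by simp, fun i l => ?_, fun i _ => by simp, fun i _ => by simp⟩
  have := D.w_pos j i; have := D.w_pos j l
  have := tp_pos (max (min (D.s (j + 1) i) (D.s (j + 1) l)) 0 / 2)
  simp only [PiLp.zero_apply, abs_zero]
  positivity

/-- From lifted bounds to the bounds of a stage. -/
lemma convert_bounds (j : ℕ) (S b : Finset (Fin N)) (τ : ℝ)
    (h : ∃ R : EuclideanSpace ℝ (Idx d), D.SmallLeak j R ∧ ∀ c : Tix d,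
      ‖cut (D.tF j c) (∑ x ∈ S, D.lift j x - τ • ∑ x ∈ b, D.lift j x - R)‖
        ≤ 200 * Real.sqrt (D.tT j c) + 2000 * Real.sqrt (D.g j) + 14) :
    (∀ i l, |D.gram S i l - τ * D.gram b i l| ≤ D.err2 j i l) ∧
    (∀ i, D.Lo (j + 1) i →
      |∑ k ∈ S, D.dv (j + 1) k i - τ * ∑ k ∈ b, D.dv (j + 1) k i|
        ≤ 2 * 10 ^ 4 * D.w j i ^ 2 * Real.sqrt (D.eps (j + 1) i) ∧
      |∑ k ∈ S, D.dv (j + 1) k i ^ 2 - τ * ∑ k ∈ b, D.dv (j + 1) k i ^ 2|
        ≤ 2 * 10 ^ 4 * D.w j i ^ 2 * D.eps (j + 1) i) ∧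
    ∑ i ∈ D.midSet j, (∑ k ∈ S, D.v k i - τ * ∑ k ∈ b, D.v k i) ^ 2 ≤ 6 * 10 ^ 8 * D.g j := by
  obtain ⟨R, hR, hcut⟩ := h
  set Δ := ∑ x ∈ S, D.lift j x - τ • ∑ x ∈ b, D.lift j x with hΔ
  have hg := D.g_big j
  have single : ∀ c : Idx d, |Δ c| ≤
      200 * Real.sqrt (D.tT j (Sum.inl c)) + 2000 * Real.sqrt (D.g j) + 14 + |R c| := by
    intro c
    have h1 := (abs_le_norm_cut _ (Δ - R) (c := c) (by simp [tF])).trans (hcut (Sum.inl c))
    have := abs_sub_abs_le_abs_sub (Δ c) (R c)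
    rw [PiLp.sub_apply] at h1
    linarith
  refine ⟨fun i l => ?_, fun i hi => ⟨?_, ?_⟩, ?_⟩
  · have h1 := single (cQuad (i, l))
    rw [show D.tT j (Sum.inl (cQuad (i, l))) = 100 * (D.w j i + D.w j l) from rfl, sqrt_hundred] at h1
    have e : Δ (cQuad (i, l)) = 1 / 4 * (D.gram S i l - τ * D.gram b i l) := by
      rw [hΔ, PiLp.sub_apply, PiLp.smul_apply, sum_lift_quad, sum_lift_quad, smul_eq_mul]; ring
    rw [e, abs_mul, abs_of_pos (by norm_num : (0:ℝ) < 1 / 4)] at h1
    have := hR.quad i l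
    have := D.g_le_w j i
    have := D.w_pos j l
    have h2 : Real.sqrt (D.g j) ≤ Real.sqrt (D.w j i + D.w j l) := Real.sqrt_le_sqrt (by linarith)
    have h3 := sqrt_le_self (x := D.w j i + D.w j l) (by linarith)
    have := tp_pos (max (min (D.s (j + 1) i) (D.s (j + 1) l)) 0 / 2)
    simp only [err2]
    linarith
  · have h1 := single (cDl i)
    rw [show D.tT j (Sum.inl (cDl i)) = 100 * D.w j i from rfl, sqrt_hundred] at h1
    set u := D.w j i * Real.sqrt (D.eps (j + 1) i) with hu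
    have hu0 : 0 < u := mul_pos (D.w_pos j i) (Real.sqrt_pos.2 (D.eps_pos _ i))
    have e : Δ (cDl i) = (∑ k ∈ S, D.dv (j + 1) k i - τ * ∑ k ∈ b, D.dv (j + 1) k i) / (4 * u) := by
      rw [hΔ, PiLp.sub_apply, PiLp.smul_apply, sum_lift_dl, sum_lift_dl, smul_eq_mul, hu]
      have := (D.w_pos j i).ne'
      have := (Real.sqrt_pos.2 (D.eps_pos (j + 1) i)).ne'
      field_simp
    rw [e, abs_div, abs_of_pos (by linarith : 0 < 4 * u), div_le_iff₀ (by linarith)] at h1
    have := hR.dl i hi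
    have := D.g_le_w j i
    have h2 : Real.sqrt (D.g j) ≤ Real.sqrt (D.w j i) := Real.sqrt_le_sqrt (by linarith)
    have h3 := sqrt_le_self (x := D.w j i) (by linarith)
    refine h1.trans ?_
    calc (200 * (10 * Real.sqrt (D.w j i)) + 2000 * Real.sqrt (D.g j) + 14 + |R (cDl i)|) * (4 * u)
        ≤ (5000 * D.w j i) * (4 * u) := mul_le_mul_of_nonneg_right (by linarith) (by linarith)
      _ = _ := by rw [hu]; ring
  · have h1 := single (cDs i)
    rw [show D.tT j (Sum.inl (cDs i)) = 100 * D.w j i from rfl, sqrt_hundred] at h1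
    set u := D.w j i * D.eps (j + 1) i with hu
    have hu0 : 0 < u := mul_pos (D.w_pos j i) (D.eps_pos _ i)
    have e : Δ (cDs i)
        = (∑ k ∈ S, D.dv (j + 1) k i ^ 2 - τ * ∑ k ∈ b, D.dv (j + 1) k i ^ 2) / (4 * u) := by
      rw [hΔ, PiLp.sub_apply, PiLp.smul_apply, sum_lift_ds, sum_lift_ds, smul_eq_mul, hu]
      have := (D.w_pos j i).ne'
      have := (D.eps_pos (j + 1) i).ne'
      field_simp
    rw [e, abs_div, abs_of_pos (by linarith : 0 < 4 * u), div_le_iff₀ (by linarith)] at h1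
    have := hR.ds i hi
    have := D.g_le_w j i
    have h2 : Real.sqrt (D.g j) ≤ Real.sqrt (D.w j i) := Real.sqrt_le_sqrt (by linarith)
    have h3 := sqrt_le_self (x := D.w j i) (by linarith)
    refine h1.trans ?_
    calc (200 * (10 * Real.sqrt (D.w j i)) + 2000 * Real.sqrt (D.g j) + 14 + |R (cDs i)|) * (4 * u)
        ≤ (5000 * D.w j i) * (4 * u) := mul_le_mul_of_nonneg_right (by linarith) (by linarith)
      _ = _ := by rw [hu]; ring
  · set G := Real.sqrt (D.g j)
    have hG : G ^ 2 = D.g j := Real.sq_sqrt (Nat.cast_nonneg _)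
    have hG1 : 1 ≤ G := Real.one_le_sqrt.2 (by linarith)
    have h1 := hcut (Sum.inr ())
    rw [show D.tT j (Sum.inr ()) = 100 * (D.g j : ℝ) from rfl, sqrt_hundred] at h1
    have h2 := pow_le_pow_left₀ (norm_nonneg _) (h1.trans (show _ ≤ 4014 * G by linarith)) 2
    rw [norm_cut_sq, show D.tF j (Sum.inr ())
      = (D.midSet j).map ⟨cLin, fun a b h => by simpa using h⟩ from rfl, Finset.sum_map, mul_pow, hG] at h2
    change ∑ i ∈ D.midSet j, (Δ - R) (cLin i) ^ 2 ≤ _ at h2
    have h3 : ∀ i ∈ D.midSet j, (∑ k ∈ S, D.v k i - τ * ∑ k ∈ b, D.v k i) ^ 2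
        ≤ 32 * (Δ - R) (cLin i) ^ 2 + 2 := by
      intro i hi
      have e : ∑ k ∈ S, D.v k i - τ * ∑ k ∈ b, D.v k i = 4 * ((Δ - R) (cLin i) + R (cLin i)) := by
        rw [hΔ, PiLp.sub_apply, PiLp.sub_apply, PiLp.smul_apply, sum_lift_lin, sum_lift_lin,
          smul_eq_mul]
        ring
      rw [e]
      have := abs_le.1 (hR.mid i hi)
      nlinarith [sq_nonneg ((Δ - R) (cLin i) - R (cLin i)), mul_nonneg (sub_nonneg.2 this.2) (neg_le_iff_add_nonneg.1 this.1)]
    refine (Finset.sum_le_sum h3).trans ?_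
    rw [Finset.sum_add_distrib, ← Finset.mul_sum, Finset.sum_const, nsmul_eq_mul]
    have := D.midSet_card j
    linarith

/-- Rounding inside one pair of parts. -/
lemma pair_round {j : ℕ} {b : Finset (Fin N)} (hb : D.Block j b) (P E : Fin d → ℝ)
    (hP : ∀ l, D.Hi j l → |P l| ≤ max (E l) (D.theta j l / 4) ∧
      |P l + ∑ k ∈ b, D.v k l| ≤ max (E l) (D.theta j l / 4))
    (U : Finset (Fin N)) (base : EuclideanSpace ℝ (Idx d)) (τ : ℝ) (hτ : τ ∈ Set.Icc (0 : ℝ) 1)
    (hU : ∀ c : Tix d, ‖cut (D.tF j c) (∑ x ∈ U, D.lift j x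
        - ((1 : ℝ) / 2 ^ D.g j) • ∑ x ∈ b \ D.singles j b, D.lift j x)‖
          ≤ 100 * Real.sqrt (D.tT j c))
    (hbase : ∀ c : Tix d, ‖cut (D.tF j c) (base + (1 / 2 : ℝ) • ∑ x ∈ U, D.lift j x
          - τ • ∑ x ∈ b, D.lift j x)‖
          ≤ 150 * Real.sqrt (D.tT j c) + 2000 * Real.sqrt (D.g j) + 12) :
    ∃ S, S ⊆ U ∧ ∀ Z : EuclideanSpace ℝ (Idx d), ‖Z‖ ≤ 1 →
      (∃ R, D.SmallLeak j R ∧ ∀ c : Tix d,
        ‖cut (D.tF j c) (base + ∑ x ∈ S, D.lift j x + Z - τ • ∑ x ∈ b, D.lift j x - R)‖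
          ≤ 200 * Real.sqrt (D.tT j c) + 2000 * Real.sqrt (D.g j) + 14) ∧
      ∃ e : Fin d → ℝ, (∀ l, 0 ≤ e l) ∧
        (∀ l, D.Hi j l → |P l + 4 * (base + ∑ x ∈ S, D.lift j x + Z) (cLin l)| ≤ max (E l) (e l)) ∧
        ∀ F ∈ D.exits j, ∑ l ∈ F, e l ^ 2 ≤ 5 * 10 ^ 6 * (F.card : ℝ) := by
  classical
  set Du := b \ D.singles j b with hDu
  set φ := D.lift j with hφ
  have hg := D.g_big j
  have hK : (0 : ℝ) < 2 ^ D.g j := by positivity
  have hKr : ((2 : ℝ) ^ D.g j) = tp (D.g j : ℝ) := (tp_natCast _).symm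
  have hsub := D.singles_sub j b
  -- second moments of the pair
  have hgram : ∀ i l, |D.gram U i l - if i = l then D.mean (j + 1) i else 0| ≤ D.devU j i l := by
    intro i l
    set W := D.w j i + D.w j l with hW
    have hW1 : 1 ≤ W := by
      have := D.g_le_w j i; have := D.w_pos j l; linarith
    have h1 := (abs_le_norm_cut _ _ (c := cQuad (i, l)) (by simp [tF])).trans (hU (Sum.inl (cQuad (i, l))))
    rw [show D.tT j (Sum.inl (cQuad (i, l))) = 100 * W from rfl, sqrt_hundred, PiLp.sub_apply,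
      PiLp.smul_apply, hφ, sum_lift_quad, sum_lift_quad, smul_eq_mul,
      show 1 / 4 * D.gram U i l - 1 / 2 ^ D.g j * (1 / 4 * D.gram Du i l)
        = 1 / 4 * (D.gram U i l - D.gram Du i l / 2 ^ D.g j) by ring,
      abs_mul, abs_of_pos (by norm_num : (0:ℝ) < 1 / 4)] at h1
    have h2 : |D.gram (D.singles j b) i l| / 2 ^ D.g j ≤ 1 := by
      rw [div_le_one hK]
      refine ((Finset.abs_sum_le_sum_abs _ _).trans ?_)
      refine (Finset.sum_le_sum (g := fun _ => (1 : ℝ)) fun k _ => ?_).trans ?_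
      · rw [abs_mul]
        have one : ∀ m, |D.v k m| ≤ 1 := fun m => (sq_le_one_iff_abs_le_one _).1
          (le_trans (Finset.single_le_sum (f := fun i => D.v k i ^ 2) (fun i _ => sq_nonneg _)
            (Finset.mem_univ m)) (D.hnorm k))
        exact mul_le_one₀ (one i) (abs_nonneg _) (one l)
      · rw [Finset.sum_const, nsmul_eq_mul, mul_one, hKr]
        exact (D.singles_card hb).trans (tp_le (by linarith))
    have hsplit : D.gram Du i l + D.gram (D.singles j b) i l = D.gram b i l :=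
      Finset.sum_sdiff hsub
    have h3 : |D.gram b i l / 2 ^ D.g j - if i = l then D.mean (j + 1) i else 0|
        ≤ W + tp (max (min (D.s (j + 1) i) (D.s (j + 1) l)) 0 / 2) := by
      have e : (if i = l then D.mean (j + 1) i else 0)
          = (if i = l then D.mean j i else 0) / 2 ^ D.g j := by
        split_ifs
        · rw [D.mean_succ]
        · simp
      rw [e, ← sub_div, abs_div, abs_of_pos hK, div_le_iff₀ hK]
      refine (hb.moment i l).trans ?_
      rw [dev, add_mul]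
      refine add_le_add ?_ ?_
      · rw [mul_comm (10 ^ 6 : ℝ), ← hW]
        refine mul_le_mul_of_nonneg_left ?_ (by linarith)
        rw [hKr]
        simpa using poly_le D.hB 0 (D.g_ge j) (c := 10 ^ 6) (by norm_num) (by norm_num)
          (y := (D.g j : ℝ)) (by linarith)
      · rw [hKr, ← tp_add]
        refine le_trans (mul_le_mul_of_nonneg_right (show (10:ℝ) ≤ tp 4 by
          rw [tp, show (4 : ℝ) = ((4 : ℕ) : ℝ) by norm_num, Real.rpow_natCast]; norm_num) (tp_nonneg _)) ?_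
        rw [← tp_add]
        refine tp_le ?_
        have hmm : max (min (D.s j i) (D.s j l)) 0
            ≤ max (min (D.s (j + 1) i) (D.s (j + 1) l)) 0 + D.g j := by
          rw [D.s_succ, D.s_succ, min_sub_sub_right]
          refine max_le ?_ ?_
          · have := le_max_left (min (D.s j i) (D.s j l) - D.g j) 0; linarith
          · have := le_max_right (min (D.s j i) (D.s j l) - D.g j) 0; linarith
        linarith
    simp only [devU]
    have h4 := sqrt_le_self hW1
    have h5 : D.gram U i l - (if i = l then D.mean (j + 1) i else 0)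
        = (D.gram U i l - D.gram Du i l / 2 ^ D.g j) - D.gram (D.singles j b) i l / 2 ^ D.g j
          + (D.gram b i l / 2 ^ D.g j - if i = l then D.mean (j + 1) i else 0) := by
      rw [← hsplit]; ring
    rw [h5]
    refine (abs_add_le _ _).trans ((add_le_add (abs_sub _ _) h3).trans ?_)
    rw [abs_div _ ((2 : ℝ) ^ D.g j), abs_of_pos hK]
    linarith
  have hdust : ∀ i, D.Lo (j + 1) i →
      ∑ k ∈ U, D.dv (j + 1) k i ^ 2 ≤ 5000 * D.w j i ^ 2 * D.eps (j + 1) i := by
    intro i hi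
    have h1 := (abs_le_norm_cut _ _ (c := cDs i) (by simp [tF])).trans (hU (Sum.inl (cDs i)))
    rw [show D.tT j (Sum.inl (cDs i)) = 100 * D.w j i from rfl, sqrt_hundred, PiLp.sub_apply,
      PiLp.smul_apply, hφ, sum_lift_ds, sum_lift_ds, smul_eq_mul] at h1
    set u := D.w j i * D.eps (j + 1) i with hu
    have hu0 : 0 < u := mul_pos (D.w_pos j i) (D.eps_pos _ i)
    set A := ∑ k ∈ U, D.dv (j + 1) k i ^ 2
    set A' := ∑ k ∈ Du, D.dv (j + 1) k i ^ 2
    have e : 1 / 4 * ((D.w j i)⁻¹ * A / D.eps (j + 1) i)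
        - 1 / 2 ^ D.g j * (1 / 4 * ((D.w j i)⁻¹ * A' / D.eps (j + 1) i))
        = (A - A' / 2 ^ D.g j) / (4 * u) := by
      have := (D.w_pos j i).ne'
      have := (D.eps_pos (j + 1) i).ne'
      rw [hu]; field_simp
    rw [e, abs_div, abs_of_pos (by linarith : 0 < 4 * u), div_le_iff₀ (by linarith)] at h1
    have h2 : A' / 2 ^ D.g j ≤ D.w j i ^ 2 * D.eps (j + 1) i :=
      le_trans (div_le_div_of_nonneg_right (Finset.sum_le_sum_of_subset_of_nonneg Finset.sdiff_subset
        fun k _ _ => sq_nonneg _) hK.le) (D.dust_mass hb hi)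
    have hw : 1 ≤ D.w j i := le_trans (by linarith) (D.g_le_w j i)
    have h3 := sqrt_le_self hw
    have h4 := le_abs_self (A - A' / 2 ^ D.g j)
    have h5 : 100 * (10 * Real.sqrt (D.w j i)) * (4 * u) ≤ 4000 * D.w j i ^ 2 * D.eps (j + 1) i := by
      calc _ ≤ 100 * (10 * D.w j i) * (4 * u) := mul_le_mul_of_nonneg_right (by linarith) (by linarith)
        _ = _ := by rw [hu]; ring
    have := mul_nonneg (sq_nonneg (D.w j i)) (D.eps_pos (j + 1) i).le
    linarith
  -- the correction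
  set Y : Fin d → ℝ := fun l => P l + 4 * (base + (1 / 2 : ℝ) • ∑ x ∈ U, φ x) (cLin l)
  set y : Fin d → ℝ := fun l => -max (-D.theta j l) (min (D.theta j l) (Y l))
  obtain ⟨ℓ, hℓ, hℓy, hℓm, hℓq, hℓd⟩ := D.leak j U hgram hdust y fun l _ => by
    have := D.theta_pos j l
    simp only [y, abs_neg]
    exact abs_le.2 ⟨le_max_left _ _, max_le (by linarith) (min_le_left _ _)⟩
  set R := ∑ x ∈ U, ℓ x • φ x with hR
  have hRc : ∀ c, R c = ∑ x ∈ U, ℓ x * φ x c := by
    intro c; simp [hR, WithLp.ofLp_sum, Finset.sum_apply]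
  obtain ⟨S, hS, hround⟩ := round_frac (J := Tix d ⊕ D.exits j) U φ (fun x _ => D.norm_lift_le j x)
    (Sum.elim (D.tF j) fun F => F.1.map ⟨cLin, fun a b h => by simpa using h⟩)
    (Sum.elim (D.tT j) fun F => 100 * (F.1.card : ℝ)) (by
      rw [Fintype.sum_sum_type]
      simp only [Sum.elim_inl, Sum.elim_inr, Finset.card_map]
      have h1 := D.tests_loss j
      have h2 := D.exits_loss j
      have h3 : tp (-(10 * (D.g j : ℝ))) ≤ 1 / 10 := by
        have := poly_le D.hB 0 (D.g_ge j) (c := 10) (by norm_num) (by norm_num)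
          (y := 10 * (D.g j : ℝ)) (by linarith)
        rw [pow_zero, mul_one] at this
        rw [tp_neg, one_div]
        exact inv_anti₀ (by norm_num) this
      linarith) (fun x => 1 / 2 + ℓ x) (fun x _ => by
      have := abs_le.1 (hℓ x)
      exact ⟨by linarith, by linarith⟩)
  have hx : ∑ x ∈ U, (1 / 2 + ℓ x) • φ x = (1 / 2 : ℝ) • ∑ x ∈ U, φ x + R := by
    rw [hR, Finset.smul_sum, ← Finset.sum_add_distrib]
    simp only [add_smul]
  rw [hx] at hround
  set r := ∑ x ∈ S, φ x - ((1 / 2 : ℝ) • ∑ x ∈ U, φ x + R) with hr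
  refine ⟨S, hS, fun Z hZ => ⟨⟨R, ⟨?_, ?_, ?_, ?_⟩, fun c => ?_⟩, ?_⟩⟩
  · intro i hi
    rw [hRc]; simp only [hφ, lift_lin, mul_left_comm (ℓ _) (1 / 4 : ℝ), ← Finset.mul_sum]
    rw [abs_mul, abs_of_pos (by norm_num : (0:ℝ) < 1 / 4)]
    exact mul_le_of_le_one_right (by norm_num) (hℓm i hi)
  · intro i l
    rw [hRc]; simp only [hφ, lift_quad, mul_left_comm (ℓ _) (1 / 4 : ℝ), ← Finset.mul_sum]
    rw [abs_mul, abs_of_pos (by norm_num : (0:ℝ) < 1 / 4)]
    exact mul_le_mul_of_nonneg_left (hℓq i l) (by norm_num)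
  · intro i hi
    have hpos : 0 < D.w j i * Real.sqrt (D.eps (j + 1) i) :=
      mul_pos (D.w_pos j i) (Real.sqrt_pos.2 (D.eps_pos _ i))
    have e : R (cDl i) = 1 / 4 * ((∑ x ∈ U, ℓ x * D.dv (j + 1) x i)
        / (D.w j i * Real.sqrt (D.eps (j + 1) i))) := by
      rw [hRc, Finset.sum_div, Finset.mul_sum]
      refine Finset.sum_congr rfl fun x _ => ?_
      rw [hφ, lift_dl]; field_simp
    rw [e, abs_mul, abs_of_pos (by norm_num : (0:ℝ) < 1 / 4), abs_div, abs_of_pos hpos]
    exact mul_le_of_le_one_right (by norm_num) ((div_le_one hpos).2 (hℓd i hi).1)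
  · intro i hi
    have hpos : 0 < D.w j i * D.eps (j + 1) i := mul_pos (D.w_pos j i) (D.eps_pos _ i)
    have e : R (cDs i) = 1 / 4 * ((∑ x ∈ U, ℓ x * D.dv (j + 1) x i ^ 2)
        / (D.w j i * D.eps (j + 1) i)) := by
      rw [hRc, Finset.sum_div, Finset.mul_sum]
      refine Finset.sum_congr rfl fun x _ => ?_
      rw [hφ, lift_ds]; field_simp
    rw [e, abs_mul, abs_of_pos (by norm_num : (0:ℝ) < 1 / 4), abs_div, abs_of_pos hpos]
    exact mul_le_of_le_one_right (by norm_num) ((div_le_one hpos).2 (hℓd i hi).2)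
  · have e : base + ∑ x ∈ S, φ x + Z - τ • ∑ x ∈ b, φ x - R
        = (base + (1 / 2 : ℝ) • ∑ x ∈ U, φ x - τ • ∑ x ∈ b, φ x) + r + Z := by
      rw [hr]; abel
    rw [e, map_add, map_add]
    refine (norm_add_le _ _).trans ?_
    refine (add_le_add ((norm_add_le _ _).trans (add_le_add (hbase c) (hround (Sum.inl c))))
      ((norm_cut_le _ _).trans hZ)).trans (le_of_eq ?_)
    simp only [Sum.elim_inl]; ring
  · set e : Fin d → ℝ := fun l => |4 * (r + Z) (cLin l)|
    refine ⟨e, fun l => abs_nonneg _, fun l hl => ?_, fun F hF => ?_⟩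
    · obtain ⟨hs1, hs2, hs3⟩ := D.hi_facts hl
      have hθ := D.theta_pos j l
      have hw : 1 ≤ D.w j l := le_trans (by linarith) (D.g_le_w j l)
      have hsq := sqrt_le_self hw
      have hsqg : Real.sqrt (D.g j) ≤ Real.sqrt (D.w j l) := Real.sqrt_le_sqrt (D.g_le_w j l)
      have hbig : 15000 * D.w j l ≤ D.theta j l / 4 := by
        have := poly_le D.hB 1 hs3 (c := 180000) (by norm_num) (by norm_num)
          (y := D.s (j + 1) l / 4) (by linarith)
        simp only [theta]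
        linarith
      have hel : e l ≤ D.theta j l / 4 := by
        have h1 := (abs_le_norm_cut _ r (c := cLin l) (by simp [tF])).trans (hround (Sum.inl (Sum.inl (cLin l))))
        simp only [Sum.elim_inl] at h1
        rw [show D.tT j (Sum.inl (cLin l)) = 100 * D.w j l from rfl, sqrt_hundred] at h1
        have h2 : |Z (cLin l)| ≤ 1 :=
          ((abs_le_norm_cut {cLin l} Z (Finset.mem_singleton_self _)).trans (norm_cut_le _ _)).trans hZ
        simp only [e, abs_mul, PiLp.add_apply]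
        rw [abs_of_pos (by norm_num : (0:ℝ) < 4)]
        have := abs_add_le (r (cLin l)) (Z (cLin l))
        linarith
      have hXY : P l + 4 * (base + ∑ x ∈ S, φ x + Z) (cLin l)
          = (Y l + y l) + 4 * (r + Z) (cLin l) := by
        have hy' : y l = 4 * R (cLin l) := by
          rw [hRc, ← hℓy l hl, Finset.mul_sum]
          refine Finset.sum_congr rfl fun x _ => ?_
          rw [hφ, lift_lin]; ring
        rw [show base + ∑ x ∈ S, φ x + Z = (base + (1 / 2 : ℝ) • ∑ x ∈ U, φ x) + R + (r + Z) by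
          rw [hr]; abel, hy']
        simp only [Y, PiLp.add_apply]
        ring
      rw [hXY]
      refine (abs_add_le _ _).trans ?_
      change |Y l + y l| + e l ≤ _
      rcases le_total |Y l| (D.theta j l) with hY | hY
      · have : Y l + y l = 0 := by
          obtain ⟨h1, h2⟩ := abs_le.1 hY
          simp only [y]; rw [min_eq_right h2, max_eq_right h1, add_neg_cancel]
        rw [this, abs_zero, zero_add]
        exact le_max_right _ _
      · have hcl : |Y l + y l| = |Y l| - D.theta j l := by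
          rcases le_total 0 (Y l) with h0 | h0
          · rw [abs_of_nonneg h0] at hY ⊢
            simp only [y]
            rw [min_eq_left hY, max_eq_right (by linarith)]
            rw [abs_of_nonneg (by linarith)]
            ring
          · rw [abs_of_nonpos h0] at hY ⊢
            simp only [y]
            rw [min_eq_right (by linarith), max_eq_left (by linarith)]
            rw [abs_of_nonpos (by linarith)]
            ring
        have hYb : |Y l| ≤ max (E l) (D.theta j l / 4) + D.theta j l / 4 := by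
          have h1 := (abs_le_norm_cut _ _ (c := cLin l) (by simp [tF])).trans (hbase (Sum.inl (cLin l)))
          rw [show D.tT j (Sum.inl (cLin l)) = 100 * D.w j l from rfl, sqrt_hundred, PiLp.sub_apply,
            PiLp.smul_apply, smul_eq_mul, hφ, sum_lift_lin] at h1
          obtain ⟨hP1, hP2⟩ := hP l hl
          set Q := P l + ∑ k ∈ b, D.v k l with hQ
          set δ := (base + (1 / 2 : ℝ) • ∑ x ∈ U, φ x) (cLin l) - τ * (1 / 4 * ∑ k ∈ b, D.v k l) with hδ
          have eY : Y l = ((1 - τ) * P l + τ * Q) + 4 * δ := by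
            simp only [Y, hδ, hQ]; ring
          have hconv : |(1 - τ) * P l + τ * Q| ≤ max (E l) (D.theta j l / 4) := by
            refine (abs_add_le _ _).trans ?_
            rw [abs_mul, abs_mul, abs_of_nonneg (by linarith [hτ.2] : 0 ≤ 1 - τ), abs_of_nonneg hτ.1]
            have := mul_le_mul_of_nonneg_left hP1 (by linarith [hτ.2] : 0 ≤ 1 - τ)
            have := mul_le_mul_of_nonneg_left hP2 hτ.1
            linarith
          rw [eY]
          refine (abs_add_le _ _).trans (add_le_add hconv ?_)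
          rw [abs_mul, abs_of_pos (by norm_num : (0:ℝ) < 4)]
          linarith
        refine le_trans ?_ (le_max_left _ _)
        rw [hcl]
        rcases le_total (E l) (D.theta j l / 4) with hE | hE
        · rw [max_eq_right hE] at hYb
          linarith
        · rw [max_eq_left hE] at hYb
          linarith
    · have hcard : 1 ≤ (F.card : ℝ) := by
        simp only [exits, Finset.mem_filter] at hF
        exact_mod_cast hF.2.1.card_pos
      set G := Real.sqrt (F.card : ℝ)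
      have hG : 1 ≤ G := Real.one_le_sqrt.2 hcard
      have h1 := hround (Sum.inr ⟨F, hF⟩)
      simp only [Sum.elim_inr] at h1
      rw [sqrt_hundred] at h1
      have h2 : ‖cut (F.map ⟨cLin, fun a b h => by simpa using h⟩) (r + Z)‖ ≤ 502 * G := by
        rw [map_add]
        refine (norm_add_le _ _).trans ?_
        have := (norm_cut_le (F.map ⟨cLin, fun a b h => by simpa using h⟩) Z).trans hZ
        linarith
      have h3 := pow_le_pow_left₀ (norm_nonneg _) h2 2
      rw [norm_cut_sq, Finset.sum_map, mul_pow, Real.sq_sqrt (Nat.cast_nonneg _)] at h3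
      change ∑ i ∈ F, (r + Z) (cLin i) ^ 2 ≤ _ at h3
      simp only [e, sq_abs, mul_pow, ← Finset.mul_sum]
      linarith

/-- A stage. -/
theorem refine_block {j : ℕ} {b : Finset (Fin N)} (hb : D.Block j b) (P E : Fin d → ℝ)
    (hP : ∀ l, D.Hi j l → |P l| ≤ max (E l) (D.theta j l / 4) ∧
      |P l + ∑ k ∈ b, D.v k l| ≤ max (E l) (D.theta j l / 4)) :
    ∃ pos : Fin N → ℕ, D.Refined j b P E pos := by
  classical
  obtain ⟨a, slot, ha, hslot, hinj, hU, hbase⟩ := D.base_parts hb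
  set g := D.g j with hgdef
  set Sg := D.singles j b
  set Du := b \ Sg
  set φ := D.lift j
  have hK : (1 : ℕ) ≤ 2 ^ g := Nat.one_le_two_pow
  have hτ : ∀ p : ℕ, p + 1 < 2 ^ g → ((p : ℝ) + 1) / 2 ^ g ∈ Set.Icc (0 : ℝ) 1 := by
    intro p hp
    refine ⟨by positivity, (div_le_one (by positivity)).2 ?_⟩
    exact_mod_cast hp.le
  have hex : ∀ p : ℕ, ∃ S : Finset (Fin N), p + 1 < 2 ^ g → (S ⊆ pairU Du a p ∧
      ∀ Z : EuclideanSpace ℝ (Idx d), ‖Z‖ ≤ 1 →
      (∃ R, D.SmallLeak j R ∧ ∀ c : Tix d,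
        ‖cut (D.tF j c) (part Du φ a (2 * p + 1) + part Sg φ slot p + ∑ x ∈ S, φ x + Z
          - (((p : ℝ) + 1) / 2 ^ g) • ∑ x ∈ b, φ x - R)‖
          ≤ 200 * Real.sqrt (D.tT j c) + 2000 * Real.sqrt (D.g j) + 14) ∧
      ∃ e : Fin d → ℝ, (∀ l, 0 ≤ e l) ∧
        (∀ l, D.Hi j l → |P l + 4 * (part Du φ a (2 * p + 1) + part Sg φ slot p
          + ∑ x ∈ S, φ x + Z) (cLin l)| ≤ max (E l) (e l)) ∧
        ∀ F ∈ D.exits j, ∑ l ∈ F, e l ^ 2 ≤ 5 * 10 ^ 6 * (F.card : ℝ)) := by
    intro p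
    by_cases hp : p + 1 < 2 ^ g
    · obtain ⟨S, h1, h2⟩ := D.pair_round hb P E hP (pairU Du a p)
        (part Du φ a (2 * p + 1) + part Sg φ slot p) _ (hτ p hp) (hU p hp) (hbase p hp)
      exact ⟨S, fun _ => ⟨h1, h2⟩⟩
    · exact ⟨∅, fun h => absurd h hp⟩
  choose Sp hSp using hex
  set pos : Fin N → ℕ := fun x => if x ∈ Sg then 2 * slot x + 1 else
    if a x = 0 then 0 else if 2 * 2 ^ g ≤ a x + 1 then 2 * 2 ^ g - 2 else
    if x ∈ Sp ((a x - 1) / 2) then 2 * ((a x - 1) / 2) else 2 * ((a x - 1) / 2) + 2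
  have hsg : ∀ x, x ∈ Sg → pos x = 2 * slot x + 1 := fun x h => if_pos h
  have hlt : ∀ x ∈ b, pos x + 1 < 2 * 2 ^ g := by
    intro x hx
    by_cases h : x ∈ Sg
    · have := hslot x h; rw [hsg x h]; omega
    · have := ha x (Finset.mem_sdiff.2 ⟨hx, h⟩)
      simp only [pos, h, if_false]
      split_ifs <;> omega
  have hparity : ∀ x ∈ b, (pos x % 2 = 1 ↔ x ∈ Sg) := by
    intro x hx
    by_cases h : x ∈ Sg
    · rw [hsg x h]; exact ⟨fun _ => h, fun _ => by omega⟩
    · refine ⟨fun h' => ?_, fun h' => absurd h' h⟩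
      simp only [pos, h, if_false] at h'
      split_ifs at h' <;> omega
  -- the sum before an interior boundary
  have hsum : ∀ p : ℕ, p + 1 < 2 ^ g → ∀ ee, ee ≤ 1 →
      ∑ x ∈ upto b pos (2 * p + 1 + ee), φ x
        = part Du φ a (2 * p + 1) + part Sg φ slot p + ∑ x ∈ Sp p, φ x
          + ∑ x ∈ Sg.filter (fun x => slot x = p ∧ ee = 1), φ x := by
    intro p hp ee hee
    have hs1 : ∑ x ∈ upto b pos (2 * p + 1 + ee), φ x
        = ∑ x ∈ Du.filter (fun x => pos x < 2 * p + 1 + ee), φ x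
          + ∑ x ∈ Sg.filter (fun x => pos x < 2 * p + 1 + ee), φ x := by
      simp only [upto, Finset.sum_filter]
      exact (Finset.sum_sdiff (D.singles_sub j b)).symm
    have hs2 : Du.filter (fun x => pos x < 2 * p + 1 + ee)
        = Du.filter (fun x => a x < 2 * p + 1) ∪ Sp p := by
      ext x
      have hsub := (hSp p hp).1
      by_cases hx : x ∈ Du
      · have hxb := (Finset.mem_sdiff.1 hx)
        have hax := ha x hx
        have hSpx : x ∈ Sp p → a x = 2 * p + 1 ∨ a x = 2 * p + 2 := fun h =>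
          (Finset.mem_filter.1 (hsub h)).2
        simp only [Finset.mem_filter, Finset.mem_union, hx, true_and, pos, hxb.2, if_false]
        by_cases hp' : (a x - 1) / 2 = p
        · rw [hp']
          split_ifs with h1 h2 h3
          · omega
          · omega
          · exact ⟨fun _ => Or.inr h3, fun _ => by omega⟩
          · exact ⟨fun h => by omega, fun h => h.elim (by omega) (fun h => absurd h h3)⟩
        · have hns : x ∉ Sp p := fun h => hp' (by rcases hSpx h with h | h <;> omega)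
          simp only [hns, or_false]
          split_ifs <;> omega
      · simp only [Finset.mem_filter, Finset.mem_union, hx, false_and, false_or, false_iff]
        exact fun h => hx (Finset.mem_filter.1 (hsub h)).1
    have hdis : Disjoint (Du.filter (fun x => a x < 2 * p + 1)) (Sp p) := by
      refine Finset.disjoint_left.2 fun x h1 h2 => ?_
      have := (Finset.mem_filter.1 ((hSp p hp).1 h2)).2
      have := (Finset.mem_filter.1 h1).2
      omega
    have hs3 : Sg.filter (fun x => pos x < 2 * p + 1 + ee)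
        = Sg.filter (fun x => slot x < p) ∪ Sg.filter (fun x => slot x = p ∧ ee = 1) := by
      ext x
      simp only [Finset.mem_filter, Finset.mem_union]
      constructor
      · rintro ⟨hx, h⟩
        rw [hsg x hx] at h
        rcases lt_or_ge (slot x) p with h' | h'
        · exact Or.inl ⟨hx, h'⟩
        · exact Or.inr ⟨hx, by omega, by omega⟩
      · rintro (⟨hx, h⟩ | ⟨hx, h, h'⟩) <;> refine ⟨hx, ?_⟩ <;> rw [hsg x hx] <;> omega
    have hdis3 : Disjoint (Sg.filter (fun x => slot x < p))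
        (Sg.filter (fun x => slot x = p ∧ ee = 1)) := by
      refine Finset.disjoint_left.2 fun x h1 h2 => ?_
      simp only [Finset.mem_filter] at h1 h2
      omega
    rw [hs1, hs2, hs3, Finset.sum_union hdis, Finset.sum_union hdis3]
    simp only [part]
    abel
  have hone : ∀ p ee, ‖∑ x ∈ Sg.filter (fun x => slot x = p ∧ ee = 1), φ x‖ ≤ 1 := by
    intro p ee
    refine (D.norm_sum_lift j _).trans ?_
    exact_mod_cast Finset.card_le_one.2 fun x hx y hy => by
      simp only [Finset.mem_filter] at hx hy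
      exact hinj hx.1 hy.1 (hx.2.1.trans hy.2.1.symm)
  -- boundaries
  have hbd : ∀ q, q < 2 * 2 ^ g → ∃ R : EuclideanSpace ℝ (Idx d), D.SmallLeak j R ∧ ∀ c : Tix d,
      ‖cut (D.tF j c) (∑ x ∈ upto b pos q, φ x - D.share j q • ∑ x ∈ b, φ x - R)‖
        ≤ 200 * Real.sqrt (D.tT j c) + 2000 * Real.sqrt (D.g j) + 14 := by
    intro q hq
    rcases Nat.eq_zero_or_pos q with rfl | hq0
    · refine ⟨0, D.smallLeak_zero j, fun c => ?_⟩
      simp [upto, share]
      positivity
    rcases eq_or_lt_of_le (Nat.succ_le_of_lt hq) with hq1 | hq1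
    · refine ⟨0, D.smallLeak_zero j, fun c => ?_⟩
      have e1 : upto b pos q = b := Finset.filter_true_of_mem fun x hx => by
        have := hlt x hx; omega
      have e2 : D.share j q = 1 := by
        rw [share, ← hgdef, show (q + 1) / 2 = 2 ^ g by omega]; push_cast
        exact div_self (by positivity)
      simp only [e1, e2, one_smul, sub_self, map_zero, norm_zero]
      positivity
    · obtain ⟨p, ee, hee, rfl⟩ : ∃ p ee, ee ≤ 1 ∧ q = 2 * p + 1 + ee :=
        ⟨(q - 1) / 2, (q - 1) % 2, by omega, by omega⟩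
      have hp : p + 1 < 2 ^ g := by omega
      obtain ⟨hR, -⟩ := (hSp p hp).2 _ (hone p ee)
      rw [hsum p hp ee hee]
      have e2 : D.share j (2 * p + 1 + ee) = ((p : ℝ) + 1) / 2 ^ g := by
        rw [share, ← hgdef, show (2 * p + 1 + ee + 1) / 2 = p + 1 by omega]; push_cast; rfl
      rw [e2]
      exact hR
  refine ⟨pos, ⟨hlt, fun x hx y hy hodd he => ?_, fun x hx hev i hi => ?_,
    fun q hq => (D.convert_bounds j _ b _ (hbd q hq)).1,
    fun q hq => (D.convert_bounds j _ b _ (hbd q hq)).2.1,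
    fun q hq => (D.convert_bounds j _ b _ (hbd q hq)).2.2, fun q hq0 hq => ?_⟩⟩
  · have hxs := (hparity x hx).1 hodd
    have hys := (hparity y hy).1 (he ▸ hodd)
    rw [hsg x hxs, hsg y hys] at he
    exact hinj hxs hys (by omega)
  · have hns : x ∉ Sg := fun h => by have := (hparity x hx).2 h; omega
    simp only [Sg, singles, Finset.mem_filter, hx, true_and, not_exists, not_and, not_lt] at hns
    exact hns i hi
  · rw [← hgdef] at hq
    obtain ⟨p, ee, hee, rfl⟩ : ∃ p ee, ee ≤ 1 ∧ q = 2 * p + 1 + ee :=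
      ⟨(q - 1) / 2, (q - 1) % 2, by omega, by omega⟩
    have hp : p + 1 < 2 ^ g := by omega
    obtain ⟨-, e, he0, he, heF⟩ := (hSp p hp).2 _ (hone p ee)
    refine ⟨e, he0, fun l hl => ?_, heF⟩
    have h := he l hl
    rw [← hsum p hp ee hee] at h
    simp only [φ, sum_lift_lin] at h
    rwa [← mul_assoc, show (4 : ℝ) * (1 / 4) = 1 by norm_num, one_mul] at h

end Sys

end Vale.Agent.P262
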