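import Mathlib
import Vale.Agent.P262.Stage

/-!
The invariant carried by a block, its consequences for the two ends of the block, and its
normalisation before a stage.
-/

namespace Vale.Agent.P262

namespace Sys

variable {d N : ℕ} (D : Sys d N)

open Classical in
/-- The entries of a block that are not dust in a low coordinate. -/
noncomputable def heavy (j : ℕ) (b : Finset (Fin N)) (i : Fin d) : Finset (Fin N) :=
  if D.Lo j i then b.filter fun k => D.eps j i < D.v k i ^ 2 else ∅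

open Classical in
/-- Room kept for the dust of a low coordinate. -/
noncomputable def slack (j : ℕ) (i : Fin d) : ℝ := if D.Lo j i then tp (D.s j i / 128) else 0

lemma slack_nonneg (j : ℕ) (i : Fin d) : 0 ≤ D.slack j i := by
  unfold slack; split_ifs
  · exact tp_nonneg _
  · exact le_rfl

lemma slack_le_one (j : ℕ) (i : Fin d) : D.slack j i ≤ 1 := by
  unfold slack; split_ifs with h
  · refine tp_le_one ?_
    simp only [Lo] at h
    have := D.g_big j
    linarith
  · exact zero_le_one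

open Classical in
/-- The weight of a coordinate which is not high. -/
noncomputable def wt (j : ℕ) (i : Fin d) : ℝ :=
  1 / 2 * (1 / 4) ^ ((Finset.range j).filter fun k => i ∈ D.midSet k).card

lemma wt_nonneg (j : ℕ) (i : Fin d) : 0 ≤ D.wt j i := by unfold wt; positivity

lemma wt_le_half (j : ℕ) (i : Fin d) : D.wt j i ≤ 1 / 2 :=
  mul_le_of_le_one_right (by norm_num) (pow_le_one₀ (by norm_num) (by norm_num))

lemma wt_ge (j : ℕ) (i : Fin d) : 1 / 2097152 ≤ D.wt j i := by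
  classical
  have h : ((Finset.range j).filter fun k => i ∈ D.midSet k).card ≤ 10 := by
    have h := near_stages (M := 1000) (B := D.B) (by norm_num) (le_trans (by norm_num) D.hB.1) D.psi j i
    simpa only [midSet_eq] using h
  refine le_trans ?_ (mul_le_mul_of_nonneg_left
    (pow_le_pow_of_le_one (by norm_num) (by norm_num) h) (by norm_num))
  norm_num

lemma wt_succ_mid (j : ℕ) {i : Fin d} (hi : i ∈ D.midSet j) : D.wt (j + 1) i = D.wt j i / 4 := by
  classical
  simp only [wt]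
  rw [Finset.range_add_one, Finset.filter_insert, if_pos hi, Finset.card_insert_of_notMem (by simp),
    pow_succ]
  ring

lemma wt_succ_not (j : ℕ) {i : Fin d} (hi : i ∉ D.midSet j) : D.wt (j + 1) i = D.wt j i := by
  classical
  simp only [wt]
  rw [Finset.range_add_one, Finset.filter_insert, if_neg hi]

lemma wt_hi {j : ℕ} {i : Fin d} (hi : D.Hi j i) : D.wt (j + 1) i = 1 / 2 := by
  classical
  simp only [wt]
  rw [Finset.filter_false_of_mem, Finset.card_empty, pow_zero, mul_one]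
  intro k hk
  simp only [midSet, Finset.mem_filter, not_and, not_not]
  intro _ h
  exact absurd (D.hi_anti (Nat.le_of_lt_succ (Finset.mem_range.1 hk)) hi) h

/-- The chain condition on the error at one end of a block. -/
def Chain (j : ℕ) (e : Fin d → ℝ) (γ : ℝ) : Prop :=
  ∀ k, j ≤ k → ∑ l ∈ D.hiSet j \ D.hiSet k, e l ^ 2
    ≤ γ + 5 * 10 ^ 6 * ((D.hiSet j \ D.hiSet k).card : ℝ)

open Classical in
/-- The invariant of a block that starts at partial sum `P`. -/
def Inv (j : ℕ) (b : Finset (Fin N)) (P : Fin d → ℝ) (S : ℝ) : Prop :=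
  ∃ Φ E eP eQ : Fin d → ℝ, ∃ γP γQ : ℝ,
    (∀ i, 0 ≤ E i ∧ 0 ≤ eP i ∧ 0 ≤ eQ i) ∧ 0 ≤ γP ∧ 0 ≤ γQ ∧
    (∀ i, ¬ D.Hi j i → ∀ X, X ⊆ D.heavy j b i →
      |P i + ∑ k ∈ X, D.v k i| + D.slack j i ≤ Φ i ∧
      |P i + ∑ k ∈ b, D.v k i - ∑ k ∈ X, D.v k i| + D.slack j i ≤ Φ i) ∧
    (∀ l, D.Hi j l → |P l| ≤ max (E l) (eP l) ∧ |P l + ∑ k ∈ b, D.v k l| ≤ max (E l) (eQ l)) ∧
    D.Chain j eP γP ∧ D.Chain j eQ γQ ∧
    ∑ i ∈ (D.hiSet j)ᶜ, D.wt j i * Φ i ^ 2 + 1 / 2 * ∑ l ∈ D.hiSet j, E l ^ 2 + γP + γQ ≤ S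

lemma mem_hiSet {j : ℕ} {i : Fin d} : i ∈ D.hiSet j ↔ D.Hi j i := by simp [hiSet]

lemma gap_le (j : ℕ) : (D.g j : ℝ) ≤ D.B + 4 * d := by
  have h : D.g j ≤ D.B + 4 * d := by
    refine Nat.div_le_of_le_mul ?_
    refine max_le ?_ (Finset.sup_le fun σ _ => ?_)
    · rw [mul_add, mul_comm]; exact Nat.le_add_right _ _
    · have := cnt_le_d D.psi (lvl 1000 D.B D.psi j) σ
      omega
  exact_mod_cast h

/-- Eventually everything is low and every nonzero entry is heavy. -/
lemma exists_last : ∃ J, ∀ j, J ≤ j → ∀ i, D.Lo j i ∧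
    ∀ k, D.v k i ≠ 0 → D.eps j i < D.v k i ^ 2 := by
  classical
  have hs : ∀ (j : ℕ) i, D.s j i ≤ (D.psi i : ℝ) - j := by
    intro j i
    have h := le_lvl (B := D.B) (show 100 ≤ 1000 by norm_num) D.psi j
    have h2 : (j : ℤ) ≤ D.t j := by
      refine le_trans ?_ h
      refine le_mul_of_one_le_right (by positivity) ?_
      exact_mod_cast le_trans (by norm_num) D.hB.1
    have h3 : (j : ℝ) ≤ ((D.t j : ℤ) : ℝ) := by exact_mod_cast h2
    simp only [s]; push_cast; linarith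
  have hn : ∀ i k, ∃ n : ℕ, D.v k i ≠ 0 → (1 / 2 : ℝ) ^ n < D.v k i ^ 2 := by
    intro i k
    by_cases h : D.v k i = 0
    · exact ⟨0, fun h' => absurd h h'⟩
    · obtain ⟨n, hn⟩ := exists_pow_lt_of_lt_one (show (0:ℝ) < D.v k i ^ 2 by positivity)
        (show (1 / 2 : ℝ) < 1 by norm_num)
      exact ⟨n, fun _ => hn⟩
  choose n hn using hn
  set L := Finset.univ.sup fun i => (D.psi i).natAbs
  set n0 := Finset.univ.sup fun p : Fin d × Fin N => n p.1 p.2
  refine ⟨L + 2 * (D.B + 4 * d) + 16 * n0 + 1, fun j hj i => ?_⟩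
  have hψ : (D.psi i : ℝ) ≤ L := by
    have h : (D.psi i).natAbs ≤ L := Finset.le_sup (f := fun i => (D.psi i).natAbs) (Finset.mem_univ i)
    have h2 : D.psi i ≤ (L : ℤ) := by omega
    exact_mod_cast h2
  have hj' : (L : ℝ) + 2 * (D.B + 4 * d) + 16 * n0 + 1 ≤ j := by exact_mod_cast hj
  have h1 := hs j i
  have h2 := D.gap_le j
  have hn0 : (0 : ℝ) ≤ n0 := Nat.cast_nonneg _
  have hB0 : (0 : ℝ) ≤ D.B + 4 * d := by positivity
  refine ⟨?_, fun k hk => ?_⟩
  · simp only [Lo]; linarith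
  · refine lt_of_le_of_lt ?_ (hn i k hk)
    have hnk : (n i k : ℝ) ≤ n0 := by
      exact_mod_cast Finset.le_sup (f := fun p : Fin d × Fin N => n p.1 p.2) (Finset.mem_univ (i, k))
    rw [eps, one_div, inv_pow, ← tp_natCast, ← tp_neg]
    exact tp_le (by linarith)

/-- The invariant bounds both ends of the block. -/
lemma inv_bound {j : ℕ} {b : Finset (Fin N)} {P : Fin d → ℝ} {S : ℝ} (h : D.Inv j b P S) :
    ∑ i, P i ^ 2 ≤ 2097152 * S + 5 * 10 ^ 6 * d ∧
    ∑ i, (P i + ∑ k ∈ b, D.v k i) ^ 2 ≤ 2097152 * S + 5 * 10 ^ 6 * d := by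
  classical
  obtain ⟨Φ, E, eP, eQ, γP, γQ, hnn, hγP, hγQ, hlow, hhigh, hcP, hcQ, hS⟩ := h
  obtain ⟨J, hJ⟩ := D.exists_last
  have hempty : D.hiSet (max j J) = ∅ := by
    refine Finset.filter_false_of_mem fun i _ hi => ?_
    exact D.hi_not_lo hi (hJ _ (le_max_right _ _) i).1
  have key : ∀ (X : Fin d → ℝ) (e : Fin d → ℝ) (γ : ℝ), D.Chain j e γ →
      γ ≤ γP + γQ → (∀ i, ¬ D.Hi j i → |X i| ≤ Φ i) →
      (∀ l, D.Hi j l → |X l| ≤ max (E l) (e l)) →
      ∑ i, X i ^ 2 ≤ 2097152 * S + 5 * 10 ^ 6 * d := by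
    intro X e γ hc hγ hl hh
    rw [← Finset.sum_compl_add_sum (D.hiSet j)]
    have h1 : ∑ i ∈ (D.hiSet j)ᶜ, X i ^ 2 ≤ 2097152 * ∑ i ∈ (D.hiSet j)ᶜ, D.wt j i * Φ i ^ 2 := by
      rw [Finset.mul_sum]
      refine Finset.sum_le_sum fun i hi => ?_
      rw [Finset.mem_compl, mem_hiSet] at hi
      have h := hl i hi
      calc X i ^ 2 = |X i| ^ 2 := (sq_abs _).symm
        _ ≤ Φ i ^ 2 := pow_le_pow_left₀ (abs_nonneg _) h 2
        _ = 1 * Φ i ^ 2 := (one_mul _).symm
        _ ≤ (2097152 * D.wt j i) * Φ i ^ 2 :=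
            mul_le_mul_of_nonneg_right (by have := D.wt_ge j i; linarith) (sq_nonneg _)
        _ = _ := by ring
    have h2 : ∑ l ∈ D.hiSet j, X l ^ 2 ≤ ∑ l ∈ D.hiSet j, E l ^ 2 + ∑ l ∈ D.hiSet j, e l ^ 2 := by
      rw [← Finset.sum_add_distrib]
      refine Finset.sum_le_sum fun l hl' => ?_
      have h := hh l (D.mem_hiSet.1 hl')
      rw [← sq_abs]
      rcases le_max_iff.1 h with h' | h'
      · exact le_add_of_le_of_nonneg (pow_le_pow_left₀ (abs_nonneg _) h' 2) (sq_nonneg _)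
      · exact le_add_of_nonneg_of_le (sq_nonneg _) (pow_le_pow_left₀ (abs_nonneg _) h' 2)
    have h3 := hc (max j J) (le_max_left _ _)
    rw [hempty, Finset.sdiff_empty] at h3
    have h4 : ((D.hiSet j).card : ℝ) ≤ d := by
      exact_mod_cast (Finset.card_le_univ _).trans (by simp)
    have h5 : 0 ≤ ∑ l ∈ D.hiSet j, E l ^ 2 := Finset.sum_nonneg fun l _ => sq_nonneg _
    linarith
  have hl' : ∀ i, ¬ D.Hi j i → |P i| ≤ Φ i ∧ |P i + ∑ k ∈ b, D.v k i| ≤ Φ i := by
    intro i hi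
    obtain ⟨h1, h2⟩ := hlow i hi ∅ (Finset.empty_subset _)
    simp only [Finset.sum_empty, add_zero, sub_zero] at h1 h2
    have := D.slack_nonneg j i
    exact ⟨by linarith, by linarith⟩
  exact ⟨key P eP γP hcP (by linarith) (fun i hi => (hl' i hi).1) fun l hl => (hhigh l hl).1,
    key _ eQ γQ hcQ (by linarith) (fun i hi => (hl' i hi).2) fun l hl => (hhigh l hl).2⟩

open Classical in
/-- Large end errors are moved away at the cost of half of their squares. -/
lemma trim {j : ℕ} {e : Fin d → ℝ} {γ : ℝ} (hγ : 0 ≤ γ) (hc : D.Chain j e γ) :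
    ∃ γ', 0 ≤ γ' ∧
      γ' + 1 / 2 * ∑ l ∈ D.hiSet j, (if D.theta j l / 4 < e l then e l ^ 2 else 0) ≤ γ ∧
      D.Chain j (fun l => if D.theta j l / 4 < e l then 0 else e l) γ' := by
  set Bg := (D.hiSet j).filter fun l => D.theta j l / 4 < e l with hBg
  rw [← Finset.sum_filter, ← hBg]
  set T := ∑ l ∈ Bg, e l ^ 2 with hT
  set e' : Fin d → ℝ := fun l => if D.theta j l / 4 < e l then 0 else e l with he'
  rcases Bg.eq_empty_or_nonempty with hb0 | hb0
  · refine ⟨γ, hγ, by simp [hT, hb0], fun k hk => le_trans (le_of_eq ?_) (hc k hk)⟩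
    refine Finset.sum_congr rfl fun l hl => ?_
    have : l ∉ Bg := by simp [hb0]
    simp only [Bg, Finset.mem_filter, (Finset.mem_sdiff.1 hl).1, true_and] at this
    simp [he', this]
  have main : ∀ k, j ≤ k → ∑ l ∈ D.hiSet j \ D.hiSet k, e' l ^ 2 + 1 / 2 * T
      ≤ γ + 5 * 10 ^ 6 * ((D.hiSet j \ D.hiSet k).card : ℝ) := by
    intro k hk
    have hT0 : 0 ≤ T := Finset.sum_nonneg fun l _ => sq_nonneg _
    obtain ⟨J, hJ⟩ := D.exists_last
    have hex : ∃ n, k ≤ n ∧ Disjoint Bg (D.hiSet n) := by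
      refine ⟨max k J, le_max_left _ _, Finset.disjoint_left.2 fun l _ hl => ?_⟩
      exact D.hi_not_lo (D.mem_hiSet.1 hl) (hJ _ (le_max_right _ _) l).1
    set n := Nat.find hex
    obtain ⟨hkn, hdis⟩ := Nat.find_spec hex
    have hsum : ∑ l ∈ D.hiSet j \ D.hiSet k, e' l ^ 2 + T ≤ ∑ l ∈ D.hiSet j \ D.hiSet n, e l ^ 2 := by
      have h1 : ∑ l ∈ D.hiSet j \ D.hiSet k, e' l ^ 2 ≤ ∑ l ∈ D.hiSet j \ D.hiSet n, e' l ^ 2 :=
        Finset.sum_le_sum_of_subset_of_nonneg
          (Finset.sdiff_subset_sdiff le_rfl (D.hiSet_anti hkn)) fun l _ _ => sq_nonneg _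
      have h2 : T = ∑ l ∈ D.hiSet j \ D.hiSet n, if D.theta j l / 4 < e l then e l ^ 2 else 0 := by
        rw [← Finset.sum_filter, hT]
        refine Finset.sum_congr ?_ fun _ _ => rfl
        ext l
        simp only [Bg, Finset.mem_filter, Finset.mem_sdiff]
        refine ⟨fun h => ⟨⟨h.1, fun hn' => ?_⟩, h.2⟩, fun h => ⟨h.1.1, h.2⟩⟩
        exact Finset.disjoint_left.1 hdis (Finset.mem_filter.2 h) hn'
      have h3 : ∑ l ∈ D.hiSet j \ D.hiSet n, e l ^ 2
          = ∑ l ∈ D.hiSet j \ D.hiSet n, e' l ^ 2 + T := by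
        rw [h2, ← Finset.sum_add_distrib]
        refine Finset.sum_congr rfl fun l _ => ?_
        simp only [he']; split_ifs <;> ring
      linarith
    have hcn := hc n (le_trans hk hkn)
    rcases eq_or_lt_of_le hkn with heq | hlt
    · have e : n = k := heq.symm
      rw [e] at hsum hcn
      linarith
    · have hprev := Nat.find_min hex (m := n - 1) (by omega)
      simp only [not_and] at hprev
      have hprev' := hprev (by omega)
      rw [Finset.not_disjoint_iff] at hprev'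
      obtain ⟨l, hlB, hln⟩ := hprev'
      have hlj : D.Hi j l := D.mem_hiSet.1 (Finset.mem_filter.1 hlB).1
      have hlm : D.Hi (n - 1) l := D.mem_hiSet.1 hln
      have hcard : ((D.hiSet j \ D.hiSet n).card : ℝ) ≤ D.s j l := by
        set σ : ℕ := (2 * (D.psi l - D.t j)).natAbs
        have hsub : D.hiSet j \ D.hiSet n
            ⊆ Finset.univ.filter fun i => (D.psi i - D.t j).natAbs ≤ σ := by
          intro i hi
          simp only [Finset.mem_sdiff, mem_hiSet] at hi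
          obtain ⟨hi1, hi2⟩ := hi
          rw [hi_iff] at hi1 hi2
          rw [hi_iff] at hlj hlm
          have hn1 : n - 1 + 1 = n := by omega
          have hl1 := lvl_succ (B := D.B) (show 100 ≤ 1000 by norm_num) D.psi (n - 1)
          have hg1 := (gap_step (M := 1000) (B := D.B) (by norm_num) (le_trans (by norm_num) D.hB.1)
            D.psi (n - 1)).1
          have hmono := lvl_mono (B := D.B) (show 100 ≤ 1000 by norm_num) D.psi
            (show j ≤ n - 1 by omega)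
          rw [hn1] at hl1 hg1
          simp only [High, not_le] at hi1 hi2 hlj hlm
          refine Finset.mem_filter.2 ⟨Finset.mem_univ _, ?_⟩
          simp only [σ, t]
          omega
        have h1 := cnt_gap (B := D.B) (show 100 ≤ 1000 by norm_num) D.psi j σ
        have h2 : 4 * 1000 * (D.hiSet j \ D.hiSet n).card ≤ 1000 * (D.g j + 1) + σ :=
          le_trans (Nat.mul_le_mul_left _ (Finset.card_le_card hsub)) h1
        have h3 : (4 * 1000 : ℝ) * ((D.hiSet j \ D.hiSet n).card : ℝ)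
            ≤ 1000 * ((D.g j : ℝ) + 1) + σ := by exact_mod_cast h2
        have hσ : (σ : ℝ) = 2 * D.s j l := by
          have h0 : (0 : ℤ) ≤ D.psi l - D.t j := by
            simp only [Hi, s] at hlj
            have hg := D.g_big j
            exact_mod_cast (show (0:ℝ) ≤ ((D.psi l - D.t j : ℤ) : ℝ) by linarith)
          simp only [σ, s, Nat.cast_natAbs]
          rw [abs_of_nonneg (by linarith)]
          push_cast; ring
        simp only [Hi] at hlj
        have := D.g_big j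
        linarith
      have hel : 5 * 10 ^ 6 * D.s j l ≤ 1 / 2 * e l ^ 2 := by
        obtain ⟨h1, h2, h3⟩ := D.hi_facts hlj
        have hbig := (Finset.mem_filter.1 hlB).2
        have h4 := pow_le_pow_left₀ (div_nonneg (D.theta_pos j l).le (by norm_num)) hbig.le 2
        have h5 : D.theta j l ^ 2 = tp (D.s (j + 1) l / 2) := by rw [theta, tp_sq]; ring_nf
        have h6 := poly_le D.hB 1 h3 (c := 10 ^ 9) (by norm_num) (by norm_num)
          (y := D.s (j + 1) l / 2) (by linarith [D.g_big j])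
        rw [D.s_succ] at h1 h2 h3 h6 h5
        rw [div_pow, h5] at h4
        linarith
      have hle : e l ^ 2 ≤ T := Finset.single_le_sum (f := fun l => e l ^ 2) (fun l _ => sq_nonneg _) hlB
      have hc0 : 0 ≤ 5 * 10 ^ 6 * ((D.hiSet j \ D.hiSet k).card : ℝ) := by positivity
      linarith
  refine ⟨γ - 1 / 2 * T, ?_, by linarith, fun k hk => by have := main k hk; linarith⟩
  have h := main j le_rfl
  simp only [Finset.sdiff_self, Finset.sum_empty, Finset.card_empty, Nat.cast_zero, mul_zero] at h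
  linarith

open Classical in
/-- Before a stage the ends of a block can be assumed to have small errors. -/
lemma normalise {j : ℕ} {b : Finset (Fin N)} {P : Fin d → ℝ} {S : ℝ} (h : D.Inv j b P S) :
    ∃ Φ E eP eQ : Fin d → ℝ, ∃ γP γQ : ℝ,
    (∀ i, 0 ≤ E i ∧ 0 ≤ eP i ∧ 0 ≤ eQ i) ∧ 0 ≤ γP ∧ 0 ≤ γQ ∧
    (∀ i, ¬ D.Hi j i → ∀ X, X ⊆ D.heavy j b i →
      |P i + ∑ k ∈ X, D.v k i| + D.slack j i ≤ Φ i ∧
      |P i + ∑ k ∈ b, D.v k i - ∑ k ∈ X, D.v k i| + D.slack j i ≤ Φ i) ∧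
    (∀ l, D.Hi j l → |P l| ≤ max (E l) (eP l) ∧ |P l + ∑ k ∈ b, D.v k l| ≤ max (E l) (eQ l)) ∧
    (∀ l, eP l ≤ D.theta j l / 4 ∧ eQ l ≤ D.theta j l / 4) ∧
    D.Chain j eP γP ∧ D.Chain j eQ γQ ∧
    ∑ i ∈ (D.hiSet j)ᶜ, D.wt j i * Φ i ^ 2 + 1 / 2 * ∑ l ∈ D.hiSet j, E l ^ 2 + γP + γQ ≤ S := by
  obtain ⟨Φ, E, eP, eQ, γP, γQ, hnn, hγP, hγQ, hlow, hhigh, hcP, hcQ, hS⟩ := h
  obtain ⟨γP', hP0, hP1, hP2⟩ := D.trim hγP hcP
  obtain ⟨γQ', hQ0, hQ1, hQ2⟩ := D.trim hγQ hcQ
  set bP : Fin d → ℝ := fun l => if D.theta j l / 4 < eP l then eP l ^ 2 else 0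
  set bQ : Fin d → ℝ := fun l => if D.theta j l / 4 < eQ l then eQ l ^ 2 else 0
  have hb : ∀ l, 0 ≤ bP l ∧ 0 ≤ bQ l := fun l => by
    constructor <;> simp only [bP, bQ] <;> split_ifs <;> positivity
  set E' : Fin d → ℝ := fun l => Real.sqrt (E l ^ 2 + bP l + bQ l)
  have hE : ∀ l, E l ≤ E' l := fun l => Real.le_sqrt_of_sq_le (by linarith [hb l])
  refine ⟨Φ, E', _, _, γP', γQ', fun i => ⟨Real.sqrt_nonneg _, ?_, ?_⟩, hP0, hQ0, hlow,
    fun l hl => ⟨?_, ?_⟩, fun l => ⟨?_, ?_⟩, hP2, hQ2, ?_⟩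
  · split_ifs
    · exact le_rfl
    · exact (hnn i).2.1
  · split_ifs
    · exact le_rfl
    · exact (hnn i).2.2
  · refine (hhigh l hl).1.trans (max_le (le_max_of_le_left (hE l)) ?_)
    split_ifs with h
    · exact le_max_of_le_left (Real.le_sqrt_of_sq_le (by
        simp only [bP, h, if_true]; linarith [sq_nonneg (E l), hb l]))
    · exact le_max_right _ _
  · refine (hhigh l hl).2.trans (max_le (le_max_of_le_left (hE l)) ?_)
    split_ifs with h
    · exact le_max_of_le_left (Real.le_sqrt_of_sq_le (by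
        simp only [bQ, h, if_true]; linarith [sq_nonneg (E l), hb l]))
    · exact le_max_right _ _
  · split_ifs with h
    · have := D.theta_pos j l; linarith
    · exact not_lt.1 h
  · split_ifs with h
    · have := D.theta_pos j l; linarith
    · exact not_lt.1 h
  · have e : ∑ l ∈ D.hiSet j, E' l ^ 2
        = ∑ l ∈ D.hiSet j, E l ^ 2 + ∑ l ∈ D.hiSet j, bP l + ∑ l ∈ D.hiSet j, bQ l := by
      rw [← Finset.sum_add_distrib, ← Finset.sum_add_distrib]
      exact Finset.sum_congr rfl fun l _ => Real.sq_sqrt (by linarith [sq_nonneg (E l), hb l])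
    rw [e]
    linarith

end Sys

end Vale.Agent.P262
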