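import Mathlib
import Vale.Agent.P262.Invariant

/-!
The induction over levels that gives the ordering.
-/

namespace Vale.Agent.P262

namespace Sys

variable {d N : ℕ} (D : Sys d N)

open Classical in
/-- The budget of a block at level `j`. -/
noncomputable def bud (j : ℕ) : ℝ :=
  5 * d + 7 * 10 ^ 8 * ∑ k ∈ (Finset.range j).filter (fun k => (D.midSet k).Nonempty), (D.g k : ℝ)
    + 10 ^ 7 * ((D.hiSet 0 \ D.hiSet j).card : ℝ)

/-- The final bound on squared norms, per dimension. -/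
noncomputable def cst (B : ℕ) : ℝ :=
  2097152 * (5 + 7 * 10 ^ 8 * (20 * B + 24 * 1000) + 10 ^ 7) + 5 * 10 ^ 6

/-- The bound that all partial sums must satisfy. -/
noncomputable def lim : ℝ := cst D.B * d

lemma bud_le (j : ℕ) : 2097152 * D.bud j + 5 * 10 ^ 6 * d ≤ D.lim := by
  classical
  have h1 : ∑ k ∈ (Finset.range j).filter (fun k => (D.midSet k).Nonempty), (D.g k : ℝ)
      ≤ (20 * (D.B : ℝ) + 24 * 1000) * d := by
    have h := charge (M := 1000) (B := D.B) (by norm_num) (le_trans (by norm_num) D.hB.1) D.psi j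
    simp only [midSet_eq]
    simp only [g]
    exact_mod_cast h
  have h2 : ((D.hiSet 0 \ D.hiSet j).card : ℝ) ≤ d := by
    exact_mod_cast (Finset.card_le_univ _).trans (by simp)
  have e : D.lim = 2097152 * (5 * d + 7 * 10 ^ 8 * ((20 * (D.B : ℝ) + 24 * 1000) * d) + 10 ^ 7 * d)
      + 5 * 10 ^ 6 * d := by simp only [lim, cst]; ring
  rw [e, bud]
  linarith

lemma bud_succ (j : ℕ) : D.bud (j + 1) = D.bud j
    + 7 * 10 ^ 8 * (if (D.midSet j).Nonempty then (D.g j : ℝ) else 0)
    + 10 ^ 7 * ((D.hiSet j \ D.hiSet (j + 1)).card : ℝ) := by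
  classical
  have h1 : (D.hiSet 0 \ D.hiSet (j + 1)).card
      = (D.hiSet 0 \ D.hiSet j).card + (D.hiSet j \ D.hiSet (j + 1)).card := by
    rw [← Finset.card_union_of_disjoint]
    · congr 1
      ext x
      simp only [Finset.mem_union, Finset.mem_sdiff]
      have a1 : x ∈ D.hiSet (j + 1) → x ∈ D.hiSet j := fun h => D.hiSet_anti (Nat.le_succ j) h
      have a2 : x ∈ D.hiSet j → x ∈ D.hiSet 0 := fun h => D.hiSet_anti (Nat.zero_le j) h
      by_cases p1 : x ∈ D.hiSet j
      · simp [p1, a2 p1]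
      · have p2 : x ∉ D.hiSet (j + 1) := fun h => p1 (a1 h)
        simp [p1, p2]
    · exact Finset.disjoint_left.2 fun x hx hx' =>
        (Finset.mem_sdiff.1 hx).2 (Finset.mem_sdiff.1 hx').1
  simp only [bud, h1, Nat.cast_add, Finset.sum_filter, Finset.sum_range_succ]
  ring

lemma w_compare (j : ℕ) (i : Fin d) : D.w j i ≤ 3 * D.w (j + 1) i := by
  have h1 := (D.g_step j).2
  have h2 := abs_add_le (D.s (j + 1) i) (D.g j : ℝ)
  rw [show D.s (j + 1) i + (D.g j : ℝ) = D.s j i by rw [D.s_succ]; ring, Nat.abs_cast] at h2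
  have := D.g_big (j + 1)
  have := abs_nonneg (D.s (j + 1) i)
  simp only [w]
  linarith

lemma share_bounds {j q : ℕ} (hq : q < 2 * 2 ^ D.g j) : D.share j q ∈ Set.Icc (0 : ℝ) 1 := by
  refine ⟨by unfold share; positivity, (div_le_one (by positivity)).2 ?_⟩
  exact_mod_cast (show (q + 1) / 2 ≤ 2 ^ D.g j by omega)

lemma moment_scaled {j : ℕ} {b : Finset (Fin N)} (hb : D.Block j b) (i l : Fin d) :
    |D.gram b i l / 2 ^ D.g j - if i = l then D.mean (j + 1) i else 0|
      ≤ D.w j i + D.w j l + tp (max (min (D.s (j + 1) i) (D.s (j + 1) l)) 0 / 2) := by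
  have hK : (0 : ℝ) < 2 ^ D.g j := by positivity
  have hKr : ((2 : ℝ) ^ D.g j) = tp (D.g j : ℝ) := (tp_natCast _).symm
  have hg := D.g_big j
  have e : (if i = l then D.mean (j + 1) i else 0)
      = (if i = l then D.mean j i else 0) / 2 ^ D.g j := by
    split_ifs
    · rw [D.mean_succ]
    · simp
  rw [e, ← sub_div, abs_div, abs_of_pos hK, div_le_iff₀ hK]
  refine (hb.moment i l).trans ?_
  rw [dev, add_mul]
  refine add_le_add ?_ ?_
  · rw [mul_comm (10 ^ 6 : ℝ)]
    refine mul_le_mul_of_nonneg_left ?_ (by have := D.w_pos j i; have := D.w_pos j l; linarith)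
    rw [hKr]
    simpa using poly_le D.hB 0 (D.g_ge j) (c := 10 ^ 6) (by norm_num) (by norm_num)
      (y := (D.g j : ℝ)) (by linarith)
  · rw [hKr, ← tp_add]
    refine le_trans (mul_le_mul_of_nonneg_right (show (10:ℝ) ≤ tp 4 by
      rw [tp, show (4 : ℝ) = ((4 : ℕ) : ℝ) by norm_num, Real.rpow_natCast]; norm_num) (tp_nonneg _)) ?_
    rw [← tp_add]
    refine tp_le ?_
    have hmm : max (min (D.s j i) (D.s j l)) 0
        ≤ max (min (D.s (j + 1) i) (D.s (j + 1) l)) 0 + D.g j := by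
      rw [D.s_succ, D.s_succ, min_sub_sub_right]
      refine max_le ?_ ?_
      · have := le_max_left (min (D.s j i) (D.s j l) - D.g j) 0; linarith
      · have := le_max_right (min (D.s j i) (D.s j l) - D.g j) 0; linarith
    linarith

section step

variable {j : ℕ} {b : Finset (Fin N)} {P E : Fin d → ℝ} {pos : Fin N → ℕ}

/-- The children of a stage. -/
def child (b : Finset (Fin N)) (pos : Fin N → ℕ) (q : ℕ) : Finset (Fin N) :=
  b.filter fun x => pos x = q

lemma sum_upto_succ (b : Finset (Fin N)) (pos : Fin N → ℕ) (q : ℕ) (f : Fin N → ℝ) :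
    ∑ x ∈ upto b pos (q + 1), f x = ∑ x ∈ upto b pos q, f x + ∑ x ∈ child b pos q, f x := by
  simp only [upto, child, Finset.sum_filter, ← Finset.sum_add_distrib]
  refine Finset.sum_congr rfl fun x _ => ?_
  rcases lt_trichotomy (pos x) q with h | h | h
  · rw [if_pos (by omega), if_pos h, if_neg (by omega), add_zero]
  · rw [if_pos (by omega), if_neg (by omega), if_pos h, zero_add]
  · rw [if_neg (by omega), if_neg (by omega), if_neg (by omega), add_zero]

lemma upto_zero (b : Finset (Fin N)) (pos : Fin N → ℕ) : upto b pos 0 = ∅ := by simp [upto]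

lemma child_block (hb : D.Block j b) (hR : D.Refined j b P E pos) {c : ℕ} (hc : c < 2 ^ D.g j) :
    D.Block (j + 1) (child b pos (2 * c)) := by
  have hg := D.g_big j
  have hq : 2 * c + 1 < 2 * 2 ^ D.g j := by omega
  have hτ : D.share j (2 * c + 1) - D.share j (2 * c) = 1 / 2 ^ D.g j := by
    simp only [share, show (2 * c + 1 + 1) / 2 = c + 1 by omega, show (2 * c + 1) / 2 = c by omega]
    push_cast; ring
  refine ⟨fun i l => ?_, fun i hi => ?_⟩
  · have e1 : D.gram (child b pos (2 * c)) i l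
        = D.gram (upto b pos (2 * c + 1)) i l - D.gram (upto b pos (2 * c)) i l := by
      simp only [gram, sum_upto_succ]; ring
    have h1 := hR.moment (2 * c + 1) hq i l
    have h2 := hR.moment (2 * c) (by omega) i l
    have h3 := D.moment_scaled hb i l
    have e2 : D.gram (child b pos (2 * c)) i l - (if i = l then D.mean (j + 1) i else 0)
        = (D.gram (upto b pos (2 * c + 1)) i l - D.share j (2 * c + 1) * D.gram b i l)
          - (D.gram (upto b pos (2 * c)) i l - D.share j (2 * c) * D.gram b i l)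
          + (D.gram b i l / 2 ^ D.g j - if i = l then D.mean (j + 1) i else 0) := by
      have : D.share j (2 * c + 1) = D.share j (2 * c) + 1 / 2 ^ D.g j := by linarith
      rw [e1, this]; ring
    rw [e2]
    refine (abs_add_le _ _).trans ((add_le_add ((abs_sub _ _).trans (add_le_add h1 h2)) h3).trans ?_)
    simp only [err2, dev]
    have := D.w_compare j i
    have := D.w_compare j l
    have := D.w_pos (j + 1) i
    have := D.w_pos (j + 1) l
    have := tp_pos (max (min (D.s (j + 1) i) (D.s (j + 1) l)) 0 / 2)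
    linarith
  · have e1 : D.dust (j + 1) (child b pos (2 * c)) i
        = ∑ k ∈ upto b pos (2 * c + 1), D.dv (j + 1) k i ^ 2
          - ∑ k ∈ upto b pos (2 * c), D.dv (j + 1) k i ^ 2 := by
      rw [sum_upto_succ, add_sub_cancel_left]
      refine Finset.sum_congr rfl fun k _ => ?_
      simp only [dv]; split_ifs <;> simp
    have h1 := (abs_le.1 (hR.low (2 * c + 1) hq i hi).2).2
    have h2 := (abs_le.1 (hR.low (2 * c) (by omega) i hi).2).1
    have h3 := D.dust_mass hb hi
    have hw := D.w_compare j i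
    have hw0 := D.w_pos j i
    have h4 : D.w j i ^ 2 * D.eps (j + 1) i ≤ 9 * D.w (j + 1) i ^ 2 * D.eps (j + 1) i :=
      mul_le_mul_of_nonneg_right (by nlinarith) (D.eps_pos _ i).le
    have h5 : D.share j (2 * c + 1) * ∑ k ∈ b, D.dv (j + 1) k i ^ 2
        = D.share j (2 * c) * ∑ k ∈ b, D.dv (j + 1) k i ^ 2
          + (∑ k ∈ b, D.dv (j + 1) k i ^ 2) / 2 ^ D.g j := by
      rw [show D.share j (2 * c + 1) = D.share j (2 * c) + 1 / 2 ^ D.g j by linarith]; ring
    have h6 : 0 ≤ D.w (j + 1) i ^ 2 * D.eps (j + 1) i := mul_nonneg (sq_nonneg _) (D.eps_pos _ i).le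
    rw [e1]
    linarith

/-- Corners absorb the heavy part in a low coordinate. -/
lemma low_step (hb : D.Block j b) (hR : D.Refined j b P E pos) {i : Fin d} (hi : D.Lo j i) {Φ : ℝ}
    (hΦ : ∀ X, X ⊆ D.heavy j b i → |P i + ∑ k ∈ X, D.v k i| + D.slack j i ≤ Φ ∧
      |P i + ∑ k ∈ b, D.v k i - ∑ k ∈ X, D.v k i| + D.slack j i ≤ Φ)
    {q : ℕ} (hq : q < 2 * 2 ^ D.g j) {Z : Finset (Fin N)} (hZ : Z ⊆ b)
    (hZd : ∑ k ∈ Z, D.dv (j + 1) k i = ∑ k ∈ upto b pos q, D.dv (j + 1) k i) :
    |P i + ∑ k ∈ Z, D.v k i| + D.slack (j + 1) i ≤ Φ := by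
  classical
  have hg := D.g_big j
  have hlo' := D.lo_succ hi
  set H := D.heavy j b i with hH
  have hHdef : H = b.filter fun k => D.eps j i < D.v k i ^ 2 := by simp [hH, heavy, hi]
  set τ := D.share j q
  obtain ⟨hτ0, hτ1⟩ := D.share_bounds hq
  set pr : Fin N → ℝ := fun k =>
    if D.eps (j + 1) i < D.v k i ^ 2 ∧ D.v k i ^ 2 ≤ D.eps j i then D.v k i else 0
  have hdec : ∀ k, D.v k i
      = (if D.eps j i < D.v k i ^ 2 then D.v k i else 0) + pr k + D.dv (j + 1) k i := by
    intro k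
    have := D.eps_succ_le j i
    simp only [pr, dv]
    split_ifs with h1 h2 h3 h4 h5 h6 <;> simp_all <;> linarith
  have hsplit : ∀ Y, Y ⊆ b → ∑ k ∈ Y, D.v k i
      = ∑ k ∈ Y.filter (fun k => D.eps j i < D.v k i ^ 2), D.v k i + ∑ k ∈ Y, pr k
        + ∑ k ∈ Y, D.dv (j + 1) k i := by
    intro Y _
    rw [Finset.sum_filter, ← Finset.sum_add_distrib, ← Finset.sum_add_distrib]
    exact Finset.sum_congr rfl fun k _ => hdec k
  set h := ∑ k ∈ Z.filter (fun k => D.eps j i < D.v k i ^ 2), D.v k i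
  have hA := (hΦ (Z.filter fun k => D.eps j i < D.v k i ^ 2)
    (hHdef ▸ Finset.filter_subset_filter _ hZ)).1
  have hB := (hΦ (H \ Z.filter fun k => D.eps j i < D.v k i ^ 2) Finset.sdiff_subset).2
  rw [Finset.sum_sdiff_eq_sub (hHdef ▸ Finset.filter_subset_filter _ hZ)] at hB
  -- promotions
  set se := Real.sqrt (D.eps (j + 1) i)
  have hse : 0 < se := Real.sqrt_pos.2 (D.eps_pos _ i)
  have hprom : ∀ Y, Y ⊆ b → |∑ k ∈ Y, pr k| ≤ 10 ^ 7 * D.w j i ^ 2 * (D.eps j i / se) := by
    intro Y hY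
    have hp : ∀ k, |pr k| * se ≤ if D.v k i ^ 2 ≤ D.eps j i then D.v k i ^ 2 else 0 := by
      intro k
      simp only [pr]
      by_cases h : D.eps (j + 1) i < D.v k i ^ 2 ∧ D.v k i ^ 2 ≤ D.eps j i
      · rw [if_pos h, if_pos h.2]
        have : se ≤ |D.v k i| := Real.sqrt_le_iff.2 ⟨abs_nonneg _, by rw [sq_abs]; exact h.1.le⟩
        calc |D.v k i| * se ≤ |D.v k i| * |D.v k i| := mul_le_mul_of_nonneg_left this (abs_nonneg _)
          _ = D.v k i ^ 2 := by rw [← sq_abs (D.v k i)]; ring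
      · rw [if_neg h, abs_zero, zero_mul]; split_ifs <;> positivity
    have h1 : (∑ k ∈ Y, |pr k|) * se ≤ 10 ^ 7 * D.w j i ^ 2 * D.eps j i := by
      rw [Finset.sum_mul]
      refine le_trans (Finset.sum_le_sum fun k _ => hp k) (le_trans ?_ (hb.dusty i hi))
      exact Finset.sum_le_sum_of_subset_of_nonneg hY fun k _ _ => by split_ifs <;> positivity
    refine (Finset.abs_sum_le_sum_abs _ _).trans ?_
    rw [mul_div_assoc', le_div_iff₀ hse]
    exact h1
  have hpZ := hprom Z hZ
  have hpb := hprom b subset_rfl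
  set δ := ∑ k ∈ Z, D.dv (j + 1) k i - τ * ∑ k ∈ b, D.dv (j + 1) k i with hδdef
  have hδ : |δ| ≤ 2 * 10 ^ 4 * D.w j i ^ 2 * se := by
    rw [hδdef, hZd]; exact (hR.low q hq i hlo').1
  have e : P i + ∑ k ∈ Z, D.v k i
      = (1 - τ) * (P i + h) + τ * (P i + ∑ k ∈ b, D.v k i - (∑ k ∈ H, D.v k i - h))
        + (∑ k ∈ Z, pr k - τ * ∑ k ∈ b, pr k) + δ := by
    rw [hsplit Z hZ, hsplit b subset_rfl, ← hHdef, hδdef]; ring
  have hmain : |(1 - τ) * (P i + h) + τ * (P i + ∑ k ∈ b, D.v k i - (∑ k ∈ H, D.v k i - h))|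
      ≤ Φ - D.slack j i := by
    refine (abs_add_le _ _).trans ?_
    rw [abs_mul, abs_mul, abs_of_nonneg (show 0 ≤ 1 - τ by linarith), abs_of_nonneg hτ0]
    have := mul_le_mul_of_nonneg_left (le_sub_iff_add_le.2 hA) (show 0 ≤ 1 - τ by linarith)
    have := mul_le_mul_of_nonneg_left (le_sub_iff_add_le.2 hB) hτ0
    linarith
  have hp2 : |∑ k ∈ Z, pr k - τ * ∑ k ∈ b, pr k| ≤ 2 * (10 ^ 7 * D.w j i ^ 2 * (D.eps j i / se)) := by
    refine (abs_sub _ _).trans ?_
    rw [abs_mul, abs_of_nonneg hτ0]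
    have := mul_le_mul_of_nonneg_right hτ1 (abs_nonneg (∑ k ∈ b, pr k))
    linarith
  -- numerical part
  set x := -D.s j i with hx
  have hxg : 2 * (D.g j : ℝ) ≤ x := by simp only [Lo] at hi; linarith
  have hw : D.w j i ≤ 2 * x := by
    simp only [w]; rw [abs_of_nonpos (by linarith)]; linarith
  have h1 : D.eps j i / se ≤ tp (-x / 64) := by
    simp only [se, eps, sqrt_tp, ← tp_sub, s_succ]
    refine tp_le ?_; linarith
  have h2 : se ≤ tp (-x / 64) := by
    simp only [se, eps, sqrt_tp, s_succ]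
    refine tp_le ?_; linarith
  have h3 : D.slack (j + 1) i ≤ 1 / 2 * tp (-x / 128) := by
    simp only [slack, hlo', if_true, s_succ]
    rw [show (D.s j i - (D.g j : ℝ)) / 128 = -x / 128 + -((D.g j : ℝ) / 128) by rw [hx]; ring, tp_add,
      mul_comm]
    refine mul_le_mul_of_nonneg_right ?_ (tp_nonneg _)
    rw [tp_neg, one_div]
    refine inv_anti₀ (by norm_num) ?_
    rw [← tp_one]; exact tp_le (by linarith)
  have h4 : D.slack j i = tp (-x / 128) := by
    simp only [slack, hi, if_true, hx, neg_neg]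
  have h5 : 10 ^ 9 * x ^ 2 * tp (-x / 64) ≤ tp (-x / 128) := by
    have h := poly_le D.hB 2 (x := x) (c := 10 ^ 9) (by have := D.g_ge j; linarith) (by norm_num)
      (by norm_num) (y := x / 128) (by linarith)
    refine (mul_le_mul_of_nonneg_right h (tp_nonneg _)).trans (le_of_eq ?_)
    rw [← tp_add]; ring_nf
  have hw2 : D.w j i ^ 2 ≤ 4 * x ^ 2 := by
    have := pow_le_pow_left₀ (D.w_pos j i).le hw 2; linarith
  have h6 : 2 * (10 ^ 7 * D.w j i ^ 2 * (D.eps j i / se)) + 2 * 10 ^ 4 * D.w j i ^ 2 * se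
      ≤ 1 / 2 * (10 ^ 9 * x ^ 2 * tp (-x / 64)) := by
    have a1 : D.w j i ^ 2 * (D.eps j i / se) ≤ 4 * x ^ 2 * tp (-x / 64) :=
      mul_le_mul hw2 h1 (div_nonneg (D.eps_pos j i).le hse.le) (by positivity)
    have a2 : D.w j i ^ 2 * se ≤ 4 * x ^ 2 * tp (-x / 64) := mul_le_mul hw2 h2 hse.le (by positivity)
    have := mul_nonneg (sq_nonneg x) (tp_nonneg (-x / 64))
    linarith
  rw [e]
  have := abs_add_le ((1 - τ) * (P i + h) + τ * (P i + ∑ k ∈ b, D.v k i - (∑ k ∈ H, D.v k i - h))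
    + (∑ k ∈ Z, pr k - τ * ∑ k ∈ b, pr k)) δ
  have := abs_add_le ((1 - τ) * (P i + h) + τ * (P i + ∑ k ∈ b, D.v k i - (∑ k ∈ H, D.v k i - h)))
    (∑ k ∈ Z, pr k - τ * ∑ k ∈ b, pr k)
  linarith

open Classical in
/-- The bound attached to a coordinate that is not high after a stage. -/
noncomputable def phiNext (j : ℕ) (b : Finset (Fin N)) (pos : Fin N → ℕ) (q : ℕ)
    (Φ E e1 e2 : Fin d → ℝ) (i : Fin d) : ℝ :=
  if D.Hi j i then Real.sqrt (E i ^ 2 + e1 i ^ 2 + e2 i ^ 2)
  else if i ∈ D.midSet j then Φ i + (|∑ k ∈ upto b pos q, D.v k i - D.share j q * ∑ k ∈ b, D.v k i|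
    + |∑ k ∈ upto b pos (q + 1), D.v k i - D.share j (q + 1) * ∑ k ∈ b, D.v k i| + 1)
  else Φ i

open Classical in
/-- The error at a boundary in the high coordinates. -/
lemma end_error (hR : D.Refined j b P E pos) {q : ℕ} (hql : q < 2 * 2 ^ D.g j) {γ : ℝ} (hγ : 0 ≤ γ)
    (e0 : Fin d → ℝ) (h : (q = 0 ∨ q + 1 = 2 * 2 ^ D.g j) → (∀ l, 0 ≤ e0 l) ∧ D.Chain j e0 γ ∧
      ∀ l, D.Hi j l → |P l + ∑ k ∈ upto b pos q, D.v k l| ≤ max (E l) (e0 l)) :
    ∃ e : Fin d → ℝ, (∀ l, 0 ≤ e l) ∧ D.Chain j e γ ∧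
      ∀ l, D.Hi j l → |P l + ∑ k ∈ upto b pos q, D.v k l| ≤ max (E l) (e l) := by
  by_cases hend : q = 0 ∨ q + 1 = 2 * 2 ^ D.g j
  · exact ⟨e0, h hend⟩
  · obtain ⟨e, he0, he, hF⟩ := hR.high q (by omega) (by omega)
    refine ⟨e, he0, fun k hk => ?_, he⟩
    rcases (D.hiSet j \ D.hiSet k).eq_empty_or_nonempty with h0 | h0
    · rw [h0]; simp [hγ]
    · have := hF _ (Finset.mem_filter.2
        ⟨Finset.mem_powerset.2 Finset.sdiff_subset, h0, k, hk, rfl⟩)
      linarith

/-- Passing a chain condition to the next level. -/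
lemma chain_succ {e : Fin d → ℝ} {γ : ℝ} (he : D.Chain j e γ) :
    0 ≤ γ + 5 * 10 ^ 6 * ((D.hiSet j \ D.hiSet (j + 1)).card : ℝ)
        - ∑ l ∈ D.hiSet j \ D.hiSet (j + 1), e l ^ 2 ∧
    D.Chain (j + 1) e (γ + 5 * 10 ^ 6 * ((D.hiSet j \ D.hiSet (j + 1)).card : ℝ)
        - ∑ l ∈ D.hiSet j \ D.hiSet (j + 1), e l ^ 2) := by
  refine ⟨by have := he (j + 1) (Nat.le_succ j); linarith, fun k hk => ?_⟩
  have h := he k (le_trans (Nat.le_succ j) hk)
  have e' : D.hiSet j \ D.hiSet k
      = (D.hiSet j \ D.hiSet (j + 1)) ∪ (D.hiSet (j + 1) \ D.hiSet k) := by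
    refine Finset.ext fun x => ?_
    by_cases p1 : x ∈ D.hiSet (j + 1)
    · simp [p1, D.hiSet_anti (Nat.le_succ j) p1]
    · have p2 : x ∉ D.hiSet k := fun h => p1 (D.hiSet_anti hk h)
      simp [p1, p2]
  have hdis : Disjoint (D.hiSet j \ D.hiSet (j + 1)) (D.hiSet (j + 1) \ D.hiSet k) :=
    Finset.disjoint_left.2 fun x hx hx' => (Finset.mem_sdiff.1 hx).2 (Finset.mem_sdiff.1 hx').1
  rw [e', Finset.sum_union hdis, Finset.card_union_of_disjoint hdis, Nat.cast_add] at h
  linarith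

/-- The budget spent on the coordinates that are not high. -/
lemma phi_budget (hR : D.Refined j b P E pos) {q : ℕ} (hq : q + 1 < 2 * 2 ^ D.g j)
    (Φ e1 e2 : Fin d → ℝ) :
    ∑ i ∈ (D.hiSet (j + 1))ᶜ, D.wt (j + 1) i * D.phiNext j b pos q Φ E e1 e2 i ^ 2
      ≤ ∑ i ∈ (D.hiSet j)ᶜ, D.wt j i * Φ i ^ 2
        + 7 * 10 ^ 8 * (if (D.midSet j).Nonempty then (D.g j : ℝ) else 0)
        + 1 / 2 * (∑ i ∈ D.hiSet j \ D.hiSet (j + 1), E i ^ 2
          + ∑ i ∈ D.hiSet j \ D.hiSet (j + 1), e1 i ^ 2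
          + ∑ i ∈ D.hiSet j \ D.hiSet (j + 1), e2 i ^ 2) := by
  classical
  set F1 := D.hiSet j \ D.hiSet (j + 1) with hF1
  have hsub : D.hiSet (j + 1) ⊆ D.hiSet j := D.hiSet_anti (Nat.le_succ j)
  have hcompl : (D.hiSet (j + 1))ᶜ = (D.hiSet j)ᶜ ∪ F1 := by
    refine Finset.ext fun x => ?_
    by_cases p1 : x ∈ D.hiSet j
    · simp [hF1, p1]
    · have p2 : x ∉ D.hiSet (j + 1) := fun h => p1 (hsub h)
      simp [p1, p2]
  have hdis : Disjoint (D.hiSet j)ᶜ F1 := Finset.disjoint_left.2 fun x hx hx' =>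
    (Finset.mem_compl.1 hx) (Finset.mem_sdiff.1 hx').1
  rw [hcompl, Finset.sum_union hdis]
  have hA : ∑ i ∈ F1, D.wt (j + 1) i * D.phiNext j b pos q Φ E e1 e2 i ^ 2
      = 1 / 2 * (∑ i ∈ F1, E i ^ 2 + ∑ i ∈ F1, e1 i ^ 2 + ∑ i ∈ F1, e2 i ^ 2) := by
    rw [← Finset.sum_add_distrib, ← Finset.sum_add_distrib, Finset.mul_sum]
    refine Finset.sum_congr rfl fun i hi => ?_
    have hH := D.mem_hiSet.1 (Finset.mem_sdiff.1 hi).1
    rw [phiNext, if_pos hH, D.wt_hi hH, Real.sq_sqrt (by positivity)]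
  set err : ℕ → Fin d → ℝ := fun q i =>
    ∑ k ∈ upto b pos q, D.v k i - D.share j q * ∑ k ∈ b, D.v k i with herr
  have hmsub : D.midSet j ⊆ (D.hiSet j)ᶜ := by
    intro i hi
    simp only [midSet, Finset.mem_filter] at hi
    rw [Finset.mem_compl, mem_hiSet]
    exact hi.2.1
  have hB : ∑ i ∈ (D.hiSet j)ᶜ, D.wt (j + 1) i * D.phiNext j b pos q Φ E e1 e2 i ^ 2
      ≤ ∑ i ∈ (D.hiSet j)ᶜ, D.wt j i * Φ i ^ 2
        + ∑ i ∈ D.midSet j, (err q i ^ 2 + err (q + 1) i ^ 2 + 1) / 2 := by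
    rw [← Finset.inter_eq_right.2 hmsub, ← Finset.sum_ite_mem, ← Finset.sum_add_distrib]
    refine Finset.sum_le_sum fun i hi => ?_
    rw [Finset.mem_compl, mem_hiSet] at hi
    by_cases hm : i ∈ D.midSet j
    · rw [phiNext, if_neg hi, if_pos hm, if_pos hm, D.wt_succ_mid j hm]
      simp only [herr]
      set a := |∑ k ∈ upto b pos q, D.v k i - D.share j q * ∑ k ∈ b, D.v k i| with ha'
      set a' := |∑ k ∈ upto b pos (q + 1), D.v k i - D.share j (q + 1) * ∑ k ∈ b, D.v k i| with hb'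
      rw [← sq_abs (∑ k ∈ upto b pos q, D.v k i - D.share j q * ∑ k ∈ b, D.v k i), ← ha',
        ← sq_abs (∑ k ∈ upto b pos (q + 1), D.v k i - D.share j (q + 1) * ∑ k ∈ b, D.v k i), ← hb']
      have hw := D.wt_le_half j i
      have hw0 := D.wt_nonneg j i
      set x := a + a' + 1
      have hx : x ^ 2 ≤ 3 * (a ^ 2 + a' ^ 2 + 1) := by
        simp only [x]; nlinarith [sq_nonneg (a - a'), sq_nonneg (a - 1), sq_nonneg (a' - 1)]
      have h1 : D.wt j i / 4 * (Φ i + x) ^ 2 ≤ D.wt j i / 4 * (4 * Φ i ^ 2 + 4 / 3 * x ^ 2) :=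
        mul_le_mul_of_nonneg_left (by nlinarith [sq_nonneg (3 * Φ i - x)]) (by linarith)
      have h2 : D.wt j i * x ^ 2 ≤ 1 / 2 * x ^ 2 := mul_le_mul_of_nonneg_right hw (sq_nonneg x)
      linarith
    · rw [phiNext, if_neg hi, if_neg hm, if_neg hm, D.wt_succ_not j hm, add_zero]
  have hC : ∑ i ∈ D.midSet j, (err q i ^ 2 + err (q + 1) i ^ 2 + 1) / 2
      ≤ 7 * 10 ^ 8 * (if (D.midSet j).Nonempty then (D.g j : ℝ) else 0) := by
    split_ifs with h
    · rw [← Finset.sum_div, Finset.sum_add_distrib, Finset.sum_add_distrib, Finset.sum_const,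
        nsmul_eq_mul, mul_one]
      have := hR.middle q (by omega)
      have := hR.middle (q + 1) hq
      have := D.midSet_card j
      simp only [herr]
      linarith
    · rw [Finset.not_nonempty_iff_eq_empty.1 h]; simp
  linarith

open Classical in
/-- The new bounds in the coordinates that are not high. -/
lemma phi_bound (hb : D.Block j b) {Φ : Fin d → ℝ}
    (hlow : ∀ i, ¬ D.Hi j i → ∀ X, X ⊆ D.heavy j b i →
      |P i + ∑ k ∈ X, D.v k i| + D.slack j i ≤ Φ i ∧
      |P i + ∑ k ∈ b, D.v k i - ∑ k ∈ X, D.v k i| + D.slack j i ≤ Φ i)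
    (hR : D.Refined j b P E pos) {c : ℕ} (hc : c < 2 ^ D.g j) {e1 e2 : Fin d → ℝ}
    (hb1 : ∀ l, D.Hi j l → |P l + ∑ k ∈ upto b pos (2 * c), D.v k l| ≤ max (E l) (e1 l))
    (hb2 : ∀ l, D.Hi j l → |P l + ∑ k ∈ upto b pos (2 * c + 1), D.v k l| ≤ max (E l) (e2 l))
    {i : Fin d} {X : Finset (Fin N)} (hX : X ⊆ D.heavy (j + 1) (child b pos (2 * c)) i) :
    |P i + ∑ k ∈ upto b pos (2 * c), D.v k i + ∑ k ∈ X, D.v k i| + D.slack (j + 1) i
        ≤ D.phiNext j b pos (2 * c) Φ E e1 e2 i ∧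
    |P i + ∑ k ∈ upto b pos (2 * c + 1), D.v k i - ∑ k ∈ X, D.v k i| + D.slack (j + 1) i
        ≤ D.phiNext j b pos (2 * c) Φ E e1 e2 i := by
  have hq : 2 * c + 1 < 2 * 2 ^ D.g j := by omega
  by_cases hH : D.Hi j i
  · have hnl := D.hi_not_lo_succ hH
    have hX0 : X = ∅ := by
      rw [heavy, if_neg hnl] at hX
      exact Finset.subset_empty.1 hX
    simp only [hX0, Finset.sum_empty, add_zero, sub_zero, slack, hnl, if_false, phiNext, hH, if_true]
    refine ⟨(hb1 i hH).trans (max_le ?_ ?_), (hb2 i hH).trans (max_le ?_ ?_)⟩ <;>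
      exact Real.le_sqrt_of_sq_le (by linarith [sq_nonneg (E i), sq_nonneg (e1 i), sq_nonneg (e2 i)])
  · by_cases hlo : D.Lo j i
    · have hnm : i ∉ D.midSet j := by simp [midSet, hlo]
      simp only [phiNext, hH, if_false, hnm]
      rw [heavy, if_pos (D.lo_succ hlo)] at hX
      have hXC : X ⊆ child b pos (2 * c) := hX.trans (Finset.filter_subset _ _)
      have hX0 : ∀ k ∈ X, D.dv (j + 1) k i = 0 := fun k hk => by
        simp [dv, (Finset.mem_filter.1 (hX hk)).2]
      have hXb : X ⊆ b := hXC.trans (Finset.filter_subset _ _)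
      have hXpos : ∀ k ∈ X, pos k = 2 * c := fun k hk => (Finset.mem_filter.1 (hXC hk)).2
      have hdis : Disjoint (upto b pos (2 * c)) X := Finset.disjoint_left.2 fun k hk hk' => by
        have := (Finset.mem_filter.1 hk).2
        have := hXpos k hk'
        omega
      have hsub : X ⊆ upto b pos (2 * c + 1) := fun k hk =>
        Finset.mem_filter.2 ⟨hXb hk, by have := hXpos k hk; omega⟩
      refine ⟨?_, ?_⟩
      · have h := D.low_step hb hR hlo (hlow i hH) (q := 2 * c) (by omega)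
          (Z := upto b pos (2 * c) ∪ X) (Finset.union_subset (Finset.filter_subset _ _) hXb) (by
            rw [Finset.sum_union hdis, Finset.sum_eq_zero hX0, add_zero])
        rw [Finset.sum_union hdis, ← add_assoc] at h
        exact h
      · have h := D.low_step hb hR hlo (hlow i hH) (q := 2 * c + 1) hq
          (Z := upto b pos (2 * c + 1) \ X) (Finset.sdiff_subset.trans (Finset.filter_subset _ _)) (by
            rw [Finset.sum_sdiff_eq_sub hsub, Finset.sum_eq_zero hX0, sub_zero])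
        rw [Finset.sum_sdiff_eq_sub hsub, ← add_sub_assoc] at h
        exact h
    · have hm : i ∈ D.midSet j := by simp [midSet, hH, hlo]
      simp only [phiNext, hH, if_false, hm, if_true]
      have hX0 : X = ∅ := by
        refine Finset.subset_empty.1 (hX.trans ?_)
        unfold heavy
        split_ifs with h
        · intro k hk
          exfalso
          obtain ⟨hk1, hk2⟩ := Finset.mem_filter.1 hk
          obtain ⟨hkb, hkp⟩ := Finset.mem_filter.1 hk1
          have := hR.even_dust k hkb (by omega) i (by simp [newSet, h, hlo])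
          linarith
        · exact subset_rfl
      have hP0 := hlow i hH ∅ (Finset.empty_subset _)
      simp only [Finset.sum_empty, add_zero, sub_zero] at hP0
      have hs0 := D.slack_nonneg j i
      have hs1 := D.slack_le_one (j + 1) i
      have point : ∀ q, q < 2 * 2 ^ D.g j → |P i + ∑ k ∈ upto b pos q, D.v k i|
          ≤ Φ i + |∑ k ∈ upto b pos q, D.v k i - D.share j q * ∑ k ∈ b, D.v k i| := by
        intro q hql
        obtain ⟨hτ0, hτ1⟩ := D.share_bounds hql
        have e : P i + ∑ k ∈ upto b pos q, D.v k i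
            = (1 - D.share j q) * P i + D.share j q * (P i + ∑ k ∈ b, D.v k i)
              + (∑ k ∈ upto b pos q, D.v k i - D.share j q * ∑ k ∈ b, D.v k i) := by ring
        rw [e]
        refine (abs_add_le _ _).trans (add_le_add ((abs_add_le _ _).trans ?_) le_rfl)
        rw [abs_mul, abs_mul, abs_of_nonneg (show 0 ≤ 1 - D.share j q by linarith), abs_of_nonneg hτ0]
        have := mul_le_mul_of_nonneg_left (show |P i| ≤ Φ i by linarith [hP0.1])
          (show 0 ≤ 1 - D.share j q by linarith)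
        have := mul_le_mul_of_nonneg_left
          (show |P i + ∑ k ∈ b, D.v k i| ≤ Φ i by linarith [hP0.2]) hτ0
        linarith
      simp only [hX0, Finset.sum_empty, add_zero, sub_zero]
      have := point (2 * c) (by omega)
      have := point (2 * c + 1) hq
      have := abs_nonneg (∑ k ∈ upto b pos (2 * c), D.v k i - D.share j (2 * c) * ∑ k ∈ b, D.v k i)
      have := abs_nonneg
        (∑ k ∈ upto b pos (2 * c + 1), D.v k i - D.share j (2 * c + 1) * ∑ k ∈ b, D.v k i)
      exact ⟨by linarith, by linarith⟩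

open Classical in
/-- Every child inherits the invariant. -/
lemma child_inv (hb : D.Block j b) {eP eQ Φ : Fin d → ℝ} {γP γQ S : ℝ}
    (hnn : ∀ i, 0 ≤ E i ∧ 0 ≤ eP i ∧ 0 ≤ eQ i) (hγP : 0 ≤ γP) (hγQ : 0 ≤ γQ)
    (hlow : ∀ i, ¬ D.Hi j i → ∀ X, X ⊆ D.heavy j b i →
      |P i + ∑ k ∈ X, D.v k i| + D.slack j i ≤ Φ i ∧
      |P i + ∑ k ∈ b, D.v k i - ∑ k ∈ X, D.v k i| + D.slack j i ≤ Φ i)
    (hhigh : ∀ l, D.Hi j l → |P l| ≤ max (E l) (eP l) ∧
      |P l + ∑ k ∈ b, D.v k l| ≤ max (E l) (eQ l))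
    (hcP : D.Chain j eP γP) (hcQ : D.Chain j eQ γQ)
    (hS : ∑ i ∈ (D.hiSet j)ᶜ, D.wt j i * Φ i ^ 2 + 1 / 2 * ∑ l ∈ D.hiSet j, E l ^ 2 + γP + γQ ≤ S)
    (hR : D.Refined j b P E pos) {c : ℕ} (hc : c < 2 ^ D.g j) :
    D.Inv (j + 1) (child b pos (2 * c)) (fun i => P i + ∑ k ∈ upto b pos (2 * c), D.v k i)
      (S + 7 * 10 ^ 8 * (if (D.midSet j).Nonempty then (D.g j : ℝ) else 0)
        + 10 ^ 7 * ((D.hiSet j \ D.hiSet (j + 1)).card : ℝ)) := by
  have hq : 2 * c + 1 < 2 * 2 ^ D.g j := by omega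
  have hsum : ∀ i, P i + ∑ k ∈ upto b pos (2 * c), D.v k i + ∑ k ∈ child b pos (2 * c), D.v k i
      = P i + ∑ k ∈ upto b pos (2 * c + 1), D.v k i := fun i => by rw [sum_upto_succ]; ring
  obtain ⟨e1, he1, hch1, hb1⟩ := D.end_error hR (q := 2 * c) (by omega) hγP eP fun h => by
    rcases h with h | h
    · refine ⟨fun l => (hnn l).2.1, hcP, fun l hl => ?_⟩
      rw [h, upto_zero, Finset.sum_empty, add_zero]
      exact (hhigh l hl).1
    · omega
  obtain ⟨e2, he2, hch2, hb2⟩ := D.end_error hR hq hγQ eQ fun h => by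
    rcases h with h | h
    · omega
    · refine ⟨fun l => (hnn l).2.2, hcQ, fun l hl => ?_⟩
      rw [show upto b pos (2 * c + 1) = b from Finset.filter_true_of_mem fun x hx => by
        have := hR.pos_lt x hx; omega]
      exact (hhigh l hl).2
  obtain ⟨hg1, hc1⟩ := D.chain_succ hch1
  obtain ⟨hg2, hc2⟩ := D.chain_succ hch2
  refine ⟨D.phiNext j b pos (2 * c) Φ E e1 e2, E, e1, e2, _, _,
    fun i => ⟨(hnn i).1, he1 i, he2 i⟩, hg1, hg2, fun i hi X hX => ?_, fun l hl => ?_, hc1, hc2, ?_⟩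
  · rw [hsum]
    exact D.phi_bound hb hlow hR hc hb1 hb2 hX
  · have hl' := D.hi_anti (Nat.le_succ j) hl
    refine ⟨hb1 l hl', ?_⟩
    rw [hsum]
    exact hb2 l hl'
  · have h := D.phi_budget hR hq Φ e1 e2
    have hE : ∑ l ∈ D.hiSet j, E l ^ 2
        = ∑ l ∈ D.hiSet (j + 1), E l ^ 2 + ∑ l ∈ D.hiSet j \ D.hiSet (j + 1), E l ^ 2 := by
      rw [add_comm, Finset.sum_sdiff (D.hiSet_anti (Nat.le_succ j))]
    have : 0 ≤ ∑ l ∈ D.hiSet j \ D.hiSet (j + 1), e1 l ^ 2 := Finset.sum_nonneg fun l _ => sq_nonneg _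
    have : 0 ≤ ∑ l ∈ D.hiSet j \ D.hiSet (j + 1), e2 l ^ 2 := Finset.sum_nonneg fun l _ => sq_nonneg _
    linarith

end step

/-- Partial sums of a list, added to a starting point, stay below the bound. -/
def Within (P : Fin d → ℝ) (l : List (Fin N)) : Prop :=
  ∀ k, ∑ i, (P i + ((l.take k).map fun x => D.v x i).sum) ^ 2 ≤ D.lim

/-- What is to be shown of a block. -/
def Good (j : ℕ) : Prop :=
  ∀ b P, D.Block j b → D.Inv j b P (D.bud j) →
    ∃ l : List (Fin N), l.Nodup ∧ l.toFinset = b ∧ D.Within P l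

lemma list_sum_eq (l : List (Fin N)) (h : l.Nodup) (f : Fin N → ℝ) :
    (l.map f).sum = ∑ x ∈ l.toFinset, f x := (List.sum_toFinset f h).symm

lemma good_last {J : ℕ} (hJ : ∀ i, D.Lo J i ∧ ∀ k, D.v k i ≠ 0 → D.eps J i < D.v k i ^ 2) :
    D.Good J := by
  classical
  intro b P _ hI
  obtain ⟨Φ, E, eP, eQ, γP, γQ, -, hγP, hγQ, hlow, -, -, -, hS⟩ := hI
  refine ⟨b.toList, b.nodup_toList, b.toList_toFinset, fun k => ?_⟩
  have hhi : D.hiSet J = ∅ :=
    Finset.filter_false_of_mem fun i _ hi => D.hi_not_lo hi (hJ i).1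
  rw [hhi, Finset.compl_empty, Finset.sum_empty, mul_zero, add_zero] at hS
  have hnd : (b.toList.take k).Nodup := b.nodup_toList.sublist (List.take_sublist _ _)
  set X := (b.toList.take k).toFinset with hX
  have hXb : X ⊆ b := fun x hx => Finset.mem_toList.1 (List.mem_of_mem_take (List.mem_toFinset.1 hx))
  refine le_trans ?_ (D.bud_le J)
  calc ∑ i, (P i + ((b.toList.take k).map fun x => D.v x i).sum) ^ 2
      ≤ ∑ i, 2097152 * (D.wt J i * Φ i ^ 2) := by
        refine Finset.sum_le_sum fun i _ => ?_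
        rw [list_sum_eq _ hnd, ← hX]
        have hlo := (hJ i).1
        have h := (hlow i (fun h => D.hi_not_lo h hlo) (X.filter fun x => D.eps J i < D.v x i ^ 2) (by
          rw [heavy, if_pos hlo]; exact Finset.filter_subset_filter _ hXb)).1
        rw [Finset.sum_filter_of_ne fun x _ hx => (hJ i).2 x hx] at h
        have hs := D.slack_nonneg J i
        rw [← sq_abs]
        refine le_trans (pow_le_pow_left₀ (abs_nonneg _)
          (show |P i + ∑ x ∈ X, D.v x i| ≤ Φ i by linarith) 2) ?_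
        rw [← mul_assoc]
        exact le_mul_of_one_le_left (sq_nonneg _) (by have := D.wt_ge J i; linarith)
    _ = 2097152 * ∑ i, D.wt J i * Φ i ^ 2 := (Finset.mul_sum _ _ _).symm
    _ ≤ _ := by
        have : (0:ℝ) ≤ d := Nat.cast_nonneg d
        linarith

lemma good_step {j : ℕ} (h : D.Good (j + 1)) : D.Good j := by
  classical
  intro b P hb hI
  obtain ⟨Φ, E, eP, eQ, γP, γQ, hnn, hγP, hγQ, hlow, hhigh, hsmall, hcP, hcQ, hS⟩ := D.normalise hI
  obtain ⟨pos, hR⟩ := D.refine_block hb P E fun l hl => by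
    obtain ⟨h1, h2⟩ := hhigh l hl
    obtain ⟨h3, h4⟩ := hsmall l
    exact ⟨h1.trans (max_le_max le_rfl h3), h2.trans (max_le_max le_rfl h4)⟩
  have hinv : ∀ c, c < 2 ^ D.g j → D.Inv (j + 1) (child b pos (2 * c))
      (fun i => P i + ∑ k ∈ upto b pos (2 * c), D.v k i) (D.bud (j + 1)) := by
    intro c hc
    rw [bud_succ]
    exact D.child_inv hb hnn hγP hγQ hlow hhigh hcP hcQ hS hR hc
  have hpt : ∀ q, q < 2 * 2 ^ D.g j →
      ∑ i, (P i + ∑ k ∈ upto b pos q, D.v k i) ^ 2 ≤ D.lim := by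
    intro q hq
    refine le_trans ?_ (D.bud_le (j + 1))
    obtain ⟨h1, h2⟩ := D.inv_bound (hinv (q / 2) (by omega))
    rcases Nat.mod_two_eq_zero_or_one q with he | he
    · rwa [show 2 * (q / 2) = q by omega] at h1
    · refine le_trans (le_of_eq ?_) h2
      refine Finset.sum_congr rfl fun i _ => ?_
      rw [add_assoc, ← sum_upto_succ, show 2 * (q / 2) + 1 = q by omega]
  have seg : ∀ n, n < 2 * 2 ^ D.g j →
      ∃ l : List (Fin N), l.Nodup ∧ l.toFinset = upto b pos n ∧ D.Within P l := by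
    intro n
    induction n with
    | zero =>
      intro hn
      refine ⟨[], List.nodup_nil, by simp [upto], fun k => ?_⟩
      have := hpt 0 hn
      simpa [upto] using this
    | succ n ih =>
      intro hn
      obtain ⟨l, hnd, hl, hw⟩ := ih (by omega)
      set Pn : Fin d → ℝ := fun i => P i + ∑ k ∈ upto b pos n, D.v k i
      obtain ⟨m, hmnd, hm, hmw⟩ : ∃ m : List (Fin N),
          m.Nodup ∧ m.toFinset = child b pos n ∧ D.Within Pn m := by
        rcases Nat.mod_two_eq_zero_or_one n with he | he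
        · obtain ⟨c, rfl⟩ : ∃ c, n = 2 * c := ⟨n / 2, by omega⟩
          exact h _ _ (D.child_block hb hR (by omega)) (hinv c (by omega))
        · refine ⟨(child b pos n).toList, Finset.nodup_toList _, Finset.toList_toFinset _, fun k => ?_⟩
          have hone : (child b pos n).card ≤ 1 := Finset.card_le_one.2 fun x hx y hy => by
            simp only [child, Finset.mem_filter] at hx hy
            exact hR.odd_one x hx.1 y hy.1 (by omega) (hx.2.trans hy.2.symm)
          rcases Nat.eq_zero_or_pos k with rfl | hk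
          · simpa [Pn] using hpt n (by omega)
          · rw [List.take_of_length_le (by rw [Finset.length_toList]; omega)]
            simp only [list_sum_eq _ (Finset.nodup_toList _), Finset.toList_toFinset, Pn, add_assoc,
              ← sum_upto_succ]
            exact hpt (n + 1) hn
      refine ⟨l ++ m, ?_, ?_, fun k => ?_⟩
      · refine List.nodup_append.2 ⟨hnd, hmnd, fun a ha a' ha' hne => ?_⟩
        subst hne
        rw [← List.mem_toFinset, hl, upto, Finset.mem_filter] at ha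
        rw [← List.mem_toFinset, hm, child, Finset.mem_filter] at ha'
        omega
      · rw [List.toFinset_append, hl, hm]
        ext x
        simp only [upto, child, Finset.mem_union, Finset.mem_filter]
        constructor
        · rintro (⟨hx, h'⟩ | ⟨hx, h'⟩) <;> exact ⟨hx, by omega⟩
        · rintro ⟨hx, h'⟩
          rcases lt_or_ge (pos x) n with h'' | h''
          · exact Or.inl ⟨hx, h''⟩
          · exact Or.inr ⟨hx, by omega⟩
      · rcases le_or_gt k l.length with hk | hk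
        · rw [List.take_append_of_le_length hk]; exact hw k
        · rw [List.take_append, List.take_of_length_le hk.le]
          simp only [List.map_append, List.sum_append, list_sum_eq l hnd, hl, ← add_assoc]
          exact hmw _
  obtain ⟨l, h1, h2, h3⟩ := seg (2 * 2 ^ D.g j - 1) (by have := Nat.one_le_two_pow (n := D.g j); omega)
  refine ⟨l, h1, h2.trans (Finset.filter_true_of_mem fun x hx => ?_), h3⟩
  have := hR.pos_lt x hx
  omega

/-- The ordering. -/
theorem ordering : ∃ l : List (Fin N), l.Nodup ∧ l.toFinset = Finset.univ ∧ D.Within (fun _ => 0) l := by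
  classical
  obtain ⟨J, hJ⟩ := D.exists_last
  have hgood : ∀ n, n ≤ J → D.Good (J - n) := by
    intro n
    induction n with
    | zero => intro _; exact D.good_last (hJ J le_rfl)
    | succ n ih =>
      intro hn
      refine D.good_step ?_
      rw [show J - (n + 1) + 1 = J - n by omega]
      exact ih (by omega)
  have h0 := hgood J le_rfl
  rw [Nat.sub_self] at h0
  have hmean : ∀ i, D.mean 0 i = D.lam i := fun i => by simp [mean, t, lvl, tp_zero]
  have hgram : ∀ i l, D.gram Finset.univ i l = if i = l then D.lam i else 0 := D.horth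
  have hmass : ∀ i, D.Lo 0 i → D.gram Finset.univ i i ≤ 2 * tp (D.s 0 i) := fun i _ => by
    rw [hgram, if_pos rfl, ← hmean]; exact (D.mean_bounds 0 i).2
  refine h0 Finset.univ (fun _ => 0) ⟨fun i l => ?_, fun i hi => ?_⟩ ?_
  · rw [hgram]
    split_ifs
    · rw [hmean, sub_self, abs_zero]
      have := D.w_pos 0 i; have := D.w_pos 0 l
      have := tp_pos (max (min (D.s 0 i) (D.s 0 l)) 0 / 2)
      unfold dev; positivity
    · rw [sub_self, abs_zero]
      have := D.w_pos 0 i; have := D.w_pos 0 l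
      have := tp_pos (max (min (D.s 0 i) (D.s 0 l)) 0 / 2)
      unfold dev; positivity
  · have h1 : D.dust 0 Finset.univ i ≤ D.gram Finset.univ i i := by
      refine Finset.sum_le_sum fun k _ => ?_
      split_ifs
      · exact le_of_eq (pow_two _)
      · exact mul_self_nonneg _
    refine (h1.trans (hmass i hi)).trans (mul_le_mul ?_ (tp_le ?_) (tp_nonneg _) (by positivity))
    · have := D.g_le_w 0 i; have := D.g_big 0; nlinarith
    · simp only [Lo] at hi; have := D.g_big 0; linarith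
  · refine ⟨fun _ => 3, fun _ => 0, fun _ => 0, fun _ => 0, 0, 0, fun i => ⟨le_rfl, le_rfl, le_rfl⟩,
      le_rfl, le_rfl, fun i _ X hX => ?_, fun l _ => by simp [D.hsum], ?_, ?_, ?_⟩
    · simp only [D.hsum, zero_add, zero_sub, abs_neg, and_self]
      have hs := D.slack_le_one 0 i
      suffices |∑ k ∈ X, D.v k i| ≤ 2 by linarith
      by_cases hlo : D.Lo 0 i
      · rw [heavy, if_pos hlo] at hX
        set se := Real.sqrt (D.eps 0 i)
        have hse : 0 < se := Real.sqrt_pos.2 (D.eps_pos _ i)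
        have h1 : (∑ k ∈ X, |D.v k i|) * se ≤ 2 * tp (D.s 0 i) := by
          rw [Finset.sum_mul]
          refine le_trans ?_ (hmass i hlo)
          refine le_trans (Finset.sum_le_sum fun k hk => ?_)
            (Finset.sum_le_sum_of_subset_of_nonneg (Finset.subset_univ X)
              fun k _ _ => mul_self_nonneg _)
          have h := (Finset.mem_filter.1 (hX hk)).2
          rw [← abs_mul_abs_self (D.v k i)]
          exact mul_le_mul_of_nonneg_left
            (Real.sqrt_le_iff.2 ⟨abs_nonneg _, by rw [sq_abs]; exact h.le⟩) (abs_nonneg _)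
        have h2 : tp (D.s 0 i) ≤ se := by
          simp only [se, eps, sqrt_tp]
          refine tp_le ?_
          simp only [Lo] at hlo; have := D.g_big 0; linarith
        refine le_trans (Finset.abs_sum_le_sum_abs _ _) ?_
        refine le_of_mul_le_mul_right ?_ hse
        linarith
      · rw [heavy, if_neg hlo] at hX
        simp [Finset.subset_empty.1 hX]
    · intro k _; simp
    · intro k _; simp
    · simp only [bud, Finset.range_zero, Finset.filter_empty, Finset.sum_empty, Finset.sdiff_self,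
        Finset.card_empty, Nat.cast_zero, mul_zero, add_zero, ne_eq, OfNat.ofNat_ne_zero,
        not_false_eq_true, zero_pow, Finset.sum_const_zero]
      refine le_trans (Finset.sum_le_sum (g := fun _ => (9 / 2 : ℝ)) fun i _ => ?_) ?_
      · have := D.wt_le_half 0 i; linarith
      · rw [Finset.sum_const, nsmul_eq_mul]
        have : (((D.hiSet 0)ᶜ.card : ℕ) : ℝ) ≤ d := by
          exact_mod_cast (Finset.card_le_univ _).trans (by simp)
        linarith

end Sys

end Vale.Agent.P262
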