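import Mathlib
import Vale.Agent.P262.Main

/-!
Passing from arbitrary vectors to an orthogonal frame of their second moment, and from lists to
permutations.
-/

namespace Vale.Agent.P262

lemma exists_big : ∃ B, Big B := by
  have hc : (0 : ℝ) < Real.log 2 / 1000 := div_pos (Real.log_pos (by norm_num)) (by norm_num)
  have h := (isLittleO_pow_exp_pos_mul_atTop 20 hc).bound (c := 1 / 10 ^ 30) (by norm_num)
  obtain ⟨X, hX⟩ := Filter.eventually_atTop.1 h
  refine ⟨max 1000000 ⌈X⌉₊, le_max_left _ _, fun x hx => ?_⟩
  have hx1 : X ≤ x := le_trans (le_trans (Nat.le_ceil X) (by exact_mod_cast le_max_right _ _)) hx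
  have hx0 : 0 ≤ x := le_trans (Nat.cast_nonneg _) hx
  have h2 := hX x hx1
  rw [Real.norm_eq_abs, Real.norm_eq_abs, abs_of_nonneg (by positivity),
    abs_of_nonneg (Real.exp_nonneg _)] at h2
  have e : tp (x / 1000) = Real.exp (Real.log 2 / 1000 * x) := by
    rw [tp, Real.rpow_def_of_pos (by norm_num)]; congr 1; ring
  rw [e]
  linarith

/-- An orthonormal frame in which the second moment is diagonal. -/
lemma exists_frame {d N : ℕ} (v : Fin N → EuclideanSpace ℝ (Fin d)) :
    ∃ e : OrthonormalBasis (Fin d) ℝ (EuclideanSpace ℝ (Fin d)), ∀ i l, i ≠ l →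
      ∑ k, e.repr (v k) i * e.repr (v k) l = 0 := by
  classical
  set A : Matrix (Fin d) (Fin d) ℝ := Matrix.of fun a c => ∑ k, v k a * v k c with hA
  have hH : A.IsHermitian := by
    refine Matrix.IsHermitian.ext fun a c => ?_
    simp [hA, mul_comm]
  refine ⟨hH.eigenvectorBasis, fun i l hil => ?_⟩
  set e := hH.eigenvectorBasis with he
  have hr : ∀ k m, e.repr (v k) m = ∑ a, e m a * v k a := by
    intro k m
    rw [OrthonormalBasis.repr_apply_apply, PiLp.inner_apply]
    simp [mul_comm]
  have hm : ∀ a, ∑ c, A a c * e l c = hH.eigenvalues l * e l a := fun a => by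
    have := congrFun (hH.mulVec_eigenvectorBasis l) a
    simpa [Matrix.mulVec, dotProduct] using this
  have horth : ∑ a, e i a * e l a = 0 := by
    have := e.orthonormal.2 hil
    dsimp only at this
    rw [PiLp.inner_apply] at this
    simpa [mul_comm] using this
  calc ∑ k, e.repr (v k) i * e.repr (v k) l
      = ∑ a, e i a * ∑ c, A a c * e l c := by
        simp only [hr, hA, Matrix.of_apply, Finset.sum_mul, Finset.mul_sum]
        rw [Finset.sum_comm, Finset.sum_congr rfl fun c _ => Finset.sum_comm, Finset.sum_comm]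
        exact Finset.sum_congr rfl fun a _ => Finset.sum_congr rfl fun c _ =>
          Finset.sum_congr rfl fun k _ => by ring
    _ = ∑ a, e i a * (hH.eigenvalues l * e l a) := by simp only [hm]
    _ = hH.eigenvalues l * ∑ a, e i a * e l a := by
        rw [Finset.mul_sum]; exact Finset.sum_congr rfl fun a _ => by ring
    _ = 0 := by rw [horth, mul_zero]

end Vale.Agent.P262
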